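import Vale.Agent.P042.Curve.Splitting

/-!
# Points of the splitting ring above a good `x`
-/

open Finset Polynomial

namespace Vale.Agent.P042.Curve.Sm

noncomputable section

variable {p : ℕ} [hp : Fact p.Prime]

/-- The algebraic closure of the prime field. -/
abbrev KK (p : ℕ) [Fact p.Prime] : Type := AlgebraicClosure (ZMod p)

variable (A : Comp p)

instance algK : Algebra (k0 A) (KK p) :=
  (IsAlgClosed.lift : k0 A →ₐ[ZMod p] KK p).toRingHom.toAlgebra

instance towerK : IsScalarTower (ZMod p) (k0 A) (KK p) :=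
  IsScalarTower.of_algebraMap_eq fun c =>
    ((IsAlgClosed.lift : k0 A →ₐ[ZMod p] KK p).commutes c).symm

/-- Points of the splitting ring. -/
abbrev Pt : Type := Bring A →ₐ[k0 A] KK p

/-- `x` in the ring. -/
def xB : Bring A := ⟨xL A, xL_mem A⟩

/-- A root in the ring. -/
def rB (y : rts A) : Bring A := ⟨y.1, rts_mem A y.2⟩

instance : Fintype (rts A) := Polynomial.rootSetFintype _ _

/-- Every point above `x` is noncritical. -/
def GoodX (x : KK p) : Prop :=
  ∀ y : KK p, aeval x A.h + aeval y A.h = 0 → aeval y (derivative A.h) ≠ 0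

lemma aeval_hk {R : Type*} [CommRing R] [Algebra (k0 A) R] [Algebra (ZMod p) R]
    [IsScalarTower (ZMod p) (k0 A) R] (r : R) : aeval r (hk A) = aeval r A.h := by
  rw [hk, aeval_map_algebraMap]

lemma xL_aeval (f : (k0 A)[X]) : aeval (xL A) f = algebraMap (k0 A)[X] (LF A) f := by
  rw [xL, aeval_algebraMap_apply, aeval_X_left_apply]

lemma root_eq (y : rts A) : aeval (rB A y) (hk A) + aeval (xB A) (hk A) = 0 := by
  refine Subtype.ext ?_
  rw [Subalgebra.coe_add, aeval_subalgebra_coe, aeval_subalgebra_coe, Subalgebra.coe_zero]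
  have h1 : aeval y.1 ((hk A).map (algebraMap (k0 A) (RF A))
      + C (algebraMap (k0 A)[X] (RF A) (hk A))) = 0 := (mem_rootSet.1 y.2).2
  rw [map_add, aeval_C, aeval_map_algebraMap,
    ← IsScalarTower.algebraMap_apply (k0 A)[X] (RF A) (LF A), ← xL_aeval] at h1
  exact h1

lemma root_val (φ : Pt A) (y : rts A) :
    aeval (φ (xB A)) A.h + aeval (φ (rB A y)) A.h = 0 := by
  have h := congrArg φ (root_eq A y)
  rw [map_add, map_zero, ← aeval_algHom_apply, ← aeval_algHom_apply, aeval_hk, aeval_hk] at h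
  rwa [add_comm] at h

lemma point_inj {φ : Pt A} (hgood : GoodX A (φ (xB A))) {y y' : rts A}
    (h : φ (rB A y) = φ (rB A y')) : y = y' := by
  by_contra hne
  have hne' : rB A y - rB A y' ≠ 0 := fun e =>
    hne (Subtype.ext (congrArg (fun b : Bring A => (b : LF A)) (sub_eq_zero.1 e)))
  set D : Bring A := ∑ i ∈ range ((hk A).natDegree + 1), algebraMap (k0 A) (Bring A) ((hk A).coeff i)
    * ∑ j ∈ range i, rB A y ^ j * rB A y' ^ (i - 1 - j)
  have hD : D * (rB A y - rB A y') = aeval (rB A y) (hk A) - aeval (rB A y') (hk A) := by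
    simp only [D, aeval_eq_sum_range, Algebra.smul_def, ← Finset.sum_sub_distrib, Finset.sum_mul]
    refine Finset.sum_congr rfl fun i _ => ?_
    rw [mul_assoc, geom_sum₂_mul, mul_sub]
  have h0 : aeval (rB A y) (hk A) - aeval (rB A y') (hk A) = 0 := by
    linear_combination root_eq A y - root_eq A y'
  rw [h0, mul_eq_zero, or_iff_left hne'] at hD
  refine hgood (φ (rB A y)) (root_val A φ y) ?_
  have h2 := congrArg φ hD
  simp only [D, map_sum, map_mul, map_pow, map_zero, AlgHom.commutes, ← h] at h2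
  rw [← aeval_map_algebraMap (A := k0 A), ← derivative_map, ← hk]
  refine Eq.trans ?_ h2
  rw [derivative_apply, sum_over_range _ (by simp), map_sum]
  refine Finset.sum_congr rfl fun i _ => ?_
  rw [map_mul, aeval_C, map_pow, aeval_X, map_mul, map_natCast]
  have e : ∀ j ∈ range i, φ (rB A y) ^ j * φ (rB A y) ^ (i - 1 - j) = φ (rB A y) ^ (i - 1) := by
    intro j hj
    rw [Finset.mem_range] at hj
    rw [← pow_add]; congr 1; omega
  rw [Finset.sum_congr rfl e, Finset.sum_const, Finset.card_range, nsmul_eq_mul, mul_assoc]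

lemma gal_ext {g g' : Gal' A} (h : ∀ y ∈ rts A, g y = g' y) : g = g' := by
  have h1 : Algebra.adjoin (RF A) (rts A) = ⊤ := SplittingField.adjoin_rootSet _
  have := AlgHom.ext_of_adjoin_eq_top h1 (φ₁ := g.toAlgHom) (φ₂ := g'.toAlgHom) h
  exact AlgEquiv.ext fun a => DFunLike.congr_fun this a

lemma pt_ext {φ φ' : Pt A} (hx : φ (xB A) = φ' (xB A))
    (hr : ∀ y : rts A, φ (rB A y) = φ' (rB A y)) : φ = φ' := by
  refine AlgHom.ext fun b => ?_
  obtain ⟨b, hb⟩ := b
  induction hb using Algebra.adjoin_induction with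
  | mem y hy =>
    rcases hy with rfl | hy
    · exact hx
    · exact hr ⟨y, hy⟩
  | algebraMap c => exact (φ.commutes c).trans (φ'.commutes c).symm
  | add a b ha hb iha ihb =>
    exact (map_add φ ⟨a, ha⟩ ⟨b, hb⟩).trans ((congrArg₂ (· + ·) iha ihb).trans
      (map_add φ' ⟨a, ha⟩ ⟨b, hb⟩).symm)
  | mul a b ha hb iha ihb =>
    exact (map_mul φ ⟨a, ha⟩ ⟨b, hb⟩).trans ((congrArg₂ (· * ·) iha ihb).trans
      (map_mul φ' ⟨a, ha⟩ ⟨b, hb⟩).symm)

lemma galB_xB (g : Gal' A) : galB A g (xB A) = xB A := Subtype.ext (gal_xL A g)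

lemma galB_rB (g : Gal' A) (y : rts A) : galB A g (rB A y) = rB A ⟨g y.1, gal_rts A g y.2⟩ := rfl

lemma comp_galB_inj {φ : Pt A} (hgood : GoodX A (φ (xB A))) {g g' : Gal' A}
    (h : φ.comp (galB A g) = φ.comp (galB A g')) : g = g' := by
  refine gal_ext A fun y hy => ?_
  have h1 := DFunLike.congr_fun h (rB A ⟨y, hy⟩)
  rw [AlgHom.comp_apply, AlgHom.comp_apply, galB_rB, galB_rB] at h1
  exact congrArg Subtype.val (point_inj A hgood h1)

lemma galB_galB (g g' : Gal' A) (b : Bring A) : galB A g (galB A g' b) = galB A (g * g') b := rfl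

lemma galB_one (b : Bring A) : galB A 1 b = b := rfl

lemma fixed_B {c : Bring A} (hc : ∀ g, galB A g c = c) : ∃ f : (k0 A)[X], aeval (xB A) f = c := by
  obtain ⟨f, hf⟩ := exists_poly_of_fixed A c.2 fun g => congrArg Subtype.val (hc g)
  exact ⟨f, Subtype.ext (by rw [aeval_subalgebra_coe]; exact (xL_aeval A f).trans hf)⟩

lemma pt_transitive {φ φ' : Pt A} (hx : φ (xB A) = φ' (xB A)) :
    ∃ g : Gal' A, φ' = φ.comp (galB A g) := by
  classical
  let e := Fintype.equivFin (rts A)
  set b : (Bring A)[X] := ∑ i, C (rB A (e.symm i)) * X ^ (i : ℕ) with hb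
  have hcoeff : ∀ i : Fin _, b.coeff (i : ℕ) = rB A (e.symm i) := by
    intro i
    simp [hb, finsetSum_coeff, coeff_C_mul, coeff_X_pow, Fin.val_inj]
  set G : Gal' A → (Bring A)[X] := fun g => b.map (galB A g : Bring A →+* Bring A) with hG
  set P : (Bring A)[X][X] := ∏ g, (X - C (G g)) with hP
  have hinv : ∀ h : Gal' A, P.map (mapRingHom (galB A h : Bring A →+* Bring A)) = P := by
    intro h
    rw [hP, Polynomial.map_prod]
    refine Fintype.prod_equiv (Equiv.mulLeft h) _ _ fun g => ?_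
    rw [Polynomial.map_sub, map_X, map_C, coe_mapRingHom, hG, Polynomial.map_map]
    congr 2
  have hc : ∀ i j, φ ((P.coeff i).coeff j) = φ' ((P.coeff i).coeff j) := by
    intro i j
    obtain ⟨f, hf⟩ := fixed_B A (c := (P.coeff i).coeff j) fun h => by
      have := congrArg (fun F => (F.coeff i).coeff j) (hinv h)
      simpa [coeff_map] using this
    rw [← hf, ← aeval_algHom_apply, ← aeval_algHom_apply, hx]
  have hmap : P.map (mapRingHom (φ : Bring A →+* KK p))
      = P.map (mapRingHom (φ' : Bring A →+* KK p)) := by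
    ext i j
    simpa [coeff_map] using hc i j
  have h0 : (P.map (mapRingHom (φ : Bring A →+* KK p))).eval (b.map (φ' : Bring A →+* KK p)) = 0 := by
    rw [hmap, hP, Polynomial.map_prod, eval_prod]
    refine Finset.prod_eq_zero (mem_univ 1) ?_
    have : G 1 = b := by
      ext j
      simp [hG, coeff_map, galB_one]
    rw [Polynomial.map_sub, map_X, map_C, coe_mapRingHom, eval_sub, eval_X, eval_C, this, sub_self]
  rw [hP, Polynomial.map_prod, eval_prod, Finset.prod_eq_zero_iff] at h0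
  obtain ⟨g, -, hg⟩ := h0
  rw [Polynomial.map_sub, map_X, map_C, coe_mapRingHom, eval_sub, eval_X, eval_C, sub_eq_zero] at hg
  refine ⟨g, pt_ext A (by rw [AlgHom.comp_apply, galB_xB, hx]) fun y => ?_⟩
  have := congrArg (fun F : (KK p)[X] => F.coeff (e y : ℕ)) hg
  simpa [hG, coeff_map, hcoeff, Polynomial.map_map] using this

lemma algebra_integral : ∀ b : Bring A, IsIntegral (k0 A)[X] (b : LF A) :=
  fun b => isIntegral_mem A b.2

lemma exists_pt (x₀ : KK p) : ∃ φ : Pt A, φ (xB A) = x₀ := by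
  classical
  let u : (k0 A)[X] →ₐ[k0 A] Bring A := aeval (xB A)
  letI : Algebra (k0 A)[X] (Bring A) := u.toRingHom.toAlgebra
  haveI : IsScalarTower (k0 A) (k0 A)[X] (Bring A) :=
    IsScalarTower.of_algebraMap_eq fun c => (u.commutes c).symm
  have hu : ∀ f, ((u f : Bring A) : LF A) = algebraMap (k0 A)[X] (LF A) f := fun f => by
    rw [aeval_subalgebra_coe]; exact xL_aeval A f
  let vL : Bring A →ₐ[(k0 A)[X]] LF A :=
    { (Bring A).val.toRingHom with commutes' := fun f => hu f }
  haveI : Algebra.IsIntegral (k0 A)[X] (Bring A) :=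
    ⟨fun b => (isIntegral_algHom_iff vL Subtype.val_injective).1 (isIntegral_mem A b.2)⟩
  set ev : (k0 A)[X] →ₐ[k0 A] KK p := aeval x₀
  haveI : Algebra.IsIntegral (k0 A) (KK p) := by
    haveI : Algebra.IsIntegral (ZMod p) (KK p) := inferInstance
    exact ⟨fun a => (Algebra.IsIntegral.isIntegral (R := ZMod p) a).tower_top⟩
  set P0 : Ideal (k0 A)[X] := RingHom.ker ev.toRingHom with hP0
  haveI hmax : P0.IsMaximal := by
    have hprime : P0.IsPrime := RingHom.ker_isPrime _
    refine hprime.isMaximal fun h => ?_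
    obtain ⟨f, hf, hf0⟩ := Algebra.IsIntegral.isIntegral (R := k0 A) x₀
    have hmem : f ∈ P0 := by rw [hP0, RingHom.mem_ker]; exact hf0
    rw [h, Ideal.mem_bot] at hmem
    exact hf.ne_zero hmem
  have hker : RingHom.ker (algebraMap (k0 A)[X] (Bring A)) ≤ P0 := by
    intro f hf
    have h1 : algebraMap (k0 A)[X] (LF A) f = 0 := by
      rw [← hu]; exact congrArg Subtype.val hf
    rw [IsScalarTower.algebraMap_apply (k0 A)[X] (RF A) (LF A), map_eq_zero,
      map_eq_zero_iff _ (IsFractionRing.injective (k0 A)[X] (RF A))] at h1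
    rw [h1]; exact zero_mem _
  obtain ⟨Q, hQ, hQP⟩ := Ideal.exists_ideal_over_maximal_of_isIntegral (S := Bring A) P0 hker
  letI : Field (Bring A ⧸ Q) := Ideal.Quotient.field Q
  haveI : Q.LiesOver P0 := ⟨hQP.symm⟩
  letI : Field ((k0 A)[X] ⧸ P0) := Ideal.Quotient.field P0
  haveI hint : Algebra.IsIntegral ((k0 A)[X] ⧸ P0) (Bring A ⧸ Q) := inferInstance
  haveI : Algebra.IsAlgebraic ((k0 A)[X] ⧸ P0) (Bring A ⧸ Q) := hint.isAlgebraic
  let evq : ((k0 A)[X] ⧸ P0) →+* KK p := Ideal.Quotient.lift P0 ev.toRingHom fun a ha => ha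
  letI : Algebra ((k0 A)[X] ⧸ P0) (KK p) := evq.toAlgebra
  let lift : (Bring A ⧸ Q) →ₐ[(k0 A)[X] ⧸ P0] KK p := IsAlgClosed.lift
  have hcomm : ∀ f : (k0 A)[X], lift (Ideal.Quotient.mk Q (u f)) = ev f := by
    intro f
    have e : (Ideal.Quotient.mk Q (u f)) = algebraMap ((k0 A)[X] ⧸ P0) (Bring A ⧸ Q)
        (Ideal.Quotient.mk P0 f) := rfl
    rw [e, lift.commutes]
    rfl
  refine ⟨{ (lift.toRingHom.comp (Ideal.Quotient.mk Q)) with commutes' := fun c => ?_ }, ?_⟩
  · show lift (Ideal.Quotient.mk Q (algebraMap (k0 A) (Bring A) c)) = _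
    rw [← u.commutes c, hcomm, ev.commutes]
  · show lift (Ideal.Quotient.mk Q (xB A)) = x₀
    have := hcomm X
    simpa [u, ev] using this

/-- The component over the ring. -/
def PB : (Bring A)[X] :=
  A.P.map (eval₂RingHom ((algebraMap (k0 A) (Bring A)).comp (algebraMap (ZMod p) (k0 A))) (xB A))

/-- The component over rational functions. -/
def PR : (RF A)[X] :=
  A.P.map ((algebraMap (k0 A)[X] (RF A)).comp (mapRingHom (algebraMap (ZMod p) (k0 A))))

lemma PB_val : (PB A).map (Bring A).val.toRingHom = (PR A).map (algebraMap (RF A) (LF A)) := by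
  rw [PB, PR, Polynomial.map_map, Polynomial.map_map]
  congr 1
  refine Polynomial.ringHom_ext (fun c => ?_) ?_
  · simp only [RingHom.comp_apply, coe_eval₂RingHom, eval₂_C, coe_mapRingHom, map_C,
      ← IsScalarTower.algebraMap_apply (k0 A)[X] (RF A) (LF A)]
    exact IsScalarTower.algebraMap_apply (k0 A) (k0 A)[X] (LF A) _
  · simp only [RingHom.comp_apply, coe_eval₂RingHom, eval₂_X, coe_mapRingHom, map_X,
      ← IsScalarTower.algebraMap_apply (k0 A)[X] (RF A) (LF A)]
    rfl

lemma PR_monic : (PR A).Monic := A.monic.map _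

lemma PR_dvd : PR A ∣ Qpoly A := by
  obtain ⟨T, hT⟩ := A.dvd
  set f := (algebraMap (k0 A)[X] (RF A)).comp (mapRingHom (algebraMap (ZMod p) (k0 A)))
  refine ⟨T.map f, ?_⟩
  rw [PR, ← Polynomial.map_mul, ← hT, Polynomial.map_add, map_C, Polynomial.map_map, Qpoly, hk,
    Polynomial.map_map, add_comm]
  congr 2
  refine RingHom.ext fun c => ?_
  simp only [f, RingHom.comp_apply, coe_mapRingHom, map_C]
  exact IsScalarTower.algebraMap_apply (k0 A) (k0 A)[X] (RF A) _

lemma PR_irreducible : Irreducible (PR A) := by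
  set g := mapRingHom (algebraMap (ZMod p) (k0 A)) with hg
  have hm : (A.P.map g).Monic := A.monic.map _
  have e : PR A = (A.P.map g).map (algebraMap (k0 A)[X] (RF A)) := by
    rw [PR, Polynomial.map_map]
  rw [e, ← hm.irreducible_iff_irreducible_map_fraction_map]
  refine hm.irreducible_of_irreducible_map (mapRingHom (algebraMap (k0 A) (KK p))) _ ?_
  rw [Polynomial.map_map, hg, mapRingHom_comp, ← IsScalarTower.algebraMap_eq]
  exact A.irred

lemma PR_splits : ((PR A).map (algebraMap (RF A) (LF A))).Splits :=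
  (SplittingField.splits (Qpoly A)).of_dvd
    ((Polynomial.map_ne_zero_iff (algebraMap (RF A) (LF A)).injective).2 (Qpoly_ne_zero A))
    (Polynomial.map_dvd _ (PR_dvd A))

/-- The roots of the component. -/
def rtsP : Set (rts A) := {y | aeval y.1 (PR A) = 0}

lemma rtsP_nonempty : (rtsP A).Nonempty := by
  obtain ⟨y, hy⟩ := (PR_splits A).exists_eval_eq_zero (by
    rw [degree_map]
    exact (natDegree_pos_iff_degree_pos.1 (PR_irreducible A).natDegree_pos).ne')
  rw [eval_map, ← aeval_def] at hy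
  obtain ⟨T, hT⟩ := PR_dvd A
  refine ⟨⟨y, mem_rootSet.2 ⟨Qpoly_ne_zero A, ?_⟩⟩, hy⟩
  refine (congrArg (aeval y) hT).trans ?_
  rw [map_mul, hy, zero_mul]

lemma rtsP_transitive {y y' : rts A} (hy : y ∈ rtsP A) (hy' : y' ∈ rtsP A) :
    ∃ g : Gal' A, g y.1 = y'.1 := by
  have hmin : minpoly (RF A) y.1 = PR A :=
    (minpoly.eq_of_irreducible_of_monic (PR_irreducible A) hy (PR_monic A)).symm
  have hmin' : minpoly (RF A) y'.1 = PR A :=
    (minpoly.eq_of_irreducible_of_monic (PR_irreducible A) hy' (PR_monic A)).symm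
  have h := (Normal.minpoly_eq_iff_mem_orbit (F := RF A) (E := LF A)).1 (hmin.trans hmin'.symm)
  obtain ⟨g, hg⟩ := MulAction.mem_orbit_iff.1 h
  refine ⟨(g : Gal' A).symm, ?_⟩
  rw [← hg, AlgEquiv.smul_def, AlgEquiv.symm_apply_apply]

lemma galP {g : Gal' A} {y : rts A} (hy : y ∈ rtsP A) : ⟨g y.1, gal_rts A g y.2⟩ ∈ rtsP A := by
  show aeval (g y.1) (PR A) = 0
  rw [aeval_algEquiv, AlgHom.comp_apply, show aeval y.1 (PR A) = 0 from hy]
  simp

lemma PB_eval_root {y : rts A} (hy : y ∈ rtsP A) : (PB A).eval (rB A y) = 0 := by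
  refine Subtype.ext ?_
  have h := congrArg (fun f => f.eval y.1) (PB_val A)
  rw [eval_map, eval_map, ← aeval_def, show aeval y.1 (PR A) = 0 from hy] at h
  exact (eval₂_hom (p := PB A) (Bring A).val.toRingHom (rB A y)).symm.trans h

lemma exists_root_over {φ : Pt A} {v : KK p}
    (hv : ((PB A).map (φ : Bring A →+* KK p)).eval v = 0) : ∃ y ∈ rtsP A, φ (rB A y) = v := by
  classical
  have hm : ((PB A).map (φ : Bring A →+* KK p)).Monic := (A.monic.map _).map _
  have hroots : ∀ a ∈ ((PR A).map (algebraMap (RF A) (LF A))).roots,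
      ∃ y ∈ rtsP A, (y : LF A) = a := by
    intro a ha
    have h := (mem_roots'.1 ha).2
    rw [IsRoot.def, eval_map, ← aeval_def] at h
    obtain ⟨T, hT⟩ := PR_dvd A
    exact ⟨⟨a, mem_rootSet.2 ⟨Qpoly_ne_zero A, (congrArg (aeval a) hT).trans (by
      rw [map_mul, h, zero_mul])⟩⟩, h, rfl⟩
  set M := ((PR A).map (algebraMap (RF A) (LF A))).roots.attach with hM
  choose ρ hρ hρ' using hroots
  have he : PB A = (M.map fun a => X - C (rB A (ρ a.1 a.2))).prod := by
    refine Polynomial.map_injective (f := (Bring A).val.toRingHom) Subtype.val_injective ?_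
    rw [PB_val, Polynomial.map_multiset_prod, Multiset.map_map]
    conv_lhs => rw [(PR_splits A).eq_prod_roots_of_monic ((PR_monic A).map _)]
    rw [hM]
    conv_lhs => rw [← Multiset.attach_map_val ((PR A).map (algebraMap (RF A) (LF A))).roots,
      Multiset.map_map]
    congr 1
    refine Multiset.map_congr rfl fun a _ => ?_
    simp only [Function.comp_apply, Polynomial.map_sub, map_X, map_C]
    rw [show ((Bring A).val.toRingHom (rB A (ρ a.1 a.2)) : LF A) = a.1 from hρ' a.1 a.2]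
  rw [he, Polynomial.map_multiset_prod, eval_multiset_prod, Multiset.prod_eq_zero_iff,
    Multiset.map_map, Multiset.map_map, Multiset.mem_map] at hv
  obtain ⟨a, -, ha⟩ := hv
  simp only [Function.comp_apply, Polynomial.map_sub, map_X, map_C, eval_sub, eval_X, eval_C,
    sub_eq_zero] at ha
  exact ⟨ρ a.1 a.2, hρ _ _, ha.symm⟩

lemma PB_map_pt (φ : Pt A) : (PB A).map (φ : Bring A →+* KK p)
    = A.P.map (eval₂RingHom (algebraMap (ZMod p) (KK p)) (φ (xB A))) := by
  rw [PB, Polynomial.map_map]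
  congr 1
  refine Polynomial.ringHom_ext (fun c => ?_) (by simp)
  simp [← IsScalarTower.algebraMap_apply]

lemma onCurve_root (φ : Pt A) {y : rts A} (hy : y ∈ rtsP A) :
    OnCurve A (φ (xB A), φ (rB A y)) := by
  show (A.P.map (eval₂RingHom (algebraMap (ZMod p) (KK p)) (φ (xB A)))).eval (φ (rB A y)) = 0
  have h2 : φ ((PB A).eval (rB A y))
      = ((PB A).map (φ : Bring A →+* KK p)).eval (φ (rB A y)) := by
    rw [eval_map, ← RingHom.coe_coe φ, ← eval₂_hom]
  rw [← PB_map_pt, ← h2, PB_eval_root A hy, map_zero]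

lemma exists_pt_over {x v : KK p} (hc : OnCurve A (x, v)) {y : rts A} (hy : y ∈ rtsP A) :
    ∃ φ : Pt A, φ (xB A) = x ∧ φ (rB A y) = v := by
  obtain ⟨φ, hφ⟩ := exists_pt A x
  obtain ⟨y', hy', hv⟩ := exists_root_over A (φ := φ) (v := v) (by rw [PB_map_pt, hφ]; exact hc)
  obtain ⟨g, hg⟩ := rtsP_transitive A hy hy'
  refine ⟨φ.comp (galB A g), by rw [AlgHom.comp_apply, galB_xB, hφ], ?_⟩
  rw [AlgHom.comp_apply, galB_rB, ← hv]
  exact congrArg (fun t => φ (rB A t)) (Subtype.ext hg)

section Twist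

variable (e : k0 A ≃+* k0 A)

lemma tau_hom_root {y : rts A} (hy : y ∈ rtsP A) :
    ⟨tau A e y.1, tau_rts A e y.2⟩ ∈ rtsP A := by
  show aeval (tau A e y.1) (PR A) = 0
  have h : tau A e (aeval y.1 (PR A)) = 0 := by
    rw [show aeval y.1 (PR A) = 0 from hy, map_zero]
  rw [aeval_def, hom_eval₂] at h
  rw [aeval_def]
  refine Eq.trans ?_ h
  rw [PR, eval₂_map, eval₂_map]
  congr 1
  refine Polynomial.ringHom_ext (fun c => ?_) ?_
  · simp only [RingHom.comp_apply, coe_mapRingHom, map_C,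
      ← IsScalarTower.algebraMap_apply (k0 A)[X] (RF A) (LF A), tau_poly, RingHom.coe_coe,
      e_algebraMap]
  · simp only [RingHom.comp_apply, coe_mapRingHom, map_X,
      ← IsScalarTower.algebraMap_apply (k0 A)[X] (RF A) (LF A), tau_poly]

lemma twist_const (g : Gal' A) (c : k0 A) :
    twist A e g (algebraMap (k0 A) (Bring A) c) = algebraMap (k0 A) (Bring A) (e c) := by
  refine Subtype.ext ?_
  show tau A e (g (algebraMap (k0 A) (LF A) c)) = algebraMap (k0 A) (LF A) (e c)
  rw [gal_const, tau_const]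

lemma twist_xB (g : Gal' A) : twist A e g (xB A) = xB A := by
  refine Subtype.ext ?_
  show tau A e (g (xL A)) = xL A
  rw [gal_xL, xL, tau_poly, map_X]

lemma twist_aeval_xB (g : Gal' A) (f : (ZMod p)[X]) :
    twist A e g (aeval (xB A) (f.map (algebraMap (ZMod p) (k0 A))))
      = aeval (xB A) (f.map (algebraMap (ZMod p) (k0 A))) := by
  conv_lhs => rw [aeval_def, hom_eval₂, twist_xB]
  rw [eval₂_map, aeval_def, eval₂_map]
  congr 1
  refine RingHom.ext fun c => ?_
  simp only [RingHom.comp_apply, twist_const, e_algebraMap]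

lemma exists_twist (m : ℕ) (he : ∀ c : k0 A, e c = c ^ p ^ m) (φ : Pt A)
    (hx : φ (xB A) ^ p ^ m = φ (xB A)) :
    ∃ g : Gal' A, ∀ b, φ b ^ p ^ m = φ (twist A e g b) := by
  haveI : ExpChar (KK p) p := ExpChar.prime hp.out
  let ψ0 : Bring A →+* KK p :=
    (iterateFrobenius (KK p) p m).comp ((φ : Bring A →+* KK p).comp (twist A e.symm 1))
  let ψ : Pt A := { ψ0 with
    commutes' := fun c => show ψ0 (algebraMap (k0 A) (Bring A) c) = _ from by
      show iterateFrobenius (KK p) p m (φ (twist A e.symm 1 (algebraMap (k0 A) (Bring A) c))) = _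
      rw [twist_const, AlgHom.commutes, iterateFrobenius_def, ← map_pow, ← he,
        RingEquiv.apply_symm_apply] }
  have hψ : ψ (xB A) = φ (xB A) := by
    show iterateFrobenius (KK p) p m (φ (twist A e.symm 1 (xB A))) = _
    rw [twist_xB, iterateFrobenius_def, hx]
  obtain ⟨g₀, hg₀⟩ := pt_transitive A hψ.symm
  refine ⟨conjTau A e.symm g₀, fun b => ?_⟩
  have h1 := DFunLike.congr_fun hg₀ (twist A e 1 b)
  have h2 : ψ (twist A e 1 b) = φ b ^ p ^ m := by
    show iterateFrobenius (KK p) p m (φ (twist A e.symm 1 (twist A e 1 b))) = _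
    rw [iterateFrobenius_def]
    congr 2
    exact Subtype.ext (tau_tau' A e b)
  rw [← h2, h1, AlgHom.comp_apply]
  refine congrArg φ (Subtype.ext ?_)
  show g₀ (tau A e b) = tau A e (conjTau A e.symm g₀ b)
  rw [conjTau_apply, RingEquiv.symm_symm, tau_tau]

lemma twist_unique (m : ℕ) (φ : Pt A) (hgood : GoodX A (φ (xB A))) {g g' : Gal' A}
    (hg : ∀ b, φ b ^ p ^ m = φ (twist A e g b)) (hg' : ∀ b, φ b ^ p ^ m = φ (twist A e g' b)) :
    g = g' := by
  refine gal_ext A fun y hy => ?_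
  have h : φ (twist A e g (rB A ⟨y, hy⟩)) = φ (twist A e g' (rB A ⟨y, hy⟩)) :=
    (hg _).symm.trans (hg' _)
  have h' : φ (rB A ⟨tau A e (g y), tau_rts A e (gal_rts A g hy)⟩)
      = φ (rB A ⟨tau A e (g' y), tau_rts A e (gal_rts A g' hy)⟩) := h
  exact (tau A e).injective (congrArg Subtype.val (point_inj A hgood h'))

end Twist

end

end Vale.Agent.P042.Curve.Sm
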