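import Vale.Agent.P042.Curve.Layer
import Vale.Agent.P042.Curve.Points

/-!
# The points of the splitting ring split by their twist
-/

open Finset Polynomial

namespace Vale.Agent.P042.Curve.Sm

open Vale.Agent.P042.Upper

noncomputable section

variable {p : ℕ} [hp : Fact p.Prime] (A : Comp p)

instance : ExpChar (k0 A) p := ExpChar.prime hp.out

instance : CharP (Bring A) p :=
  charP_of_injective_algebraMap (algebraMap (k0 A) (Bring A)).injective p

instance : DecidableEq (Pt A) := Classical.decEq _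

instance : DecidableEq (KK p) := Classical.decEq _

/-- The Frobenius of the coefficient field. -/
def eQ (s : ℕ) : k0 A ≃+* k0 A := iterateFrobeniusEquiv (k0 A) p (2 * s)

lemma eQ_apply (s : ℕ) (c : k0 A) : eQ A s c = c ^ p ^ (2 * s) := rfl

/-- The good `x` fixed by Frobenius. -/
def XS (s : ℕ) : Finset (KK p) := by
  classical exact (WeilProof.fixk p (2 * s)).filter (GoodX A)

lemma mem_XS {s : ℕ} {x : KK p} :
    x ∈ XS A s ↔ x ∈ WeilProof.fixk p (2 * s) ∧ GoodX A x := by
  classical simp [XS]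

/-- A point above `x`. -/
def phi0 (x : KK p) : Pt A := (exists_pt A x).choose

lemma phi0_x (x : KK p) : phi0 A x (xB A) = x := (exists_pt A x).choose_spec

/-- The points above the good fixed `x`. -/
def allPts (s : ℕ) : Finset (Pt A) :=
  (XS A s).biUnion fun x => univ.image fun g => (phi0 A x).comp (galB A g)

lemma mem_allPts {s : ℕ} {φ : Pt A} : φ ∈ allPts A s ↔ φ (xB A) ∈ XS A s := by
  simp only [allPts, Finset.mem_biUnion, Finset.mem_image, mem_univ, true_and]
  constructor
  · rintro ⟨x, hx, g, rfl⟩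
    rwa [AlgHom.comp_apply, galB_xB, phi0_x]
  · intro h
    obtain ⟨g, hg⟩ := pt_transitive A (φ := phi0 A (φ (xB A))) (φ' := φ) (phi0_x A _)
    exact ⟨_, h, g, hg.symm⟩

lemma card_allPts (s : ℕ) : (allPts A s).card = Fintype.card (Gal' A) * (XS A s).card := by
  rw [allPts, Finset.card_biUnion]
  · rw [Finset.sum_congr rfl fun x hx => Finset.card_image_of_injective _ fun g g' h =>
      comp_galB_inj A (φ := phi0 A x) (by rw [phi0_x]; exact ((mem_XS A).1 hx).2) h,
      Finset.sum_const, card_univ, smul_eq_mul, mul_comm]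
  · intro x _ x' _ hne
    rw [Function.onFun, Finset.disjoint_left]
    intro φ h1 h2
    simp only [Finset.mem_image, mem_univ, true_and] at h1 h2
    obtain ⟨g, rfl⟩ := h1
    obtain ⟨g', hg'⟩ := h2
    apply hne
    have := DFunLike.congr_fun hg' (xB A)
    simpa [galB_xB, phi0_x] using this.symm

lemma fixk_pow {n : ℕ} (hn : 1 ≤ n) {a : KK p} (ha : a ∈ WeilProof.fixk p n) : a ^ p ^ n = a := by
  rwa [WeilProof.mem_fixk p hn, WeilProof.fr_iterate] at ha

/-- The points with twist `g`. -/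
def fibre (s : ℕ) (g : Gal' A) : Finset (Pt A) := by
  classical exact (allPts A s).filter fun φ => ∀ b, φ b ^ p ^ (2 * s) = φ (twist A (eQ A s) g b)

lemma mem_fibre {s : ℕ} {g : Gal' A} {φ : Pt A} :
    φ ∈ fibre A s g ↔ φ ∈ allPts A s ∧ ∀ b, φ b ^ p ^ (2 * s) = φ (twist A (eQ A s) g b) := by
  classical simp [fibre]

lemma fibre_disjoint (s : ℕ) {g g' : Gal' A} (hne : g ≠ g') :
    Disjoint (fibre A s g) (fibre A s g') := by
  rw [Finset.disjoint_left]
  intro φ h h'
  rw [mem_fibre] at h h'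
  exact hne (twist_unique A (eQ A s) (2 * s) φ ((mem_XS A).1 ((mem_allPts A).1 h.1)).2 h.2 h'.2)

lemma sum_card_fibre {s : ℕ} (hs : 1 ≤ s) :
    ∑ g, (fibre A s g).card = Fintype.card (Gal' A) * (XS A s).card := by
  rw [← card_allPts, ← Finset.card_biUnion fun g _ g' _ hne => fibre_disjoint A s hne]
  congr 1
  ext φ
  simp only [Finset.mem_biUnion, mem_univ, true_and, mem_fibre]
  refine ⟨fun ⟨_, h, _⟩ => h, fun h => ?_⟩
  obtain ⟨g, hg⟩ := exists_twist A (eQ A s) (2 * s) (eQ_apply A s) φ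
    (fixk_pow (by omega) ((mem_XS A).1 ((mem_allPts A).1 h)).1)
  exact ⟨g, h, hg⟩

lemma card_XS_le {s : ℕ} (hs : 1 ≤ s) : (XS A s).card ≤ p ^ (2 * s) := by
  classical
  rw [← WeilProof.card_fixk p (show 1 ≤ 2 * s by omega), XS]
  exact Finset.card_filter_le _ _

lemma derivative_h_ne : derivative A.h ≠ 0 := by
  intro h
  have := congrArg (fun f => f.coeff (A.h.natDegree - 1)) h
  have h2 := A.two_le
  simp only [coeff_derivative, coeff_zero, show A.h.natDegree - 1 + 1 = A.h.natDegree by omega,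
    ← Nat.cast_add_one] at this
  rcases mul_eq_zero.1 this with h3 | h3
  · exact leadingCoeff_ne_zero.2 (fun h0 => by rw [h0, natDegree_zero] at h2; omega) h3
  · exact natDegree_cast_ne_zero A (ZMod p) h3

/-- The bad `x`. -/
def badX : Finset (KK p) :=
  ((derivative A.h).map (algebraMap (ZMod p) (KK p))).roots.toFinset.biUnion fun v =>
    (A.h.map (algebraMap (ZMod p) (KK p)) + C (aeval v A.h)).roots.toFinset

lemma hK_ne (c : KK p) : A.h.map (algebraMap (ZMod p) (KK p)) + C c ≠ 0 := by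
  intro h
  have := congrArg natDegree h
  rw [natDegree_add_C, natDegree_map, natDegree_zero] at this
  have := A.two_le; omega

lemma mem_badX {x : KK p} (h : ¬ GoodX A x) : x ∈ badX A := by
  simp only [GoodX, not_forall, not_not] at h
  obtain ⟨v, hv, hv'⟩ := h
  simp only [badX, Finset.mem_biUnion, Multiset.mem_toFinset]
  refine ⟨v, ?_, ?_⟩
  · rw [mem_roots ((Polynomial.map_ne_zero_iff (algebraMap (ZMod p) (KK p)).injective).2
      (derivative_h_ne A)), IsRoot.def, eval_map, ← aeval_def]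
    exact hv'
  · rw [mem_roots (hK_ne A _), IsRoot.def, eval_add, eval_C, eval_map, ← aeval_def]
    exact hv

lemma le_card_XS {s : ℕ} (hs : 1 ≤ s) : p ^ (2 * s) ≤ (XS A s).card + (badX A).card := by
  classical
  rw [← WeilProof.card_fixk p (show 1 ≤ 2 * s by omega)]
  refine (Finset.card_le_card fun x hx => ?_).trans (Finset.card_union_le _ _)
  by_cases h : GoodX A x
  · exact Finset.mem_union_left _ ((mem_XS A).2 ⟨hx, h⟩)
  · exact Finset.mem_union_right _ (mem_badX A h)

lemma card_fibre_le : ∃ C : ℕ, ∀ s : ℕ, 1 ≤ s → ∀ g : Gal' A,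
    (fibre A s g).card ≤ p ^ (2 * s) + C * p ^ s := by
  haveI : ExpChar (Bring A) p := ExpChar.prime hp.out
  haveI : ExpChar (KK p) p := ExpChar.prime hp.out
  set T := ((infPlaces A).C + Fintype.card (Gal' A) + 6) ^ 2
  refine ⟨4 * (infPlaces A).C + 4 * Fintype.card (Gal' A) + 8 + Fintype.card (Gal' A) * T,
    fun s hs g => ?_⟩
  have hq : p ^ s * p ^ s = p ^ (2 * s) := by rw [← pow_add]; congr 1; omega
  rcases le_or_gt T (p ^ s) with hT | hT
  · have h := (infPlaces A).stepanov (1 : Gal' A) p (inf_exact A 1) (twist A (eQ A s) g)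
      (twistPerm A (eQ A s) g) (fun i n x hx => twist_Fil A (eQ A s) g i n x hx) s hT (fibre A s g)
      (fun φ hφ b => by rw [hq]; exact ((mem_fibre A).1 hφ).2 b)
    rw [hq] at h
    refine h.trans ?_
    rw [add_mul (4 * (infPlaces A).C + 4 * Fintype.card (Gal' A) + 8)]
    omega
  · have h1 : (fibre A s g).card ≤ (allPts A s).card :=
      Finset.card_le_card fun φ hφ => ((mem_fibre A).1 hφ).1
    rw [card_allPts] at h1
    have h2 := Nat.mul_le_mul_left (Fintype.card (Gal' A)) (card_XS_le A hs)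
    have h3 : Fintype.card (Gal' A) * p ^ (2 * s) ≤ Fintype.card (Gal' A) * T * p ^ s := by
      rw [← hq, ← mul_assoc]
      exact Nat.mul_le_mul_right _ (Nat.mul_le_mul_left _ hT.le)
    rw [add_mul (4 * (infPlaces A).C + 4 * Fintype.card (Gal' A) + 8)]
    omega

/-- The trace of `g x` as an element of the prime field. -/
def trc (g : (ZMod p)[X]) (n : ℕ) (x : KK p) : ZMod p :=
  WeilProof.coord p
    (((List.range n).map fun i => (WeilProof.fr p)^[i] ((WeilProof.fK p g).eval x)).sum)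

lemma trc_spec (g : (ZMod p)[X]) {n : ℕ} (hn : 1 ≤ n) {x : KK p} (hx : x ^ p ^ n = x) :
    ∑ i ∈ range n, (aeval x g) ^ p ^ i = algebraMap (ZMod p) (KK p) (trc g n x) := by
  haveI : ExpChar (KK p) p := ExpChar.prime hp.out
  have hS : (((List.range n).map fun i => (WeilProof.fr p)^[i] ((WeilProof.fK p g).eval x)).sum)
      = ∑ i ∈ range n, (aeval x g) ^ p ^ i := by
    rw [← List.sum_toFinset _ List.nodup_range, List.toFinset_range]
    refine Finset.sum_congr rfl fun i _ => ?_
    rw [WeilProof.fr_iterate, WeilProof.fK, eval_map, aeval_def]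
  rw [trc, hS, WeilProof.coord_spec]
  rw [WeilProof.fr_apply, sum_pow_char]
  simp only [← pow_mul, ← pow_succ]
  have hfix : (aeval x g) ^ p ^ n = aeval x g := by
    rw [← WeilProof.fr_iterate]
    have : ∀ m, (WeilProof.fr p)^[m] (aeval x g) = aeval ((WeilProof.fr p)^[m] x) g := by
      intro m
      induction m with
      | zero => rfl
      | succ m ih =>
        rw [Function.iterate_succ_apply', Function.iterate_succ_apply', ih]
        have := WeilProof.fr_eval p g ((WeilProof.fr p)^[m] x)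
        rwa [WeilProof.fK, eval_map, ← aeval_def, eval_map, ← aeval_def] at this
    rw [this, WeilProof.fr_iterate, hx]
  have h1 := Finset.sum_range_succ' (fun i => (aeval x g) ^ p ^ i) n
  have h2 := Finset.sum_range_succ (fun i => (aeval x g) ^ p ^ i) n
  rw [h2, pow_zero, pow_one, hfix] at h1
  exact (add_right_cancel h1).symm

/-- The layer of `g x`. -/
def layerData (g : (ZMod p)[X]) (hg : 1 ≤ g.natDegree) (hgp : g.natDegree < p) :
    LayerData (k0 A) (Bring A) (Gal' A) p where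
  P := infPlaces A
  exact' := inf_exact A
  sep := inf_sep A
  g := aeval (xB A) (g.map (algebraMap (ZMod p) (k0 A)))
  d := g.natDegree
  d_pos := hg
  d_lt := hgp
  pole_g i := by
    have h := inf_pole_poly A i (g.map (algebraMap (ZMod p) (k0 A)))
      ((Polynomial.map_ne_zero_iff (algebraMap (ZMod p) (k0 A)).injective).2
        (fun h => by rw [h, natDegree_zero] at hg; omega))
      (b := aeval (xB A) (g.map (algebraMap (ZMod p) (k0 A))))
      (by rw [aeval_subalgebra_coe]; exact xL_aeval A _)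
    rwa [natDegree_map] at h

lemma card_trace_le (g : (ZMod p)[X]) (hg : 1 ≤ g.natDegree) (hgp : g.natDegree < p) :
    ∃ C : ℕ, ∀ s : ℕ, 1 ≤ s → ∀ (σ : Gal' A) (c : ZMod p),
      p * ((fibre A s σ).filter fun φ => trc g (2 * s) (φ (xB A)) = c).card
        ≤ p ^ (2 * s) + C * p ^ s := by
  set L := layerData A g hg hgp with hL
  set T := (L.places.C + Fintype.card (Gal' A) + 6) ^ 2
  refine ⟨4 * L.places.C + 4 * Fintype.card (Gal' A) + 8 + p * Fintype.card (Gal' A) * T,
    fun s hs σ c => ?_⟩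
  have hq : p ^ s * p ^ s = p ^ (2 * s) := by rw [← pow_add]; congr 1; omega
  set S := (fibre A s σ).filter fun φ => trc g (2 * s) (φ (xB A)) = c with hS
  rcases le_or_gt T (p ^ s) with hT | hT
  · have h := L.stepanov_trace (1 : Gal' A) (twist A (eQ A s) σ)
      (twist_aeval_xB A (eQ A s) σ g) (twistPerm A (eQ A s) σ)
      (fun i n x hx => twist_Fil A (eQ A s) σ i n x hx) s hT c.val S
      (fun φ hφ b => by rw [hq]; exact ((mem_fibre A).1 (Finset.mem_filter.1 hφ).1).2 b)
      (fun φ hφ => by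
        obtain ⟨h1, h2⟩ := Finset.mem_filter.1 hφ
        have hx := ((mem_XS A).1 ((mem_allPts A).1 ((mem_fibre A).1 h1).1)).1
        have e : φ L.g = aeval (φ (xB A)) g := by
          show φ (aeval (xB A) (g.map (algebraMap (ZMod p) (k0 A)))) = _
          rw [← aeval_algHom_apply, aeval_map_algebraMap]
        rw [e, trc_spec g (by omega) (fixk_pow (by omega) hx), h2, ← map_natCast (algebraMap (ZMod p) (KK p)),
          ZMod.natCast_zmod_val])
    rw [hq] at h
    refine h.trans ?_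
    rw [add_mul (4 * L.places.C + 4 * Fintype.card (Gal' A) + 8)]
    omega
  · have h1 : S.card ≤ (allPts A s).card :=
      (Finset.card_filter_le _ _).trans
        (Finset.card_le_card fun φ hφ => ((mem_fibre A).1 hφ).1)
    rw [card_allPts] at h1
    have h2 := h1.trans (Nat.mul_le_mul_left _ (card_XS_le A hs))
    have h3 : p * (Fintype.card (Gal' A) * p ^ (2 * s))
        ≤ p * Fintype.card (Gal' A) * T * p ^ s := by
      rw [← hq, ← mul_assoc, ← mul_assoc]
      exact Nat.mul_le_mul_right _ (Nat.mul_le_mul_left _ hT.le)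
    rw [add_mul (4 * L.places.C + 4 * Fintype.card (Gal' A) + 8)]
    have := Nat.mul_le_mul_left p h2
    omega

lemma two_sided {ι : Type*} [Fintype ι] [DecidableEq ι] (a : ι → ℝ) (M E D : ℝ) (hup : ∀ i, a i ≤ M + E)
    (hlow : Fintype.card ι * M - D ≤ ∑ i, a i) (hE : 0 ≤ E) (i : ι) :
    |a i - M| ≤ Fintype.card ι * E + |D| := by
  have h1 : ∑ j ∈ univ.erase i, a j ≤ (univ.erase i).card * (M + E) := by
    have := Finset.sum_le_sum fun j (_ : j ∈ univ.erase i) => hup j
    rwa [Finset.sum_const, nsmul_eq_mul] at this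
  rw [Finset.card_erase_of_mem (mem_univ i), card_univ] at h1
  have hpos : 1 ≤ Fintype.card ι := Fintype.card_pos_iff.2 ⟨i⟩
  rw [Nat.cast_sub hpos, Nat.cast_one] at h1
  rw [← Finset.add_sum_erase _ _ (mem_univ i)] at hlow
  have hn : (1 : ℝ) ≤ Fintype.card ι := by exact_mod_cast hpos
  have h3 := hup i
  rw [abs_le]
  constructor
  · nlinarith [le_abs_self D]
  · nlinarith [abs_nonneg D]

theorem card_fibre_approx : ∃ C : ℝ, 0 ≤ C ∧ ∀ s : ℕ, 1 ≤ s → ∀ g : Gal' A,
    |((fibre A s g).card : ℝ) - (p : ℝ) ^ (2 * s)| ≤ C * (p : ℝ) ^ s := by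
  obtain ⟨C, hC⟩ := card_fibre_le A
  refine ⟨Fintype.card (Gal' A) * C + Fintype.card (Gal' A) * (badX A).card, by positivity,
    fun s hs g => ?_⟩
  have hb : (1 : ℝ) ≤ (p : ℝ) ^ s := one_le_pow₀ (by exact_mod_cast hp.out.one_le)
  refine (two_sided (fun g => ((fibre A s g).card : ℝ)) ((p : ℝ) ^ (2 * s)) (C * (p : ℝ) ^ s)
    (Fintype.card (Gal' A) * (badX A).card) (fun i => ?_) ?_ (by positivity) g).trans ?_
  · exact_mod_cast hC s hs i
  · rw [← Nat.cast_sum, sum_card_fibre A hs, Nat.cast_mul, ← mul_sub]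
    refine mul_le_mul_of_nonneg_left ?_ (Nat.cast_nonneg _)
    have := le_card_XS A hs
    have h : (p : ℝ) ^ (2 * s) ≤ ((XS A s).card : ℝ) + (badX A).card := by exact_mod_cast this
    linarith
  · rw [abs_of_nonneg (by positivity)]
    nlinarith [mul_nonneg (Nat.cast_nonneg (α := ℝ) (Fintype.card (Gal' A)))
      (Nat.cast_nonneg (α := ℝ) (badX A).card)]

theorem norm_fibre_sum (ψ : AddChar (ZMod p) ℂ) (hψ : ψ ≠ 1) (g : (ZMod p)[X])
    (hg : 1 ≤ g.natDegree) (hgp : g.natDegree < p) : ∃ C : ℝ, ∀ s : ℕ, 1 ≤ s → ∀ σ : Gal' A,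
      ‖∑ φ ∈ fibre A s σ, ψ (trc g (2 * s) (φ (xB A)))‖ ≤ C * (p : ℝ) ^ s := by
  obtain ⟨C1, hC1⟩ := card_trace_le A g hg hgp
  obtain ⟨C0, hC0, hC0'⟩ := card_fibre_approx A
  refine ⟨(p : ℝ) * C1 + C0, fun s hs σ => ?_⟩
  classical
  set F := fibre A s σ with hF
  set N : ZMod p → ℝ := fun c => ((F.filter fun φ => trc g (2 * s) (φ (xB A)) = c).card : ℝ)
  set M : ℝ := (p : ℝ) ^ (2 * s) / p
  have hpR : (0 : ℝ) < p := by exact_mod_cast hp.out.pos
  have hsum : ∑ c, N c = (F.card : ℝ) := by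
    simp only [N]
    rw [← Nat.cast_sum, ← Finset.card_eq_sum_card_fiberwise (fun φ _ => mem_univ _)]
  have hup : ∀ c, N c ≤ M + C1 * (p : ℝ) ^ s / p := by
    intro c
    rw [← add_div, le_div_iff₀ hpR, mul_comm]
    simp only [N]
    exact_mod_cast hC1 s hs σ c
  have hlow : Fintype.card (ZMod p) * M - C0 * (p : ℝ) ^ s ≤ ∑ c, N c := by
    rw [hsum, ZMod.card, mul_div_cancel₀ _ hpR.ne']
    have := (abs_le.1 (hC0' s hs σ)).1
    linarith
  have hdev : ∀ c, |N c - M| ≤ (C1 : ℝ) * (p : ℝ) ^ s + C0 * (p : ℝ) ^ s := by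
    intro c
    have := two_sided N M (C1 * (p : ℝ) ^ s / p) (C0 * (p : ℝ) ^ s) hup hlow (by positivity) c
    rwa [ZMod.card, mul_div_cancel₀ _ hpR.ne', abs_of_nonneg (mul_nonneg hC0 (by positivity))]
      at this
  have hψ0 : ∑ c, ψ c = 0 := AddChar.sum_eq_zero_of_ne_one hψ
  have e : ∑ φ ∈ F, ψ (trc g (2 * s) (φ (xB A))) = ∑ c, ((N c - M : ℝ) : ℂ) * ψ c := by
    simp only [Complex.ofReal_sub, sub_mul, Finset.sum_sub_distrib, ← Finset.mul_sum, hψ0,
      mul_zero, sub_zero]
    rw [← Finset.sum_fiberwise_of_maps_to (g := fun φ => trc g (2 * s) (φ (xB A)))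
      (fun φ _ => mem_univ _)]
    refine Finset.sum_congr rfl fun c _ => ?_
    rw [Finset.sum_congr rfl fun φ hφ => by rw [(Finset.mem_filter.1 hφ).2], Finset.sum_const,
      nsmul_eq_mul]
    simp [N]
  rw [e]
  have hdev2 : ∀ c, ‖((N c - M : ℝ) : ℂ) * ψ c‖ = |N c - M| := fun c => by
    rw [norm_mul, Complex.norm_real, AddChar.norm_apply, mul_one, Real.norm_eq_abs]
  refine (norm_sum_le _ _).trans ?_
  rw [Finset.sum_congr rfl fun c _ => hdev2 c]
  have h1 : ∑ c, |N c - M| ≤ ∑ c, ((N c - M) * (-1) + 2 * (C1 * (p : ℝ) ^ s / p)) := by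
    refine Finset.sum_le_sum fun c _ => ?_
    have h2 := hup c
    have h3 : 0 ≤ (C1 : ℝ) * (p : ℝ) ^ s / p := by positivity
    rw [abs_le]; constructor <;> linarith
  refine h1.trans ?_
  rw [Finset.sum_add_distrib, ← Finset.sum_mul, Finset.sum_sub_distrib, hsum, Finset.sum_const,
    card_univ, ZMod.card, Finset.sum_const, card_univ, ZMod.card, nsmul_eq_mul, nsmul_eq_mul,
    mul_div_cancel₀ _ hpR.ne', ← mul_assoc, mul_comm (p : ℝ) 2, mul_assoc,
    mul_div_cancel₀ _ hpR.ne']
  have h4 := (abs_le.1 (hC0' s hs σ)).1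
  have h5 : (2 : ℝ) ≤ p := by exact_mod_cast hp.out.two_le
  have h6 : 0 ≤ (C1 : ℝ) * (p : ℝ) ^ s := by positivity
  nlinarith

end

end Vale.Agent.P042.Curve.Sm
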