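import Vale.Agent.P042.Upper.Weil.LPoly

/-!
The component of the curve `h x + h y = 0` through a point `(z, z)` with `h z = 0`.

Points are taken over the algebraic closure of `ZMod p`, outside the finitely many with critical `y`
(where the projection to the first coordinate may ramify); `pts C n` are those fixed by the `n`th power of
Frobenius and `csum` is the character sum of `g (x)` over them.
-/

open Finset Polynomial

namespace Vale.Agent.P042.Curve

open Vale.Agent.P042.Upper

noncomputable section

variable {p : ℕ} [Fact p.Prime]

/-- An absolutely irreducible component of `h x + h y = 0`, monic in `y`, with a good point. -/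
structure Comp (p : ℕ) [Fact p.Prime] where
  /-- The polynomial. -/
  h : (ZMod p)[X]
  two_le : 2 ≤ h.natDegree
  deg_lt : h.natDegree < p
  /-- The component, a polynomial in `y` over polynomials in `x`. -/
  P : (ZMod p)[X][X]
  monic : P.Monic
  dvd : P ∣ C h + h.map C
  irred : Irreducible (P.map (mapRingHom (algebraMap (ZMod p) (AlgebraicClosure (ZMod p)))))
  /-- The first coordinate of the good point. -/
  z : ZMod p
  root : h.eval z = 0
  simple : (derivative h).eval z ≠ 0
  mem : (P.map (evalRingHom z)).eval z = 0

/-- The projection to the first coordinate is unramified at the point: `y` is not critical. -/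
def Good (A : Comp p) (P : AlgebraicClosure (ZMod p) × AlgebraicClosure (ZMod p)) : Prop :=
  aeval P.2 (derivative A.h) ≠ 0

/-- Membership of the component. -/
def OnCurve (A : Comp p) (P : AlgebraicClosure (ZMod p) × AlgebraicClosure (ZMod p)) : Prop :=
  (A.P.map (eval₂RingHom (algebraMap (ZMod p) (AlgebraicClosure (ZMod p))) P.1)).eval P.2 = 0

open scoped Classical in
/-- The good points fixed by the `n`th power of Frobenius. -/
def pts (A : Comp p) (n : ℕ) :
    Finset (AlgebraicClosure (ZMod p) × AlgebraicClosure (ZMod p)) :=
  ((WeilProof.fixk p n) ×ˢ (WeilProof.fixk p n)).filter fun P => Good A P ∧ OnCurve A P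

/-- The character sum of `g x` over the good points of the `n`th extension. -/
def csum (A : Comp p) (ψ : AddChar (ZMod p) ℂ) (g : (ZMod p)[X]) (n : ℕ) : ℂ :=
  ∑ P ∈ pts A n, ψ (WeilProof.coord p
    (((List.range n).map fun i => (WeilProof.fr p)^[i] ((WeilProof.fK p g).eval P.1)).sum))

end

end Vale.Agent.P042.Curve
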