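import Vale.Agent.P042.Curve.Defs

/-!
# The roots of `h y + h x = 0` as series at infinity

Over a finite field `k₀` containing the `k`th roots of `-1`.
-/

open Finset Polynomial

namespace Vale.Agent.P042.Curve.Sm

noncomputable section

variable {p : ℕ} [hp : Fact p.Prime]

/-- `X ^ k + 1`. -/
def dirPoly (A : Comp p) : (ZMod p)[X] := X ^ A.h.natDegree + 1

/-- The field generated by the leading directions. -/
abbrev k0 (A : Comp p) : Type := (dirPoly A).SplittingField

variable (A : Comp p)

instance : Finite (k0 A) := Module.finite_of_finite (ZMod p)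

instance : CharP (k0 A) p := charP_of_injective_algebraMap (algebraMap (ZMod p) (k0 A)).injective p

/-- `h` over `k₀`. -/
def hk : (k0 A)[X] := A.h.map (algebraMap (ZMod p) (k0 A))

lemma hk_natDegree : (hk A).natDegree = A.h.natDegree := natDegree_map _

lemma natDegree_cast_ne_zero (F : Type*) [Field F] [CharP F p] : (A.h.natDegree : F) ≠ 0 := by
  rw [Ne, CharP.cast_eq_zero_iff F p]
  exact fun h => absurd (Nat.le_of_dvd (by have := A.two_le; omega) h) (not_le.2 A.deg_lt)

lemma dirPoly_natDegree : (dirPoly A).natDegree = A.h.natDegree := by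
  rw [dirPoly, ← C_1, natDegree_X_pow_add_C]

lemma dirPoly_separable : (dirPoly A).Separable := by
  have : (dirPoly A) = X ^ A.h.natDegree - C (-1) := by simp [dirPoly]
  rw [this]
  exact separable_X_pow_sub_C _ (natDegree_cast_ne_zero A (ZMod p)) (by norm_num)

/-- The leading directions. -/
def dirs : Finset (k0 A) := by
  classical exact ((dirPoly A).map (algebraMap (ZMod p) (k0 A))).roots.toFinset

lemma card_dirs : (dirs A).card = A.h.natDegree := by
  classical
  have hs : ((dirPoly A).map (algebraMap (ZMod p) (k0 A))).Splits := SplittingField.splits _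
  rw [dirs, Multiset.toFinset_card_of_nodup (nodup_roots (dirPoly_separable A).map),
    ← hs.natDegree_eq_card_roots, natDegree_map, dirPoly_natDegree]

lemma mem_dirs {ζ : k0 A} (hζ : ζ ∈ dirs A) : ζ ^ A.h.natDegree = -1 := by
  classical
  rw [dirs, Multiset.mem_toFinset] at hζ
  have := (mem_roots'.1 hζ).2
  simp [dirPoly, IsRoot.def, Polynomial.map_add, Polynomial.map_pow] at this
  linear_combination this

lemma exists_series_root (F : (PowerSeries (k0 A))[X]) (a : k0 A)
    (h0 : PowerSeries.constantCoeff (F.eval (PowerSeries.C a)) = 0)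
    (h1 : PowerSeries.constantCoeff (F.derivative.eval (PowerSeries.C a)) ≠ 0) :
    ∃ u, PowerSeries.constantCoeff u = a ∧ F.eval u = 0 := by
  classical
  set c := PowerSeries.constantCoeff (F.derivative.eval (PowerSeries.C a))
  let seq : ℕ → PowerSeries (k0 A) := fun m => Nat.rec (motive := fun _ => PowerSeries (k0 A))
    (PowerSeries.C a)
    (fun m u => u - PowerSeries.C (PowerSeries.coeff (m + 1) (F.eval u) / c)
      * PowerSeries.X ^ (m + 1)) m
  have hinv : ∀ m, PowerSeries.constantCoeff (seq m) = a ∧
      ∀ j ≤ m, PowerSeries.coeff j (F.eval (seq m)) = 0 := by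
    intro m
    induction m with
    | zero =>
      refine ⟨by simp [seq], fun j hj => ?_⟩
      obtain rfl : j = 0 := by omega
      simpa [seq] using h0
    | succ m ih =>
      set u := seq m
      set δ := -(PowerSeries.C (PowerSeries.coeff (m + 1) (F.eval u) / c)
        * PowerSeries.X ^ (m + 1)) with hδ
      have hs : seq (m + 1) = u + δ := by simp [seq, u, hδ, sub_eq_add_neg]
      have hc0 : PowerSeries.constantCoeff δ = 0 := by simp [hδ]
      refine ⟨by rw [hs, map_add, ih.1, hc0, add_zero], fun j hj => ?_⟩
      obtain ⟨r, hr⟩ := F.binomExpansion u δ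
      rw [hs, hr]
      have hd : PowerSeries.constantCoeff (F.derivative.eval u) = c := by
        simp only [c, ← Polynomial.eval₂_hom, ih.1, PowerSeries.constantCoeff_C]
      have e2 : PowerSeries.coeff j (r * δ ^ 2) = 0 := by
        have : r * δ ^ 2 = (r * (PowerSeries.C (PowerSeries.coeff (m + 1) (F.eval u) / c)) ^ 2)
            * PowerSeries.X ^ (2 * m + 2) := by
          rw [hδ]; ring
        rw [this, PowerSeries.coeff_mul_X_pow', if_neg (by omega)]
      have e1 : PowerSeries.coeff j (F.derivative.eval u * δ)
          = if j = m + 1 then -(PowerSeries.coeff (m + 1) (F.eval u)) else 0 := by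
        have : F.derivative.eval u * δ = (F.derivative.eval u
            * -(PowerSeries.C (PowerSeries.coeff (m + 1) (F.eval u) / c)))
            * PowerSeries.X ^ (m + 1) := by rw [hδ]; ring
        rw [this, PowerSeries.coeff_mul_X_pow']
        split_ifs with hle hje hje
        · subst hje
          rw [Nat.sub_self, PowerSeries.coeff_zero_eq_constantCoeff_apply, map_mul, hd, map_neg,
            PowerSeries.constantCoeff_C]
          rw [mul_neg, mul_div_cancel₀ _ h1]
        · omega
        · omega
        · rfl
      rw [map_add, map_add, e1, e2, add_zero]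
      rcases eq_or_ne j (m + 1) with rfl | hne
      · rw [if_pos rfl, add_neg_cancel]
      · rw [if_neg hne, add_zero]; exact ih.2 j (by omega)
  let u : PowerSeries (k0 A) := PowerSeries.mk fun n => PowerSeries.coeff n (seq n)
  have hstab : ∀ j m, j ≤ m → PowerSeries.coeff j (seq m) = PowerSeries.coeff j (seq j) := by
    intro j m hjm
    induction m, hjm using Nat.le_induction with
    | base => rfl
    | succ m hm ih =>
      have e : seq (m + 1) = seq m - PowerSeries.C (PowerSeries.coeff (m + 1) (F.eval (seq m)) / c)
          * PowerSeries.X ^ (m + 1) := rfl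
      rw [e, map_sub, PowerSeries.coeff_C_mul, PowerSeries.coeff_X_pow, if_neg (by omega), ih]
      simp
  have hu : ∀ m, PowerSeries.X ^ (m + 1) ∣ u - seq m := by
    intro m
    rw [PowerSeries.X_pow_dvd_iff]
    intro j hj
    rw [map_sub, PowerSeries.coeff_mk, hstab j m (by omega), sub_self]
  refine ⟨u, ?_, PowerSeries.ext fun n => ?_⟩
  · rw [← PowerSeries.coeff_zero_eq_constantCoeff_apply, PowerSeries.coeff_mk,
      PowerSeries.coeff_zero_eq_constantCoeff_apply]
    exact (hinv 0).1
  · have h2 : PowerSeries.X ^ (n + 1) ∣ F.eval u - F.eval (seq n) :=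
      (hu n).trans (F.sub_dvd_eval_sub u (seq n))
    rw [PowerSeries.X_pow_dvd_iff] at h2
    have := h2 n (by omega)
    rw [map_sub, (hinv n).2 n le_rfl, sub_zero] at this
    simpa using this

/-- The reversed two-variable polynomial `t ^ k * (h (U / t) + h (1 / t))`, made monic in `U`. -/
def revPoly : (PowerSeries (k0 A))[X] :=
  ∑ i ∈ range (A.h.natDegree + 1),
    C (PowerSeries.C ((hk A).coeff i / (hk A).leadingCoeff)
      * PowerSeries.X ^ (A.h.natDegree - i)) * (X ^ i + 1)

lemma hk_lead_ne : (hk A).leadingCoeff ≠ 0 := by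
  rw [Ne, leadingCoeff_eq_zero]
  intro h
  have := hk_natDegree A
  rw [h, natDegree_zero] at this
  have := A.two_le; omega

/-- The series field. -/
abbrev Ser : Type := LaurentSeries (k0 A)

/-- `1 / t`. -/
def xs : Ser A := HahnSeries.single (-1 : ℤ) 1

/-- Rational functions of `x` as series in `1 / x`. -/
def polySer : (k0 A)[X] →ₐ[k0 A] Ser A := aeval (xs A)

lemma xs_pow (i : ℕ) : xs A ^ i = HahnSeries.single (-(i : ℤ)) 1 := by
  rw [xs, HahnSeries.single_pow, one_pow]; congr 1; simp

lemma algMap_eq (c : k0 A) : algebraMap (k0 A) (Ser A) c = HahnSeries.C c := by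
  rw [HahnSeries.algebraMap_apply', ← PowerSeries.C_eq_algebraMap, HahnSeries.ofPowerSeries_C]

lemma C_mul_coeff (c : k0 A) (z : Ser A) (j : ℤ) :
    (algebraMap (k0 A) (Ser A) c * z).coeff j = c * z.coeff j := by
  rw [algMap_eq, HahnSeries.C_apply]
  conv_lhs => rw [show j = j + 0 by rw [add_zero], HahnSeries.coeff_single_mul_add]

lemma polySer_coeff (f : (k0 A)[X]) (j : ℤ) :
    (polySer A f).coeff j = if j ≤ 0 then f.coeff (-j).toNat else 0 := by
  rw [polySer, aeval_eq_sum_range, HahnSeries.coeff_sum]
  simp only [xs_pow, Algebra.smul_def, C_mul_coeff, HahnSeries.coeff_single]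
  split_ifs with hj
  · rw [Finset.sum_eq_single (-j).toNat]
    · rw [if_pos (by omega), mul_one]
    · intro i _ hne
      rw [if_neg (by omega), mul_zero]
    · intro hnot
      rw [Finset.mem_range] at hnot
      rw [coeff_eq_zero_of_natDegree_lt (by omega), zero_mul]
  · refine Finset.sum_eq_zero fun i _ => ?_
    rw [if_neg (by omega), mul_zero]

lemma polySer_injective : Function.Injective (polySer A) := by
  refine (injective_iff_map_eq_zero _).2 fun f hf => Polynomial.ext fun i => ?_
  have := congrArg (fun z : Ser A => z.coeff (-(i : ℤ))) hf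
  simpa [polySer_coeff] using this

/-- A root of `h Y + h x` with leading direction `ζ`. -/
lemma exists_ser_root {ζ : k0 A} (hζ : ζ ∈ dirs A) :
    ∃ y : Ser A, aeval y (hk A) + aeval (xs A) (hk A) = 0 ∧
      (∀ j : ℤ, j < -1 → y.coeff j = 0) ∧ y.coeff (-1) = ζ := by
  classical
  set k := A.h.natDegree with hk'
  have hlead : (hk A).coeff k / (hk A).leadingCoeff = 1 := by
    rw [leadingCoeff, hk_natDegree]
    exact div_self (by have := hk_lead_ne A; rwa [leadingCoeff, hk_natDegree] at this)
  have hev : ∀ u, (revPoly A).eval u = ∑ i ∈ range (k + 1),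
      PowerSeries.C ((hk A).coeff i / (hk A).leadingCoeff) * PowerSeries.X ^ (k - i)
        * (u ^ i + 1) := by
    intro u; simp [revPoly, eval_finsetSum, hk']
  have h0 : PowerSeries.constantCoeff ((revPoly A).eval (PowerSeries.C ζ)) = 0 := by
    rw [hev, map_sum, Finset.sum_eq_single k]
    · simp [hlead, mem_dirs A hζ, hk']
    · intro i hi hne
      rw [Finset.mem_range] at hi
      simp [PowerSeries.constantCoeff_X, zero_pow (show k - i ≠ 0 by omega)]
    · simp
  have h1 : PowerSeries.constantCoeff ((revPoly A).derivative.eval (PowerSeries.C ζ)) ≠ 0 := by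
    have e : PowerSeries.constantCoeff ((revPoly A).derivative.eval (PowerSeries.C ζ))
        = (k : k0 A) * ζ ^ (k - 1) := by
      rw [revPoly, derivative_sum, eval_finsetSum, map_sum]
      simp_rw [derivative_C_mul, Polynomial.derivative_add, Polynomial.derivative_X_pow,
        derivative_one, add_zero, eval_mul, eval_C, eval_pow, eval_X, map_mul, map_pow,
        PowerSeries.constantCoeff_C, PowerSeries.constantCoeff_X, map_natCast]
      rw [Finset.sum_eq_single k]
      · rw [hk'] at hlead
        simp [hlead, hk']
      · intro i hi hne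
        rw [Finset.mem_range] at hi
        simp [zero_pow (show A.h.natDegree - i ≠ 0 by omega)]
      · simp [hk']
    rw [e]
    refine mul_ne_zero (natDegree_cast_ne_zero A _) (pow_ne_zero _ fun h => ?_)
    have := mem_dirs A hζ
    rw [h, zero_pow (by have := A.two_le; omega)] at this
    simp at this
  obtain ⟨u, hu0, hu⟩ := exists_series_root A (revPoly A) ζ h0 h1
  refine ⟨xs A * HahnSeries.ofPowerSeries ℤ (k0 A) u, ?_, fun j hj => ?_, ?_⟩
  · set U := HahnSeries.ofPowerSeries ℤ (k0 A) u
    have h := congrArg (HahnSeries.ofPowerSeries ℤ (k0 A)) hu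
    rw [hev, map_sum, map_zero] at h
    simp only [map_mul, map_pow, map_add, map_one, HahnSeries.ofPowerSeries_C,
      HahnSeries.ofPowerSeries_X] at h
    have hxs : xs A * HahnSeries.single (1 : ℤ) (1 : k0 A) = 1 := by
      simp [xs, HahnSeries.single_mul_single]
    have h2 := congrArg (fun z => HahnSeries.C (hk A).leadingCoeff * xs A ^ k * z) h
    simp only [mul_zero, Finset.mul_sum] at h2
    rw [aeval_eq_sum_range' (n := k + 1) (by rw [hk_natDegree]; omega),
      aeval_eq_sum_range' (n := k + 1) (by rw [hk_natDegree]; omega), ← Finset.sum_add_distrib,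
      ← h2]
    refine Finset.sum_congr rfl fun i hi => ?_
    rw [Finset.mem_range] at hi
    have hpow : xs A ^ k * HahnSeries.single (1 : ℤ) (1 : k0 A) ^ (k - i) = xs A ^ i := by
      conv_lhs => rw [show k = i + (k - i) by omega, Nat.add_sub_cancel_left, pow_add, mul_assoc,
        ← mul_pow, hxs, one_pow, mul_one]
    rw [Algebra.smul_def, Algebra.smul_def, algMap_eq, mul_pow]
    have hc : HahnSeries.C (hk A).leadingCoeff * HahnSeries.C ((hk A).coeff i / (hk A).leadingCoeff)
        = (HahnSeries.C ((hk A).coeff i) : Ser A) := by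
      rw [← map_mul, mul_div_cancel₀ _ (hk_lead_ne A)]
    calc HahnSeries.C ((hk A).coeff i) * (xs A ^ i * U ^ i)
          + HahnSeries.C ((hk A).coeff i) * xs A ^ i
        = HahnSeries.C ((hk A).coeff i) * xs A ^ i * (U ^ i + 1) := by ring
      _ = _ := by rw [← hc, ← hpow]; ring
  · rw [xs, show j = (j + 1) + (-1) by ring, HahnSeries.coeff_single_mul_add, one_mul,
      HahnSeries.ofPowerSeries_apply, HahnSeries.embDomain_of_notMem_range]
    rintro ⟨n, hn⟩
    simp at hn; omega
  · have e := HahnSeries.coeff_single_mul_add (r := (1 : k0 A))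
      (x := HahnSeries.ofPowerSeries ℤ (k0 A) u) (a := ((0 : ℕ) : ℤ)) (b := -1)
    rw [HahnSeries.ofPowerSeries_apply_coeff, PowerSeries.coeff_zero_eq_constantCoeff_apply, hu0,
      one_mul, Nat.cast_zero, zero_add] at e
    exact e

section CoeffMap

variable {K : Type*} [Field K]

/-- Coefficientwise application of a ring endomorphism, as a map of Laurent series. -/
def serMap (e : K →+* K) : LaurentSeries K →+* LaurentSeries K where
  toFun x := HahnSeries.map x e.toAddMonoidHom
  map_one' := by
    ext j
    simp only [HahnSeries.map_coeff, HahnSeries.coeff_one]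
    split_ifs <;> simp
  map_mul' x y := by
    have h := HahnSeries.map_mul (Γ := ℤ) (x := x) (y := y) e.toNonUnitalRingHom
    ext j
    exact congrArg (fun z : LaurentSeries K => z.coeff j) h
  map_zero' := by ext; simp
  map_add' x y := by ext; simp

lemma serMap_coeff (e : K →+* K) (x : LaurentSeries K) (j : ℤ) :
    (serMap e x).coeff j = e (x.coeff j) := by
  simp [serMap]

end CoeffMap

end

end Vale.Agent.P042.Curve.Sm
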