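import Vale.Agent.P042.Curve.Stepanov

/-!
# An Artin-Schreier layer over a ring with places

`B' = B[Y] / (Y ^ p - Y - g)`, where `g` has pole order `d` prime to `p` at every place.
-/

namespace Vale.Agent.P042.Curve.Sm

open Finset Module Polynomial

noncomputable section

/-- The hypotheses for the layer. -/
structure LayerData (k₀ B ι : Type*) [Field k₀] [CommRing B] [Algebra k₀ B] [Fintype ι]
    (p : ℕ) where
  P : Places k₀ B ι
  exact' : ∀ i x y a b, P.Pole i x a → P.Pole i y b → P.Pole i (x * y) (a + b)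
  sep : ∀ i x, x ≠ 0 → ∃ a, P.Pole i x a
  g : B
  d : ℕ
  d_pos : 1 ≤ d
  d_lt : d < p
  pole_g : ∀ i, P.Pole i g d

namespace LayerData

variable {k₀ B ι : Type*} [Field k₀] [CommRing B] [Algebra k₀ B] [Fintype ι] [Nontrivial B]
  {p : ℕ} [hp : Fact p.Prime] (A : LayerData k₀ B ι p)

/-- `Y ^ p - Y - g`. -/
def poly : B[X] := X ^ p - X - C A.g

lemma poly_monic : A.poly.Monic := by
  have h2 := hp.out.two_le
  rw [poly, sub_sub]
  refine monic_X_pow_sub (lt_of_le_of_lt ((degree_add_le _ _).trans (max_le (degree_X_le) ?_))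
    (show (1 : WithBot ℕ) < (p : WithBot ℕ) by exact_mod_cast h2))
  exact le_trans degree_C_le (by norm_num)

lemma poly_natDegree : A.poly.natDegree = p := by
  have h2 := hp.out.two_le
  rw [poly, natDegree_sub_C, natDegree_sub_eq_left_of_natDegree_lt, natDegree_X_pow]
  rw [natDegree_X, natDegree_X_pow]; omega

/-- The ring of the layer. -/
abbrev Ring' : Type _ := AdjoinRoot A.poly

/-- The generator. -/
def Y : A.Ring' := AdjoinRoot.root _

lemma Y_eq : A.Y ^ p = A.Y + AdjoinRoot.of _ A.g := by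
  have h : Polynomial.eval₂ (AdjoinRoot.of A.poly) A.Y (X ^ p - X - C A.g) = 0 :=
    AdjoinRoot.eval₂_root A.poly
  simp only [eval₂_sub, eval₂_pow, eval₂_X, eval₂_C] at h
  linear_combination h

/-- The basis `Y ^ j`, `j < p`. -/
def bas : Basis (Fin p) B A.Ring' :=
  (AdjoinRoot.powerBasisAux' A.poly_monic).reindex (finCongr A.poly_natDegree)

lemma bas_apply (j : Fin p) : A.bas j = A.Y ^ (j : ℕ) := by
  have h := PowerBasis.coe_basis (AdjoinRoot.powerBasis' A.poly_monic)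
  rw [bas, Basis.reindex_apply]
  exact congrFun h ((finCongr A.poly_natDegree).symm j)

/-- The coordinates. -/
def co (j : Fin p) : A.Ring' →ₗ[B] B := A.bas.coord j

/-- A monomial. -/
def T (j : Fin p) (b : B) : A.Ring' := b • A.bas j

lemma co_T (j j' : Fin p) (b : B) : A.co j' (A.T j b) = if j = j' then b else 0 := by
  simp [co, T, Basis.coord, Finsupp.single_apply]

lemma eq_sum (x : A.Ring') : x = ∑ j, A.T j (A.co j x) := (A.bas.sum_repr x).symm

/-- The largest pole order of a coefficient of `Y ^ j` allowed in degree `n`. -/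
def fl (p d : ℕ) (n : ℤ) (j : ℕ) : ℤ := (n - (j : ℤ) * d) / p

lemma le_fl {d : ℕ} {n a : ℤ} {j : ℕ} : a ≤ fl p d n j ↔ (p : ℤ) * a + (j : ℤ) * d ≤ n := by
  rw [fl, Int.le_ediv_iff_mul_le (by exact_mod_cast hp.out.pos)]
  constructor <;> intro h <;> linarith

lemma fl_spec (d : ℕ) (n : ℤ) (j : ℕ) : (p : ℤ) * fl p d n j + (j : ℤ) * d ≤ n :=
  le_fl.1 le_rfl

/-- The filtration of the layer. -/
def F' (i : ι) (n : ℤ) : Submodule k₀ A.Ring' :=
  ⨅ j : Fin p, (A.P.F i (fl p A.d n j)).comap ((A.co j).restrictScalars k₀)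

lemma mem_F' {i : ι} {n : ℤ} {x : A.Ring'} :
    x ∈ A.F' i n ↔ ∀ j : Fin p, A.co j x ∈ A.P.F i (fl p A.d n j) := by
  simp [F', Submodule.mem_iInf]

lemma T_mem {i : ι} {n a : ℤ} {j : Fin p} {b : B} (hb : b ∈ A.P.F i a)
    (h : (p : ℤ) * a + (j : ℕ) * (A.d : ℤ) ≤ n) : A.T j b ∈ A.F' i n := by
  rw [mem_F']
  intro j'
  rw [co_T]
  split_ifs with hj
  · subst hj; exact A.P.mono i (le_fl.2 h) hb
  · exact zero_mem _

lemma F'_mono (i : ι) : Monotone (A.F' i) := by
  intro n m hnm x hx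
  rw [mem_F'] at hx ⊢
  exact fun j => A.P.mono i (le_fl.2 (le_trans (fl_spec _ _ _) hnm)) (hx j)

lemma reduce (b : B) {N : ℕ} (hN : N + 1 < 2 * p) (hNp : p ≤ N) :
    b • A.Y ^ N = A.T ⟨N - p, by omega⟩ (b * A.g) + A.T ⟨N - p + 1, by omega⟩ b := by
  rw [T, T, bas_apply, bas_apply]
  conv_lhs => rw [show N = p + (N - p) by omega, pow_add, A.Y_eq]
  simp only [Algebra.smul_def, AdjoinRoot.algebraMap_eq, map_mul, pow_succ]
  ring

lemma smul_pow_mem {i : ι} {a : ℤ} {b : B} (hb : b ∈ A.P.F i a) {N : ℕ} (hN : N + 1 < 2 * p) :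
    b • A.Y ^ N ∈ A.F' i ((p : ℤ) * a + N * (A.d : ℤ)) := by
  rcases Nat.lt_or_ge N p with h | h
  · have e : b • A.Y ^ N = A.T ⟨N, h⟩ b := by rw [T, bas_apply]
    rw [e]
    exact A.T_mem hb le_rfl
  · rw [A.reduce b hN h]
    have hNp : ((N - p : ℕ) : ℤ) = N - p := by omega
    refine add_mem (A.T_mem (A.P.mul i _ _ _ _ hb (A.pole_g i).1) ?_) (A.T_mem hb ?_)
    · simp only [hNp]; linarith
    · push_cast [hNp]
      have := A.d_pos
      have := hp.out.two_le
      nlinarith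

lemma T_mul_T (j l : Fin p) (b c : B) :
    A.T j b * A.T l c = (b * c) • A.Y ^ ((j : ℕ) + l) := by
  rw [T, T, bas_apply, bas_apply, smul_mul_smul_comm, pow_add]

lemma F'_mul {i : ι} {n m : ℤ} {x y : A.Ring'} (hx : x ∈ A.F' i n) (hy : y ∈ A.F' i m) :
    x * y ∈ A.F' i (n + m) := by
  rw [mem_F'] at hx hy
  rw [A.eq_sum x, A.eq_sum y, Finset.sum_mul_sum]
  refine Submodule.sum_mem _ fun j _ => Submodule.sum_mem _ fun l _ => ?_
  rw [T_mul_T]
  refine A.F'_mono i ?_ (A.smul_pow_mem (A.P.mul i _ _ _ _ (hx j) (hy l))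
    (by have := j.2; have := l.2; omega))
  have h1 := fl_spec (p := p) A.d n j
  have h2 := fl_spec (p := p) A.d m l
  push_cast; linarith

lemma one_mem' (i : ι) : (1 : A.Ring') ∈ A.F' i 0 := by
  have h := A.smul_pow_mem (N := 0) (A.P.one i) (by have := hp.out.two_le; omega)
  simpa using h

lemma unique_res {n : ℤ} {j j' : Fin p} (h : (p : ℤ) ∣ n - (j : ℕ) * (A.d : ℤ))
    (h' : (p : ℤ) ∣ n - (j' : ℕ) * (A.d : ℤ)) : j = j' := by
  have h3 : (p : ℤ) ∣ ((j : ℕ) - (j' : ℕ) : ℤ) * A.d := by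
    have := dvd_sub h' h
    exact (show (n - (j' : ℕ) * (A.d : ℤ)) - (n - (j : ℕ) * (A.d : ℤ)) = ((j : ℕ) - (j' : ℕ) : ℤ) * A.d by ring) ▸ this
  rcases (Nat.prime_iff_prime_int.1 hp.out).dvd_mul.1 h3 with h4 | h4
  · have := Int.eq_zero_of_abs_lt_dvd h4 (by have := j.2; have := j'.2; rw [abs_lt]; omega)
    exact Fin.ext (by omega)
  · exact absurd (Nat.le_of_dvd A.d_pos (Int.natCast_dvd_natCast.1 h4))
      (not_le.2 A.d_lt)

lemma fl_pred {n : ℤ} {j : ℕ} (h : ¬ (p : ℤ) ∣ n - (j : ℤ) * A.d) :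
    fl p A.d (n - 1) j = fl p A.d n j := by
  refine le_antisymm (le_fl.2 (le_trans (fl_spec _ _ _) (by omega))) (le_fl.2 ?_)
  rcases (fl_spec (p := p) A.d n j).lt_or_eq with h1 | h1
  · omega
  · exact absurd ⟨fl p A.d n j, by linarith⟩ h

lemma fl_pred_dvd {n : ℤ} {j : ℕ} (h : (p : ℤ) ∣ n - (j : ℤ) * A.d) :
    fl p A.d (n - 1) j = fl p A.d n j - 1 ∧ (p : ℤ) * fl p A.d n j + (j : ℤ) * A.d = n := by
  obtain ⟨a, ha⟩ := h
  have hp0 : (0 : ℤ) < p := by exact_mod_cast hp.out.pos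
  have h1 : fl p A.d n j = a := by
    rw [fl, ha, Int.mul_ediv_cancel_left a hp0.ne']
  have h3 : a - 1 ≤ fl p A.d (n - 1) j := le_fl.2 (by nlinarith)
  have h4 : ¬ a ≤ fl p A.d (n - 1) j := fun h5 => by
    have := (le_fl (p := p)).1 h5; linarith
  rw [h1]
  exact ⟨by omega, by linarith⟩

lemma F'_step (i : ι) (n : ℤ) :
    ∃ l : A.Ring' →ₗ[k₀] k₀, ∀ x ∈ A.F' i n, l x = 0 → x ∈ A.F' i (n - 1) := by
  by_cases h : ∃ j : Fin p, (p : ℤ) ∣ n - (j : ℕ) * (A.d : ℤ)
  · obtain ⟨j₀, hj₀⟩ := h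
    refine ⟨(A.P.lead i (fl p A.d n j₀)).comp ((A.co j₀).restrictScalars k₀), fun x hx hl => ?_⟩
    rw [mem_F'] at hx ⊢
    intro j
    by_cases hj : j = j₀
    · subst hj
      rw [(A.fl_pred_dvd hj₀).1]
      exact A.P.lead_spec (hx j) hl
    · rw [A.fl_pred fun hd => hj (A.unique_res hd hj₀)]
      exact hx j
  · refine ⟨0, fun x hx _ => ?_⟩
    rw [mem_F'] at hx ⊢
    exact fun j => by rw [A.fl_pred fun hd => h ⟨j, hd⟩]; exact hx j

lemma F'_exh (x : A.Ring') : ∃ n : ℕ, ∀ i, x ∈ A.F' i n := by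
  choose m hm using fun j : Fin p => A.P.exh (A.co j x)
  refine ⟨p * (univ.sup m) + p * A.d, fun i => ?_⟩
  rw [mem_F']
  intro j
  refine A.P.mono i (le_fl.2 ?_) (hm j i)
  have h1 : (m j : ℤ) ≤ (univ.sup m : ℕ) := by exact_mod_cast Finset.le_sup (mem_univ j)
  have h2 : ((j : ℕ) : ℤ) ≤ p := by exact_mod_cast j.2.le
  push_cast
  have := mul_le_mul_of_nonneg_left h1 (Nat.cast_nonneg (α := ℤ) p)
  have := mul_le_mul_of_nonneg_right h2 (Nat.cast_nonneg (α := ℤ) A.d)
  linarith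

lemma F'_inj (x : A.Ring') (hx : ∀ i, x ∈ A.F' i (-1)) : x = 0 := by
  refine A.bas.ext_elem fun j => ?_
  rw [map_zero, Finsupp.zero_apply]
  refine A.P.inj _ fun i => A.P.mono i ?_ ((A.mem_F').1 (hx i) j)
  by_contra h
  have h1 : 0 ≤ fl p A.d (-1) j := by omega
  have h2 := fl_spec (p := p) A.d (-1) j
  have : (0 : ℤ) ≤ (p : ℤ) * fl p A.d (-1) j := mul_nonneg (Nat.cast_nonneg _) h1
  have : (0 : ℤ) ≤ ((j : ℕ) : ℤ) * A.d := by positivity
  linarith

lemma F'_big (D : ℕ) :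
    Fintype.card ι * D ≤ finrank k₀ ↥(⨅ i, A.F' i (D : ℤ))
      + (p * A.P.C + Fintype.card ι * (p * A.d + p)) := by
  classical
  rcases Nat.lt_or_ge D (p * A.d + p) with hD | hD
  · have := Nat.mul_le_mul_left (Fintype.card ι) hD.le
    omega
  let E : Fin p → ℕ := fun j => (D - (j : ℕ) * A.d) / p
  have hjd : ∀ j : Fin p, (j : ℕ) * A.d ≤ p * A.d := fun j =>
    Nat.mul_le_mul_right _ j.2.le
  have hE : ∀ j : Fin p, p * E j + (j : ℕ) * A.d ≤ D := fun j => by
    have := Nat.mul_div_le (D - (j : ℕ) * A.d) p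
    have := hjd j
    simp only [E]; omega
  let f : ((j : Fin p) → A.P.V (fun _ => E j)) →ₗ[k₀] ↥(⨅ i, A.F' i (D : ℤ)) :=
    LinearMap.codRestrict _
      (∑ j : Fin p, (((LinearMap.toSpanSingleton B A.Ring' (A.bas j)).restrictScalars k₀).comp
        ((A.P.V (fun _ => E j)).subtype)).comp (LinearMap.proj j))
      (fun v => by
        simp only [LinearMap.coe_sum, Finset.sum_apply, LinearMap.comp_apply]
        refine Submodule.sum_mem _ fun j _ => ?_
        rw [Submodule.mem_iInf]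
        intro i
        refine A.T_mem ((A.P.mem_V).1 (v j).2 i) ?_
        exact_mod_cast hE j)
  have hf : Function.Injective f := by
    refine (injective_iff_map_eq_zero _).2 fun v hv => funext fun j => Subtype.ext ?_
    have h := congrArg (fun z : ↥(⨅ i, A.F' i (D : ℤ)) => A.co j z) hv
    simpa [f, co, Basis.coord, Finsupp.single_apply] using h
  have : FiniteDimensional k₀ ↥(⨅ i, A.F' i (D : ℤ)) := by
    let g : ↥(⨅ i, A.F' i (D : ℤ)) →ₗ[k₀] ((j : Fin p) → A.P.V fun _ => D) :=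
      LinearMap.pi fun j => LinearMap.codRestrict _
        (((A.co j).restrictScalars k₀).comp (Submodule.subtype _)) fun x => by
          rw [A.P.mem_V]
          intro i
          refine A.P.mono i ?_ ((A.mem_F').1 ((Submodule.mem_iInf _).1 x.2 i) j)
          have h1 := fl_spec (p := p) A.d (D : ℤ) j
          have h2 : (0 : ℤ) ≤ ((j : ℕ) : ℤ) * A.d := by positivity
          have h4 : (2 : ℤ) ≤ p := by exact_mod_cast hp.out.two_le
          nlinarith
    refine FiniteDimensional.of_injective g ((injective_iff_map_eq_zero _).2 fun x hx => ?_)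
    refine Subtype.ext (A.bas.ext_elem fun j => ?_)
    have h := congrArg (fun z : A.P.V (fun _ => D) => (z : B)) (congrFun hx j)
    simpa [g, co] using h
  have h1 := LinearMap.finrank_le_finrank_of_injective hf
  rw [finrank_pi_fintype] at h1
  have h2 : ∑ j, Fintype.card ι * E j ≤ ∑ j, (finrank k₀ (A.P.V fun _ => E j) + A.P.C) :=
    Finset.sum_le_sum fun j _ => A.P.big (E j)
  rw [Finset.sum_add_distrib, ← Finset.mul_sum, Finset.sum_const, card_univ, Fintype.card_fin,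
    smul_eq_mul] at h2
  have h3 : D ≤ ∑ j, E j + (p * A.d + p) := by
    have h4 : ∀ j : Fin p, D ≤ p * E j + (p * A.d + p) := fun j => by
      have := Nat.div_add_mod (D - (j : ℕ) * A.d) p
      have := Nat.mod_lt (D - (j : ℕ) * A.d) hp.out.pos
      have := hjd j
      simp only [E]; omega
    have h5 := Finset.sum_le_sum fun j (_ : j ∈ (univ : Finset (Fin p))) => h4 j
    rw [Finset.sum_const, card_univ, Fintype.card_fin, smul_eq_mul, Finset.sum_add_distrib,
      ← Finset.mul_sum, Finset.sum_const, card_univ, Fintype.card_fin, smul_eq_mul,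
      ← mul_add] at h5
    exact Nat.le_of_mul_le_mul_left h5 hp.out.pos
  have h6 := Nat.mul_le_mul_left (Fintype.card ι) h3
  rw [mul_add] at h6
  omega

/-- The places of the layer. -/
def places : Places k₀ A.Ring' ι where
  F := A.F'
  mono := A.F'_mono
  mul _ _ _ _ _ hx hy := A.F'_mul hx hy
  one := A.one_mem'
  step := A.F'_step
  exh := A.F'_exh
  inj := A.F'_inj
  C := p * A.P.C + Fintype.card ι * (p * A.d + p)
  big := A.F'_big

lemma pole_decomp {i : ι} {x : A.Ring'} {n : ℤ} (h : A.places.Pole i x n) :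
    ∃ (j : Fin p) (a : ℤ), (p : ℤ) * a + (j : ℕ) * (A.d : ℤ) = n ∧
      A.P.Pole i (A.co j x) a ∧ x - A.T j (A.co j x) ∈ A.F' i (n - 1) := by
  have h1 := (A.mem_F').1 h.1
  have h2 : ¬ ∀ j : Fin p, A.co j x ∈ A.P.F i (fl p A.d (n - 1) j) := fun hh =>
    h.2 ((A.mem_F').2 hh)
  push Not at h2
  obtain ⟨j, hj⟩ := h2
  have hd : (p : ℤ) ∣ n - (j : ℕ) * (A.d : ℤ) := by
    by_contra hd
    rw [A.fl_pred hd] at hj
    exact hj (h1 j)
  obtain ⟨e1, e2⟩ := A.fl_pred_dvd hd
  refine ⟨j, fl p A.d n j, e2, ⟨h1 j, e1 ▸ hj⟩, (A.mem_F').2 fun j' => ?_⟩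
  rw [map_sub, co_T]
  by_cases hjj : j = j'
  · subst hjj; simp
  · rw [if_neg hjj, sub_zero, A.fl_pred fun hd' => hjj (A.unique_res hd hd')]
    exact h1 j'

lemma T_pole {i : ι} {j : Fin p} {b : B} {a : ℤ} (hb : A.P.Pole i b a) :
    A.places.Pole i (A.T j b) ((p : ℤ) * a + (j : ℕ) * (A.d : ℤ)) := by
  refine ⟨A.T_mem hb.1 le_rfl, fun h => hb.2 ?_⟩
  have := (A.mem_F').1 h j
  rw [co_T, if_pos rfl] at this
  refine A.P.mono i ?_ this
  have hs := fl_spec (p := p) A.d ((p : ℤ) * a + (j : ℕ) * (A.d : ℤ) - 1) j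
  by_contra hlt
  have : (p : ℤ) * a ≤ (p : ℤ) * fl p A.d ((p : ℤ) * a + (j : ℕ) * (A.d : ℤ) - 1) j :=
    mul_le_mul_of_nonneg_left (by omega) (Nat.cast_nonneg _)
  linarith

lemma pole_add {i : ι} {x z : A.Ring'} {n : ℤ} (hx : A.places.Pole i x n)
    (hz : z ∈ A.F' i (n - 1)) : A.places.Pole i (x + z) n := by
  refine ⟨add_mem hx.1 (A.F'_mono i (by omega) hz), fun h => hx.2 ?_⟩
  have := sub_mem h (show z ∈ A.places.F i (n - 1) from hz)
  simpa using this

lemma exact_places (i : ι) (x y : A.Ring') (n m : ℤ) (hx : A.places.Pole i x n)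
    (hy : A.places.Pole i y m) : A.places.Pole i (x * y) (n + m) := by
  obtain ⟨j, a, ea, hb, hx'⟩ := A.pole_decomp hx
  obtain ⟨l, c, ec, hc, hy'⟩ := A.pole_decomp hy
  set b := A.co j x
  set e := A.co l y
  have hmain : A.places.Pole i (A.T j b * A.T l e) (n + m) := by
    rw [T_mul_T]
    have hbc := A.exact' i _ _ _ _ hb hc
    rcases Nat.lt_or_ge ((j : ℕ) + l) p with h | h
    · have e1 : (b * e) • A.Y ^ ((j : ℕ) + l) = A.T ⟨(j : ℕ) + l, h⟩ (b * e) := by
        rw [T, bas_apply]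
      rw [e1]
      convert A.T_pole (j := ⟨(j : ℕ) + l, h⟩) hbc using 1
      push_cast; linarith
    · rw [A.reduce _ (by have := j.2; have := l.2; omega) h]
      refine A.pole_add ?_ (A.T_mem hbc.1 ?_)
      · convert A.T_pole (A.exact' i _ _ _ _ hbc (A.pole_g i)) using 1
        push_cast [Nat.cast_sub h]; linarith
      · push_cast [Nat.cast_sub h]
        have := A.d_pos
        have h2 := hp.out.two_le
        have : ((A.d : ℤ)) * 1 ≤ (A.d : ℤ) * ((p : ℤ) - 1) :=
          mul_le_mul_of_nonneg_left (by omega) (Nat.cast_nonneg _)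
        have : (1 : ℤ) ≤ A.d := by exact_mod_cast A.d_pos
        nlinarith
  have hrest : x * y - A.T j b * A.T l e ∈ A.F' i (n + m - 1) := by
    have e2 : x * y - A.T j b * A.T l e = (x - A.T j b) * y + A.T j b * (y - A.T l e) := by ring
    rw [e2]
    refine add_mem ?_ ?_
    · have := A.F'_mul hx' hy.1
      rwa [show n - 1 + m = n + m - 1 by ring] at this
    · have := A.F'_mul (A.T_mem (n := n) hb.1 ea.le) hy'
      rwa [show n + (m - 1) = n + m - 1 by ring] at this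
  simpa using A.pole_add hmain hrest

lemma sep_places (i : ι) (x : A.Ring') (hx : x ≠ 0) : ∃ n, A.places.Pole i x n := by
  classical
  have hne : (univ.filter fun j => A.co j x ≠ 0).Nonempty := by
    by_contra h
    rw [Finset.not_nonempty_iff_eq_empty, Finset.filter_eq_empty_iff] at h
    exact hx (A.bas.ext_elem fun j => by simpa [co] using h (mem_univ j))
  choose! a ha using fun j => A.sep i (A.co j x)
  obtain ⟨j₀, hj₀, hmax⟩ := Finset.exists_max_image _
    (fun j : Fin p => (p : ℤ) * a j + (j : ℕ) * (A.d : ℤ)) hne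
  simp only [Finset.mem_filter, mem_univ, true_and] at hj₀ hmax
  refine ⟨(p : ℤ) * a j₀ + (j₀ : ℕ) * (A.d : ℤ), (A.mem_F').2 fun j => ?_, fun h => ?_⟩
  · by_cases hj : A.co j x = 0
    · rw [hj]; exact zero_mem _
    · exact A.P.mono i (le_fl.2 (hmax j hj)) (ha j hj).1
  · have h' := (A.mem_F').1 h j₀
    have hle := A.P.pole_mem_lt h' (ha j₀ hj₀)
    have := (le_fl (p := p)).1 hle
    linarith

instance [Nonempty ι] : IsDomain A.Ring' := by
  have : Nontrivial A.Ring' := A.bas.repr.toEquiv.nontrivial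
  have : NoZeroDivisors A.Ring' := ⟨fun {x y} h => by
    by_contra hh
    rw [not_or] at hh
    obtain ⟨n, hn⟩ := A.sep_places (Classical.arbitrary ι) x hh.1
    obtain ⟨m, hm⟩ := A.sep_places (Classical.arbitrary ι) y hh.2
    exact (A.exact_places _ x y n m hn hm).2 (h ▸ zero_mem _)⟩
  exact NoZeroDivisors.to_isDomain _

variable [CharP B p]

instance charP_ring' : CharP A.Ring' p :=
  charP_of_injective_ringHom (f := algebraMap B A.Ring')
    (fun b c h => by
      have h2 : A.T ⟨0, hp.out.pos⟩ b = A.T ⟨0, hp.out.pos⟩ c := by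
        rw [T, T, bas_apply, pow_zero, Algebra.smul_def, Algebra.smul_def, h]
      have := congrArg (A.co ⟨0, hp.out.pos⟩) h2
      simpa [co_T] using this) p

/-- The lift of a twist. -/
def lift (σ : B →+* B) (hσg : σ A.g = A.g) (c : ℕ) : A.Ring' →+* A.Ring' :=
  AdjoinRoot.lift ((AdjoinRoot.of A.poly).comp σ) (A.Y + c) (by
    show eval₂ _ _ (X ^ p - X - C A.g) = 0
    rw [eval₂_sub, eval₂_sub, eval₂_pow, eval₂_X, eval₂_C, RingHom.comp_apply, hσg,
      add_pow_char, A.Y_eq, show ((c : A.Ring') ^ p) = c by rw [← frobenius_def, map_natCast]]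
    ring)

lemma lift_root (σ : B →+* B) (hσg : σ A.g = A.g) (c : ℕ) :
    A.lift σ hσg c (AdjoinRoot.root A.poly) = A.Y + c := AdjoinRoot.lift_root _

lemma lift_of (σ : B →+* B) (hσg : σ A.g = A.g) (c : ℕ) (b : B) :
    A.lift σ hσg c (AdjoinRoot.of A.poly b) = AdjoinRoot.of A.poly (σ b) :=
  AdjoinRoot.lift_of _

lemma lift_mem (σ : B →+* B) (hσg : σ A.g = A.g) (π : ι ≃ ι)
    (hσ : ∀ i n x, x ∈ A.P.F i n → σ x ∈ A.P.F (π i) n) (c : ℕ) (i : ι) (n : ℤ) (x : A.Ring')
    (hx : x ∈ A.F' i n) : A.lift σ hσg c x ∈ A.F' (π i) n := by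
  rw [mem_F'] at hx
  rw [A.eq_sum x, map_sum]
  refine Submodule.sum_mem _ fun j _ => ?_
  have e : A.lift σ hσg c (A.T j (A.co j x))
      = AdjoinRoot.of A.poly (σ (A.co j x)) * (A.Y + c) ^ (j : ℕ) := by
    rw [T, bas_apply, Algebra.smul_def, AdjoinRoot.algebraMap_eq, map_mul, map_pow, Y,
      lift_of, lift_root]
    rfl
  rw [e]
  have h1 : AdjoinRoot.of A.poly (σ (A.co j x))
      ∈ A.F' (π i) ((p : ℤ) * fl p A.d n j) := by
    have := A.smul_pow_mem (N := 0) (hσ i _ _ (hx j)) (by have := hp.out.two_le; omega)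
    simpa [Algebra.smul_def] using this
  have h2 : A.Y + c ∈ A.F' (π i) (A.d : ℤ) := by
    refine add_mem ?_ ?_
    · have := A.smul_pow_mem (N := 1) (A.P.one (π i)) (by have := hp.out.two_le; omega)
      simpa using this
    · refine A.F'_mono _ (Nat.cast_nonneg _) ?_
      rw [← nsmul_one]
      exact nsmul_mem (A.one_mem' _) c
  have h3 : ∀ m : ℕ, (A.Y + c) ^ m ∈ A.F' (π i) ((m : ℤ) * A.d) := by
    intro m
    induction m with
    | zero => simpa using A.one_mem' (π i)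
    | succ m ih =>
      rw [pow_succ]
      refine A.F'_mono _ (le_of_eq ?_) (A.F'_mul ih h2)
      push_cast; ring
  exact A.F'_mono _ (fl_spec _ _ _) (A.F'_mul h1 (h3 j))

/-- **Twisted Stepanov with a trace condition.** -/
theorem stepanov_trace [Finite k₀] [Nonempty ι] [DecidableEq ι] (i₀ : ι) {K : Type*} [Field K]
    [IsAlgClosed K] [CharP K p] [Algebra k₀ K] (σ : B →+* B) (hσg : σ A.g = A.g) (π : ι ≃ ι)
    (hσ : ∀ i n x, x ∈ A.P.F i n → σ x ∈ A.P.F (π i) n) (μ : ℕ)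
    (hb : (A.places.C + Fintype.card ι + 6) ^ 2 ≤ p ^ μ) (c : ℕ)
    (S : Finset (B →ₐ[k₀] K)) (hS : ∀ φ ∈ S, ∀ x, φ x ^ (p ^ μ * p ^ μ) = φ (σ x))
    (htr : ∀ φ ∈ S, ∑ i ∈ range (2 * μ), φ A.g ^ p ^ i = c) :
    p * S.card ≤ p ^ μ * p ^ μ
      + (4 * A.places.C + 4 * Fintype.card ι + 8) * p ^ μ := by
  classical
  have : ExpChar K p := ExpChar.prime hp.out
  have : ExpChar A.Ring' p := ExpChar.prime hp.out
  have hq : p ^ μ * p ^ μ = p ^ (2 * μ) := by rw [← pow_add]; congr 1; omega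
  have hroot : ∀ φ : B →ₐ[k₀] K, ∃ y : K, y ^ p - y = φ A.g := by
    intro φ
    obtain ⟨y, hy⟩ := IsAlgClosed.exists_root (X ^ p - X - Polynomial.C (φ A.g) : K[X]) (by
      have e : (X ^ p - X - Polynomial.C (φ A.g) : K[X]).natDegree = p := by
        rw [natDegree_sub_C, natDegree_sub_eq_left_of_natDegree_lt, natDegree_X_pow]
        rw [natDegree_X, natDegree_X_pow]; exact hp.out.one_lt
      intro h
      have := natDegree_eq_of_degree_eq_some (show _ = ((0 : ℕ) : WithBot ℕ) from h)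
      rw [e] at this; exact hp.out.ne_zero this)
    exact ⟨y, by simpa [sub_eq_zero] using hy⟩
  choose y₀ hy₀ using hroot
  have hy : ∀ φ : B →ₐ[k₀] K, ∀ i : Fin p,
      eval₂ (φ : B →+* K) (y₀ φ + ((i : ℕ) : K)) A.poly = 0 := by
    intro φ i
    have hnat : ((i : ℕ) : K) ^ p = ((i : ℕ) : K) := by rw [← frobenius_def, map_natCast]
    simp only [poly, eval₂_sub, eval₂_pow, eval₂_X, eval₂_C, add_pow_char, RingHom.coe_coe, hnat,
      ← hy₀ φ]
    ring
  let lift' : S × Fin p → (A.Ring' →ₐ[k₀] K) := fun t =>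
    AdjoinRoot.liftAlgHom A.poly t.1.1 (y₀ t.1.1 + ((t.2 : ℕ) : K)) (hy _ _)
  have hinj : Function.Injective lift' := by
    rintro ⟨φ, i⟩ ⟨φ', i'⟩ h
    have e1 : φ.1 = φ'.1 := AlgHom.ext fun b => by
      simpa [lift'] using DFunLike.congr_fun h (AdjoinRoot.of A.poly b)
    have e2 : φ = φ' := Subtype.ext e1
    subst e2
    have := DFunLike.congr_fun h (AdjoinRoot.root A.poly)
    simp only [lift', AdjoinRoot.liftAlgHom_root, add_right_inj] at this
    exact Prod.ext rfl (Fin.ext ((CharP.natCast_injOn_Iio K p) i.2 i'.2 this))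
  let S' : Finset (A.Ring' →ₐ[k₀] K) := univ.image lift'
  have hcard : S'.card = p * S.card := by
    rw [Finset.card_image_of_injective _ hinj, card_univ, Fintype.card_prod, Fintype.card_coe,
      Fintype.card_fin, mul_comm]
  have hS' : ∀ ψ ∈ S', ∀ x, ψ x ^ (p ^ μ * p ^ μ) = ψ (A.lift σ hσg c x) := by
    intro ψ hψ x
    simp only [S', Finset.mem_image, mem_univ, true_and] at hψ
    obtain ⟨⟨φ, i⟩, rfl⟩ := hψ
    have hrh : ((iterateFrobenius K p (2 * μ)).comp (lift' (φ, i) : A.Ring' →+* K))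
        = ((lift' (φ, i) : A.Ring' →+* K)).comp (A.lift σ hσg c) := by
      refine AdjoinRoot.ringHom_ext ?_ ?_
      · refine RingHom.ext fun b => ?_
        simp only [RingHom.comp_apply, iterateFrobenius_def, RingHom.coe_coe, lift', lift_of,
          AdjoinRoot.liftAlgHom_of, ← hq]
        exact hS φ.1 φ.2 b
      · simp only [RingHom.comp_apply, iterateFrobenius_def, RingHom.coe_coe, lift', lift_root,
          map_add, map_natCast, Y, AdjoinRoot.liftAlgHom_root, add_pow_char_pow]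
        have hsum : ∀ m : ℕ, y₀ φ.1 ^ p ^ m = y₀ φ.1 + ∑ j ∈ range m, φ.1 A.g ^ p ^ j := by
          intro m
          induction m with
          | zero => simp
          | succ m ih =>
            rw [pow_succ, pow_mul, ih, Finset.sum_range_succ', add_pow_char]
            have e : (∑ j ∈ range m, φ.1 A.g ^ p ^ j) ^ p
                = ∑ j ∈ range m, φ.1 A.g ^ p ^ (j + 1) := by
              rw [sum_pow_char]
              exact Finset.sum_congr rfl fun j _ => by rw [← pow_mul, ← pow_succ]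
            rw [e, pow_zero, pow_one, ← hy₀ φ.1]; ring
        rw [hsum, htr φ.1 φ.2]; ring
    have := RingHom.congr_fun hrh x
    simpa only [RingHom.comp_apply, iterateFrobenius_def, RingHom.coe_coe, hq] using this
  have := Places.stepanov (P := A.places) (i₀ := i₀) p (A.exact_places i₀) (A.lift σ hσg c) π
    (fun i n x hx => A.lift_mem σ hσg π hσ c i n x hx) μ hb S' hS'
  rwa [hcard] at this

end LayerData

end

end Vale.Agent.P042.Curve.Sm
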