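import Vale.Agent.P042.Curve.Defs

/-!
Expansions of functions at the good points of the component and spaces of functions of bounded
degree.

`expand A P` sends a polynomial in `x`, `y` to its power series along the branch through `P`,
`jet A P i` is its `i`th coefficient, and `Wsp A M E B` are the polynomials `∑_{j < e} f_j(x) y ^ j`
with `deg f_j + j ≤ M` vanishing on the cycle `E` and at the finitely many points `B`.
-/

open Finset Polynomial

namespace Vale.Agent.P042.Curve

open Vale.Agent.P042.Upper

noncomputable section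

/-- The algebraic closure of the prime field. -/
abbrev Kbar (p : ℕ) [Fact p.Prime] := AlgebraicClosure (ZMod p)

variable {p : ℕ} [Fact p.Prime]

/-- The component over the algebraic closure. -/
def pK (A : Comp p) : (Kbar p)[X][X] := A.P.map (mapRingHom (algebraMap (ZMod p) (Kbar p)))

/-- The degree of the component. -/
def edeg (A : Comp p) : ℕ := (pK A).natDegree

/-- Expansion at `x₀` in the variable `x - x₀`. -/
def xmap (x₀ : Kbar p) : (Kbar p)[X] →+* PowerSeries (Kbar p) :=
  eval₂RingHom PowerSeries.C (PowerSeries.C x₀ + PowerSeries.X)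

open scoped Classical in
/-- The ordinate along the branch through `P`. -/
def branch (A : Comp p) (P : Kbar p × Kbar p) : PowerSeries (Kbar p) :=
  if h : ∃ Y, ((pK A).map (xmap P.1)).eval Y = 0 ∧ PowerSeries.constantCoeff Y = P.2 then h.choose
  else PowerSeries.C P.2

/-- Expansion along the branch through `P`. -/
def expand (A : Comp p) (P : Kbar p × Kbar p) : (Kbar p)[X][X] →+* PowerSeries (Kbar p) :=
  eval₂RingHom (xmap P.1) (branch A P)

lemma xmap_C (x₀ c : Kbar p) : xmap x₀ (C c) = PowerSeries.C c := by simp [xmap]

/-- The `i`th coefficient of the expansion. -/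
def jet (A : Comp p) (P : Kbar p × Kbar p) (i : ℕ) : (Kbar p)[X][X] →ₗ[Kbar p] Kbar p where
  toFun f := PowerSeries.coeff i (expand A P f)
  map_add' f g := by simp
  map_smul' c f := by
    rw [show c • f = C (C c) * f from by rw [← Polynomial.smul_eq_C_mul, ← algebraMap_smul
      (Kbar p)[X] c f, ← Polynomial.C_eq_algebraMap], map_mul]
    simp [expand, xmap_C]

/-- Evaluation at a point. -/
def ev (P : Kbar p × Kbar p) : (Kbar p)[X][X] →ₗ[Kbar p] Kbar p where
  toFun f := (f.map (evalRingHom P.1)).eval P.2
  map_add' f g := by simp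
  map_smul' c f := by
    rw [show c • f = C (C c) * f from by rw [← Polynomial.smul_eq_C_mul, ← algebraMap_smul
      (Kbar p)[X] c f, ← Polynomial.C_eq_algebraMap]]
    simp

open scoped Classical in
/-- The points of the component which are not good. -/
def bad (A : Comp p) : Finset (Kbar p × Kbar p) :=
  (derivative (A.h.map (algebraMap (ZMod p) (Kbar p)))).roots.toFinset.biUnion fun c =>
    ((A.h.map (algebraMap (ZMod p) (Kbar p)) + C (aeval c A.h)).roots.toFinset.filter
      fun x => OnCurve A (x, c)).image fun x => (x, c)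

/-- The exponents `(i, j)` of `x ^ i y ^ j` with `j < e` and `i + j ≤ M`. -/
def idx (e M : ℕ) : Finset (ℕ × ℕ) :=
  (range (M + 1) ×ˢ range e).filter fun ij => ij.1 + ij.2 ≤ M

/-- The polynomial with given coefficients. -/
def poly {R : Type*} [CommRing R] {e M : ℕ} (v : idx e M → R) : R[X][X] :=
  ∑ ij : idx e M, monomial ij.1.2 (monomial ij.1.1 (v ij))

/-- The function with given coefficients in the prime field. -/
def rat {e M : ℕ} (v : idx e M → ZMod p) : (Kbar p)[X][X] :=
  poly fun ij => algebraMap (ZMod p) (Kbar p) (v ij)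

/-- Polynomials of degree less than `e` in `y` and total degree at most `M`. -/
def LSpace (p : ℕ) [Fact p.Prime] (e M : ℕ) : Submodule (Kbar p) (Kbar p)[X][X] :=
  Submodule.span (Kbar p) ((fun ij => monomial ij.2 (monomial ij.1 1)) '' (idx e M : Set (ℕ × ℕ)))

open scoped Classical in
/-- Vanishing on a cycle and at finitely many points. -/
def Wsp (A : Comp p) (M : ℕ) (E : Multiset (Kbar p × Kbar p)) (B : Finset (Kbar p × Kbar p)) :
    Submodule (Kbar p) (Kbar p)[X][X] :=
  LSpace p (edeg A) M ⊓ (⨅ P : Kbar p × Kbar p, ⨅ i : Fin (E.count P), LinearMap.ker (jet A P i)) ⊓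
    (⨅ P : B, LinearMap.ker (ev (P : Kbar p × Kbar p)))

/-- The same top form and the same values at the points which are not good. -/
def SameBoundary (A : Comp p) (M : ℕ) (f g : (Kbar p)[X][X]) : Prop :=
  (∀ j < edeg A, (f.coeff j).coeff (M - j) = (g.coeff j).coeff (M - j)) ∧
    ∀ P ∈ bad A, ev P f = ev P g

/-- Frobenius on points. -/
def frP (P : Kbar p × Kbar p) : Kbar p × Kbar p := (WeilProof.fr p P.1, WeilProof.fr p P.2)

/-- An invariant cycle of good points of the component. -/
def IsCycle (A : Comp p) (E : Multiset (Kbar p × Kbar p)) : Prop :=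
  E.map frP = E ∧ ∀ P ∈ E, Good A P ∧ OnCurve A P

end

end Vale.Agent.P042.Curve
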