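import Vale.Agent.P042.Curve.Rational.Classes

/-!
The sums over the extensions are power sums of boundedly many numbers.
-/

open Finset Polynomial

namespace Vale.Agent.P042.Curve

open Vale.Agent.P042.Upper

noncomputable section

variable {p : ℕ} [Fact p.Prime] (A : Comp p)

lemma csum_eq (ψ : AddChar (ZMod p) ℂ) (g : (ZMod p)[X]) (n : ℕ) :
    csum A ψ g n = ∑ P ∈ pts A n, chi ψ g (Orbit.orb frP n P) := by
  refine Finset.sum_congr rfl fun P _ => ?_
  rw [chi, WeilProof.chi, Orbit.orb, Multiset.map_map, Multiset.map_map]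
  congr 2
  rw [← Multiset.coe_range, Multiset.map_coe, Multiset.sum_coe]
  congr 1
  refine List.map_congr_left fun i hi => ?_
  clear hi
  simp only [Function.comp_apply, frP_iterate]
  induction i with
  | zero => rfl
  | succ i ih => rw [Function.iterate_succ_apply', Function.iterate_succ_apply', ih, WeilProof.fr_eval]

lemma clsum_recursion (ψ : AddChar (ZMod p) ℂ) (g : (ZMod p)[X]) (n : ℕ) :
    (n : ℂ) * clsum A ψ g n =
      ∑ k ∈ Finset.Icc 1 n, csum A ψ g k * clsum A ψ g (n - k) := by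
  refine (Orbit.recursion (Dom A) frP_injective (dom_frP A) (fun _ hk P => mem_pts A hk P) (chi ψ g)
    (fun R S hR hS _ _ => chi_add ψ g hR hS) n).trans ?_
  refine Finset.sum_congr rfl fun k _ => ?_
  rw [csum_eq]
  rfl

/-- Rationality, with a degree depending only on the degrees. -/
theorem csum_power_sum (k : ℕ) : ∃ B : ℕ, ∀ (p : ℕ) [Fact p.Prime], B < p →
    ∀ A : Comp p, A.h.natDegree = k →
    (∀ (ψ : AddChar (ZMod p) ℂ), ψ ≠ 1 → ∀ g : (ZMod p)[X], 1 ≤ g.natDegree → g.natDegree ≤ k →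
      ∃ w : Fin B → ℂ, ∀ n : ℕ, 1 ≤ n → csum A ψ g n = -∑ i, w i ^ n) ∧
    ∃ w : Fin B → ℂ, ∀ n : ℕ, 1 ≤ n →
      ((pts A n).card : ℂ) = (p : ℂ) ^ n - ∑ i, w i ^ n := by
  obtain ⟨G, hG⟩ := card_rat_through k
  refine ⟨2 * G + k * (k ^ 3 + k + 2) + k ^ 3 + G + k + 1, fun p _ hp A hk => ?_⟩
  have hT : Through A G := by
    intro M E hE hM Q _ _ hQ
    have h := hG p (by omega) A hk M E hE hM Q hQ
    convert h using 2 <;> congr!
  have hbad : (bad A).card < p := lt_of_le_of_lt (card_bad_le A) (by rw [hk]; omega)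
  refine ⟨fun ψ hψ g hg1 hgk => ?_, ?_⟩
  · refine Orbit.power_sum_of_recursion _ (clsum A ψ g) (csum A ψ g) (clsum_zero ψ g) (fun n hn => ?_)
      (clsum_recursion A ψ g)
    refine clsum_eq_zero ψ g hT hψ hg1 (by omega) (by rw [hk]; omega) ?_
    rw [hk]
    have h1 : k * (k ^ 3 + g.natDegree + 2) ≤ k * (k ^ 3 + k + 2) :=
      Nat.mul_le_mul_left _ (by omega)
    omega
  · obtain ⟨w, hw⟩ := Orbit.power_sum_of_geometric
      (2 * G + k * (k ^ 3 + k + 2) + k ^ 3 + G + k + 1) (p : ℂ) (clsum A 1 1)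
      (csum A (1 : AddChar (ZMod p) ℂ) 1) (clsum_zero 1 1)
      (fun n hn => by
        rw [clsum_one, clsum_one, card_cycles_succ hT hbad (j := n) (by omega), Nat.cast_mul])
      (clsum_recursion A 1 1)
    refine ⟨w, fun n hn => ?_⟩
    rw [← hw n hn]
    simp [csum]

end

end Vale.Agent.P042.Curve
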