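import Vale.Agent.P042.Curve.StepanovMain
import Vale.Agent.P042.Curve.Rational

/-!
Weil's bound on the component and the symmetric measure on the values of `h`.
-/

open Finset Polynomial

namespace Vale.Agent.P042.Curve

open Vale.Agent.P042.Upper

noncomputable section

variable {p : ℕ} [Fact p.Prime]

/-- The component through `(z, z)`, irreducible over the algebraic closure, has coefficients in the
prime field, as it is the only one through this smooth point. -/
theorem exists_comp (h : (ZMod p)[X]) (hk : 2 ≤ h.natDegree) (hp : h.natDegree < p)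
    {z : ZMod p} (hz : h.eval z = 0) (hd0 : (derivative h).eval z ≠ 0) :
    ∃ A : Comp p, A.h = h := by
  set φ := algebraMap (ZMod p) (AlgebraicClosure (ZMod p)) with hφ
  set F : (ZMod p)[X][X] := Polynomial.C h + h.map Polynomial.C with hF
  have ha : h.leadingCoeff ≠ 0 := leadingCoeff_ne_zero.2 (by rintro rfl; simp at hk)
  have hmap : (h.map Polynomial.C).natDegree = h.natDegree :=
    natDegree_map_eq_of_injective C_injective h
  have hlead : F.leadingCoeff = Polynomial.C h.leadingCoeff := by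
    rw [hF, leadingCoeff_add_of_degree_lt, leadingCoeff_map_of_injective C_injective]
    refine lt_of_le_of_lt degree_C_le ?_
    rw [degree_eq_natDegree fun h0 => by rw [h0] at hmap; simp at hmap; omega, hmap]
    exact_mod_cast (by omega : 0 < h.natDegree)
  set G : (ZMod p)[X][X] := Polynomial.C (Polynomial.C h.leadingCoeff⁻¹) * F with hG
  have hGm : G.Monic := by
    refine monic_C_mul_of_mul_leadingCoeff_eq_one ?_
    rw [hlead, ← C_mul, inv_mul_cancel₀ ha, C_1]
  have hGF : F = Polynomial.C (Polynomial.C h.leadingCoeff) * G := by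
    rw [hG, ← mul_assoc, ← C_mul, ← C_mul, mul_inv_cancel₀ ha, C_1, C_1, one_mul]
  set GK := G.map (mapRingHom φ) with hGK
  have hGKm : GK.Monic := hGm.map _
  let ev : (AlgebraicClosure (ZMod p))[X][X] →+* AlgebraicClosure (ZMod p) :=
    eval₂RingHom (evalRingHom (φ z)) (φ z)
  have hev : ∀ q : (ZMod p)[X][X],
      ev (q.map (mapRingHom φ)) = φ ((q.map (evalRingHom z)).eval z) := by
    intro q
    simp only [ev, coe_eval₂RingHom, eval₂_map]
    rw [eval_map, hom_eval₂]
    congr 1
    ext a <;> simp [φ]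
  have hdF : (derivative F).map (evalRingHom z) = derivative h := by
    rw [hF, map_add, derivative_C, zero_add, derivative_map, Polynomial.map_map]
    conv_rhs => rw [← Polynomial.map_id (p := derivative h)]
    congr 1
    ext a; simp
  have hFz : (F.map (evalRingHom z)).eval z = 0 := by
    rw [hF, Polynomial.map_add, map_C, Polynomial.map_map, eval_add, eval_C]
    rw [show (evalRingHom z).comp Polynomial.C = RingHom.id (ZMod p) by ext a; simp,
      Polynomial.map_id, coe_evalRingHom, hz, add_zero]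
  have hGz : ev GK = 0 := by
    rw [hGK, hev, hG, Polynomial.map_mul, eval_mul, hFz, mul_zero, map_zero]
  have hGd : ev (derivative GK) ≠ 0 := by
    rw [hGK, derivative_map, hev, hG, derivative_C_mul, Polynomial.map_mul, eval_mul, hdF]
    simp [ha, hd0]
  -- some monic irreducible factor vanishes at the point
  obtain ⟨Q, hQm, hQi, hQdvd, hQz⟩ : ∃ Q : (AlgebraicClosure (ZMod p))[X][X],
      Q.Monic ∧ Irreducible Q ∧ Q ∣ GK ∧ ev Q = 0 := by
    obtain ⟨u, hu⟩ := UniqueFactorizationMonoid.factors_prod hGKm.ne_zero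
    have h0 : ev (UniqueFactorizationMonoid.factors GK).prod = 0 := by
      have := congrArg ev hu
      rw [map_mul, hGz, mul_eq_zero] at this
      exact this.resolve_right (u.isUnit.map ev).ne_zero
    rw [map_multiset_prod, Multiset.prod_eq_zero_iff, Multiset.mem_map] at h0
    obtain ⟨Q, hQ, hQz⟩ := h0
    have hdvd := (Multiset.dvd_prod hQ).trans (Dvd.intro _ hu)
    obtain ⟨R, hR⟩ := hdvd
    have hl : Q.leadingCoeff * R.leadingCoeff = 1 := by
      rw [← leadingCoeff_mul, ← hR, hGKm.leadingCoeff]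
    have hunit : IsUnit (Polynomial.C R.leadingCoeff) :=
      isUnit_C.2 (IsUnit.of_mul_eq_one _ ((mul_comm _ _).trans hl))
    refine ⟨Polynomial.C R.leadingCoeff * Q, monic_C_mul_of_mul_leadingCoeff_eq_one
      ((mul_comm _ _).trans hl), (irreducible_isUnit_mul hunit).2
      (UniqueFactorizationMonoid.irreducible_of_factor Q hQ), ?_, by rw [map_mul, hQz, mul_zero]⟩
    exact (hunit.mul_left_dvd).2 ⟨R, hR⟩
  obtain ⟨R, hR⟩ := hQdvd
  have hRz : ev R ≠ 0 := by
    intro h0
    apply hGd
    rw [hR, derivative_mul, map_add, map_mul, map_mul, hQz, h0, mul_zero, zero_mul, add_zero]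
  -- Frobenius fixes it
  set fQ := Q.map (mapRingHom (WeilProof.fr p)) with hfQ
  have hφfr : ∀ a : ZMod p, WeilProof.fr p (φ a) = φ a := fun a => by
    rw [WeilProof.fr_apply, ← map_pow, ZMod.pow_card]
  have hGKfix : GK.map (mapRingHom (WeilProof.fr p)) = GK := by
    rw [hGK, Polynomial.map_map]
    congr 1
    ext a <;> simp [hφfr]
  have hfQz : ev fQ = 0 := by
    have : ev fQ = WeilProof.fr p (ev Q) := by
      simp only [ev, coe_eval₂RingHom, hfQ, eval₂_map]
      rw [hom_eval₂, hφfr]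
      congr 1
      ext a <;> simp [hφfr]
    rw [this, hQz, map_zero]
  have hfQm : fQ.Monic := hQm.map _
  have hfQu : ¬ IsUnit fQ := fun hu => (hu.map ev).ne_zero hfQz
  have hfix : fQ = Q := by
    have hdiv : fQ ∣ Q * R := by
      rw [← hR, ← hGKfix]
      exact Polynomial.map_dvd (mapRingHom (WeilProof.fr p)) ⟨R, hR⟩
    obtain ⟨a, b, ha', hb', hab⟩ := exists_dvd_and_dvd_of_dvd_mul hdiv
    have hb : IsUnit b := by
      have hQdeg : fQ.natDegree = Q.natDegree := hQm.natDegree_map _
      rcases hQi.isUnit_or_isUnit (ha'.choose_spec) with hua | huc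
      · exfalso
        have : fQ ∣ R := by rw [hab]; exact (hua.mul_left_dvd).2 hb'
        exact hRz (by obtain ⟨c, rfl⟩ := this; rw [map_mul, hfQz, zero_mul])
      · have hQa : Q ∣ fQ := by
          rw [hab, ha'.choose_spec]
          exact (huc.mul_right_dvd).2 (dvd_mul_right a b)
        have e := eq_of_monic_of_dvd_of_natDegree_le hQm hfQm hQa hQdeg.le
        have : Q = a * b := by rw [← hab, e]
        refine (hQi.isUnit_or_isUnit this).resolve_left fun hua => ?_
        exact hRz (by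
          obtain ⟨c, hc'⟩ := (show fQ ∣ R by rw [hab]; exact (hua.mul_left_dvd).2 hb')
          rw [hc', map_mul, hfQz, zero_mul])
    have h1 : fQ ∣ Q := by rw [hab]; exact (hb.mul_right_dvd).2 ha'
    exact (eq_of_monic_of_dvd_of_natDegree_le hfQm hQm h1 (hQm.natDegree_map _).ge).symm
  have hl : Q ∈ lifts (mapRingHom φ) := by
    rw [lifts_iff_coeff_lifts]
    intro n
    change Q.coeff n ∈ (mapRingHom φ).rangeS
    rw [RingHom.mem_rangeS]
    have hmem : Q.coeff n ∈ lifts φ := by
      rw [lifts_iff_coeff_lifts]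
      intro m
      refine WeilProof.exists_of_fixed p ?_
      conv_rhs => rw [← hfix]
      simp [hfQ, coeff_map]
    exact (lifts_iff_set_range _).1 hmem
  obtain ⟨P, hPQ, -, hPm⟩ := lifts_and_natDegree_eq_and_monic hl hQm
  have hPG : P ∣ G := by
    rw [← map_dvd_map (mapRingHom φ) (map_injective φ φ.injective) hPm, hPQ]
    exact ⟨R, hR⟩
  refine ⟨⟨h, hk, hp, P, hPm, (show P ∣ F by rw [hGF]; exact hPG.mul_left _), by rw [← hφ, hPQ]; exact hQi, z, hz,
    hd0, φ.injective ?_⟩, rfl⟩
  rw [map_zero, ← hev, hPQ, hQz]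

theorem norm_le_sqrt_of_even {p : ℕ} (hp : 0 < p) {ι : Type*} [Fintype ι] (w : ι → ℂ) (C : ℝ)
    (hw : ∀ s : ℕ, 1 ≤ s → ‖∑ i, w i ^ (2 * s)‖ ≤ C * (p : ℝ) ^ s) (i : ι) :
    ‖w i‖ ≤ Real.sqrt p := by
  have hp0 : (0 : ℝ) < p := by exact_mod_cast hp
  have := WeilProof.norm_le_of_power_sums_bounded (fun i => w i ^ 2 / (p : ℂ)) C 1 (fun m hm => by
    simp only [div_pow, ← pow_mul, ← Finset.sum_div, norm_div, norm_pow, Complex.norm_natCast]
    rw [div_le_iff₀ (pow_pos hp0 m)]
    exact hw m hm) i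
  rw [norm_div, norm_pow, Complex.norm_natCast, div_le_one hp0] at this
  exact Real.le_sqrt_of_sq_le this

/-- The bounds over the prime field. -/
theorem curve_bound (k : ℕ) : ∃ B : ℕ, ∀ (p : ℕ) [Fact p.Prime], B < p →
    ∀ A : Comp p, A.h.natDegree = k →
    |((pts A 1).card : ℝ) - p| ≤ B * Real.sqrt p ∧
    ∀ (ψ : AddChar (ZMod p) ℂ), ψ ≠ 1 → ‖csum A ψ A.h 1‖ ≤ B * Real.sqrt p := by
  obtain ⟨B, hB⟩ := csum_power_sum k
  refine ⟨B, fun p _ hp A hA => ?_⟩
  obtain ⟨h1, w, hw⟩ := hB p hp A hA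
  have hp0 : 0 < p := (Fact.out : p.Prime).pos
  have key : ∀ w : Fin B → ℂ, (∀ i, ‖w i‖ ≤ Real.sqrt p) → ‖∑ i, w i ^ 1‖ ≤ B * Real.sqrt p := by
    intro w hb
    refine (norm_sum_le _ _).trans ((Finset.sum_le_sum (g := fun _ => Real.sqrt p) fun i _ => ?_).trans
      (le_of_eq (by simp)))
    simpa using hb i
  refine ⟨?_, fun ψ hψ => ?_⟩
  · obtain ⟨C, hC⟩ := card_pts_even A
    have hb := norm_le_sqrt_of_even hp0 w C fun s hs => by
      have := hC s hs
      rw [← Real.norm_eq_abs, ← Complex.norm_real] at this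
      push_cast at this
      rw [hw _ (by omega), sub_sub_cancel_left, norm_neg] at this
      exact this
    have := key w hb
    rw [← norm_neg] at this
    rw [← Real.norm_eq_abs, ← Complex.norm_real]
    push_cast
    rw [hw 1 le_rfl, pow_one, sub_sub_cancel_left]
    simpa using this
  · obtain ⟨v, hv⟩ := h1 ψ hψ A.h (le_trans (by norm_num) A.two_le) hA.le
    obtain ⟨C, hC⟩ := csum_even A ψ hψ A.h (le_trans (by norm_num) A.two_le) A.deg_lt
    have hb := norm_le_sqrt_of_even hp0 v C fun s hs => by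
      simpa [hv _ (by omega : 1 ≤ 2 * s), norm_neg] using hC s hs
    rw [hv 1 le_rfl, norm_neg]
    exact key v hb

open scoped Classical in
/-- The rational points with noncritical first coordinate. -/
def symPts (A : Comp p) : Finset (ZMod p × ZMod p) :=
  univ.filter fun P => (Good A (algebraMap _ _ P.1, algebraMap _ _ P.2) ∧
    OnCurve A (algebraMap _ _ P.1, algebraMap _ _ P.2)) ∧ (derivative A.h).eval P.1 ≠ 0

theorem symPts_spec (A : Comp p) {P : ZMod p × ZMod p} (hP : P ∈ symPts A) :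
    (derivative A.h).eval P.1 ≠ 0 ∧ (derivative A.h).eval P.2 ≠ 0 ∧
      A.h.eval P.2 = -A.h.eval P.1 := by
  simp only [symPts, mem_filter, mem_univ, true_and] at hP
  obtain ⟨⟨hg, hon⟩, hd⟩ := hP
  obtain ⟨R, hR⟩ := A.dvd
  set φ := algebraMap (ZMod p) (AlgebraicClosure (ZMod p)) with hφ
  have h0 : ((Polynomial.C A.h + A.h.map Polynomial.C).map (eval₂RingHom φ (φ P.1))).eval (φ P.2)
      = 0 := by
    rw [hR, Polynomial.map_mul, eval_mul]
    exact mul_eq_zero_of_left hon _
  have h1 : φ (A.h.eval P.1) + φ (A.h.eval P.2) = 0 := by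
    rw [Polynomial.map_add, map_C, Polynomial.map_map, eval_add, eval_C, eval_map] at h0
    rw [show (eval₂RingHom φ (φ P.1)).comp Polynomial.C = φ by ext a; simp,
      coe_eval₂RingHom, eval₂_at_apply, eval₂_at_apply] at h0
    exact h0
  refine ⟨hd, fun h2 => hg ?_, ?_⟩
  · show aeval (φ P.2) (derivative A.h) = 0
    rw [hφ, aeval_algebraMap_apply_eq_algebraMap_eval, h2, map_zero]
  · rw [← map_add, map_eq_zero_iff _ φ.injective] at h1
    exact eq_neg_of_add_eq_zero_right h1

open scoped Classical in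
theorem pts_one (A : Comp p) :
    pts A 1 = (univ.filter fun P : ZMod p × ZMod p => Good A (algebraMap _ _ P.1, algebraMap _ _ P.2) ∧
      OnCurve A (algebraMap _ _ P.1, algebraMap _ _ P.2)).image
        (Prod.map (algebraMap _ _) (algebraMap _ _)) := by
  ext ⟨x, y⟩
  simp only [pts, mem_filter, Finset.mem_product, mem_image, mem_univ, true_and,
    WeilProof.mem_fixk p le_rfl, Function.iterate_one, Prod.map, Prod.mk.injEq]
  constructor
  · rintro ⟨⟨hx, hy⟩, hg, hon⟩
    obtain ⟨a, rfl⟩ := WeilProof.exists_of_fixed p hx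
    obtain ⟨b, rfl⟩ := WeilProof.exists_of_fixed p hy
    exact ⟨(a, b), ⟨hg, hon⟩, rfl, rfl⟩
  · rintro ⟨⟨a, b⟩, hP, rfl, rfl⟩
    exact ⟨⟨by rw [WeilProof.fr_apply, ← map_pow, ZMod.pow_card],
      by rw [WeilProof.fr_apply, ← map_pow, ZMod.pow_card]⟩, hP⟩

theorem card_roots_shift {q : (ZMod p)[X]} {k : ℕ} (hq : q.natDegree = k) (hk : 1 ≤ k) (w : ZMod p) :
    (univ.filter fun x => q.eval x = w).card ≤ k := by
  have h0 : q - Polynomial.C w ≠ 0 := fun h => by
    rw [sub_eq_zero] at h
    rw [h, natDegree_C] at hq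
    omega
  refine le_trans (Finset.card_le_card (t := (q - Polynomial.C w).roots.toFinset) fun x hx => ?_)
    ((Multiset.toFinset_card_le _).trans ((card_roots' _).trans (by rw [natDegree_sub_C, hq])))
  simp only [mem_filter] at hx
  simp [Multiset.mem_toFinset, mem_roots h0, hx.2]

open scoped Classical in
/-- A symmetric weight on values at noncritical points with small transform. -/
theorem exists_symmetric_weight (k : ℕ) (hk : 2 ≤ k) : ∃ (B : ℕ) (c : ℝ), 0 < c ∧
    ∀ (p : ℕ) [Fact p.Prime], B < p → ∀ h : (ZMod p)[X], h.natDegree = k →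
    (∃ z, h.eval z = 0 ∧ (derivative h).eval z ≠ 0) →
    ∃ ν : ZMod p → ℝ, (∀ z, ν (-z) = ν z) ∧
      (∀ z, ν z ≠ 0 → (∃ x, (derivative h).eval x ≠ 0 ∧ h.eval x = z) ∧
        ∃ x, (derivative h).eval x ≠ 0 ∧ h.eval x = -z) ∧
      (∀ z, 0 ≤ ν z ∧ ν z ≤ B) ∧ c * p ≤ ∑ z, ν z ∧
      ∀ ψ : AddChar (ZMod p) ℂ, ψ ≠ 1 → ‖∑ z, (ν z : ℂ) * ψ z‖ ≤ B * Real.sqrt p := by
  obtain ⟨B, hB⟩ := curve_bound k
  refine ⟨4 * (B + k * k + 1) ^ 2, 1, one_pos, fun p _ hp h hh ⟨z, hz, hd0⟩ => ?_⟩
  have hBk : B + k * k + 1 ≤ (B + k * k + 1) ^ 2 := Nat.le_self_pow (by norm_num) _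
  have hkk : k ≤ k * k := Nat.le_mul_self k
  obtain ⟨A, rfl⟩ := exists_comp h (hh ▸ hk) (by omega) hz hd0
  obtain ⟨hcard, hsum⟩ := hB p (by omega) A hh
  set T := univ.filter fun P : ZMod p × ZMod p => Good A (algebraMap _ _ P.1, algebraMap _ _ P.2) ∧
      OnCurve A (algebraMap _ _ P.1, algebraMap _ _ P.2) with hT
  have hinj : Function.Injective (Prod.map (algebraMap (ZMod p) (AlgebraicClosure (ZMod p)))
      (algebraMap (ZMod p) (AlgebraicClosure (ZMod p)))) :=
    Function.Injective.prodMap (RingHom.injective _) (RingHom.injective _)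
  have hTc : (pts A 1).card = T.card := by rw [pts_one, card_image_of_injective _ hinj]
  have hS : ∀ (ψ : AddChar (ZMod p) ℂ),
      csum A ψ A.h 1 = ∑ P ∈ T, ψ (A.h.eval P.1) := by
    intro ψ
    rw [csum, pts_one, sum_image hinj.injOn]
    refine sum_congr rfl fun P _ => ?_
    simp [WeilProof.fK, eval_map, eval₂_at_apply, WeilProof.coord_algebraMap]
  have hS' : symPts A = T.filter fun P => (derivative A.h).eval P.1 ≠ 0 := by
    rw [symPts, hT, filter_filter]
  have hfib : ∀ w, ((symPts A).filter fun P => A.h.eval P.1 = w).card ≤ k * k := by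
    intro w
    refine le_trans (card_le_card (t := (univ.filter fun x => A.h.eval x = w) ×ˢ
      (univ.filter fun x => A.h.eval x = -w)) fun P hP => ?_) ?_
    · simp only [mem_filter] at hP
      simp [hP.2, (symPts_spec A hP.1).2.2]
    · rw [card_product]
      exact Nat.mul_le_mul (card_roots_shift hh (by omega) w) (card_roots_shift hh (by omega) _)
  have hlost : (T.filter fun P => ¬ (derivative A.h).eval P.1 ≠ 0).card ≤ k * k := by
    have hd : derivative A.h ≠ 0 := fun h0 => hd0 (by rw [h0, eval_zero])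
    have hcr : (derivative A.h).roots.toFinset.card ≤ k :=
      (Multiset.toFinset_card_le _).trans ((card_roots' _).trans
        ((natDegree_derivative_le _).trans (by omega)))
    refine le_trans (card_le_card (t := (derivative A.h).roots.toFinset.biUnion
      fun x => ({x} : Finset (ZMod p)) ×ˢ univ.filter fun y => A.h.eval y = -A.h.eval x)
      fun P hP => ?_) ?_
    · simp only [mem_filter, not_not, hT, mem_univ, true_and] at hP
      have h1 : A.h.eval P.2 = -A.h.eval P.1 := by
        obtain ⟨R, hR⟩ := A.dvd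
        have h0 := congrArg (fun q => (q.map (eval₂RingHom (algebraMap _ (AlgebraicClosure (ZMod p)))
          (algebraMap _ _ P.1))).eval (algebraMap _ _ P.2)) hR
        simp only [Polynomial.map_mul, eval_mul, show _ = (0 : AlgebraicClosure (ZMod p)) from hP.1.2,
          zero_mul, Polynomial.map_add, map_C, Polynomial.map_map, eval_add, eval_C, eval_map] at h0
        rw [show (eval₂RingHom (algebraMap (ZMod p) (AlgebraicClosure (ZMod p)))
          (algebraMap _ _ P.1)).comp Polynomial.C = algebraMap _ _ by ext a; simp,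
          coe_eval₂RingHom, eval₂_at_apply, eval₂_at_apply, ← map_add,
          map_eq_zero_iff _ (RingHom.injective _)] at h0
        exact eq_neg_of_add_eq_zero_right h0
      simp only [mem_biUnion, Multiset.mem_toFinset, mem_roots hd, IsRoot.def, Finset.mem_product,
        mem_singleton, mem_filter, mem_univ, true_and]
      exact ⟨P.1, hP.2, rfl, h1⟩
    · refine card_biUnion_le.trans ((Finset.sum_le_card_nsmul _ _ k fun x _ => ?_).trans ?_)
      · simpa using card_roots_shift hh (by omega) _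
      · rw [smul_eq_mul]; exact Nat.mul_le_mul_right k hcr
  have hsplit : T.card ≤ (symPts A).card + k * k := by
    have := Finset.card_filter_add_card_filter_not (s := T)
      fun P => (derivative A.h).eval P.1 ≠ 0
    rw [hS']; omega
  let N : ZMod p → ℕ := fun w => ((symPts A).filter fun P => A.h.eval P.1 = w).card
  have hfibsum : ∀ F : ZMod p → ℂ, ∑ w, (N w : ℂ) * F w = ∑ P ∈ symPts A, F (A.h.eval P.1) := by
    intro F
    rw [← Finset.sum_fiberwise (symPts A) (fun P => A.h.eval P.1) fun P => F (A.h.eval P.1)]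
    refine sum_congr rfl fun w _ => ?_
    rw [sum_congr rfl (g := fun _ => F w) fun P hP => by rw [(mem_filter.1 hP).2]]
    simp [N]
  have hsq : (B : ℝ) + k * k + 1 ≤ Real.sqrt p / 2 := by
    rw [le_div_iff₀ two_pos]
    refine Real.le_sqrt_of_sq_le ?_
    have : ((B + k * k + 1) * 2) ^ 2 ≤ p := by nlinarith
    exact_mod_cast this
  have hsp : Real.sqrt p * Real.sqrt p = p := Real.mul_self_sqrt (Nat.cast_nonneg p)
  have hs1 : (1 : ℝ) ≤ Real.sqrt p := by nlinarith
  refine ⟨fun w => (N w : ℝ) + N (-w), fun w => by simp [add_comm], fun w hw => ?_, fun w => ?_,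
    ?_, fun ψ hψ => ?_⟩
  · have : N w ≠ 0 ∨ N (-w) ≠ 0 := by
      by_contra h0
      simp only [not_or, not_not] at h0
      simp [h0] at hw
    rcases this with h0 | h0 <;> simp only [N, card_ne_zero] at h0 <;>
      obtain ⟨P, hP⟩ := h0 <;> simp only [mem_filter] at hP <;>
      obtain ⟨h1, h2, h3⟩ := symPts_spec A hP.1
    · exact ⟨⟨P.1, h1, hP.2⟩, P.2, h2, by rw [h3, hP.2]⟩
    · exact ⟨⟨P.2, h2, by rw [h3, hP.2, neg_neg]⟩, P.1, h1, hP.2⟩
  · refine ⟨by positivity, ?_⟩
    have h1 : N w ≤ k * k := hfib w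
    have h2 : N (-w) ≤ k * k := hfib _
    show (N w : ℝ) + N (-w) ≤ _
    exact_mod_cast (by omega : N w + N (-w) ≤ 4 * (B + k * k + 1) ^ 2)
  · have h1 : ∑ w, ((N w : ℝ) + N (-w)) = 2 * ((symPts A).card : ℝ) := by
      have h0 : ∑ w, N w = (symPts A).card :=
        (card_eq_sum_card_fiberwise fun P _ => Finset.mem_univ _).symm
      rw [sum_add_distrib, Fintype.sum_equiv (Equiv.neg (ZMod p)) (fun w => (N (-w) : ℝ))
        (fun w => (N w : ℝ)) fun w => by simp, ← Nat.cast_sum, h0]
      ring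
    rw [h1, one_mul]
    have h2 : (T.card : ℝ) ≤ (symPts A).card + k * k := by exact_mod_cast hsplit
    rw [hTc] at hcard
    have h3 := (abs_le.1 hcard).1
    nlinarith
  · have hterm : ∀ ψ : AddChar (ZMod p) ℂ, ψ ≠ 1 →
        ‖∑ P ∈ symPts A, ψ (A.h.eval P.1)‖ ≤ B * Real.sqrt p + k * k := by
      intro ψ hψ
      have h1 := Finset.sum_filter_add_sum_filter_not T
        (fun P => (derivative A.h).eval P.1 ≠ 0) fun P => ψ (A.h.eval P.1)
      rw [← hS', ← hS] at h1
      rw [eq_sub_of_add_eq h1]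
      refine (norm_sub_le _ _).trans (add_le_add (hsum ψ hψ) ?_)
      refine (norm_sum_le _ _).trans ?_
      simp only [AddChar.norm_apply, sum_const, nsmul_eq_mul, mul_one]
      exact_mod_cast hlost
    have hneg : ψ⁻¹ ≠ 1 := inv_ne_one.2 hψ
    have h0 : ∑ w, (((N w : ℝ) + N (-w) : ℝ) : ℂ) * ψ w =
        ∑ P ∈ symPts A, ψ (A.h.eval P.1) + ∑ P ∈ symPts A, ψ⁻¹ (A.h.eval P.1) := by
      push_cast
      simp only [add_mul, sum_add_distrib]
      rw [hfibsum, Fintype.sum_equiv (Equiv.neg (ZMod p)) (fun w => (N (-w) : ℂ) * ψ w)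
        (fun w => (N w : ℂ) * ψ⁻¹ w) fun w => by simp, hfibsum]
    rw [h0]
    refine (norm_add_le _ _).trans ((add_le_add (hterm ψ hψ) (hterm _ hneg)).trans ?_)
    push_cast
    have hK : (B : ℝ) + k * k + 1 ≤ ((B : ℝ) + k * k + 1) ^ 2 := by exact_mod_cast hBk
    nlinarith [mul_le_mul_of_nonneg_right hK (Real.sqrt_nonneg p),
      mul_le_mul_of_nonneg_left hs1 (mul_self_nonneg (k : ℝ))]

end

end Vale.Agent.P042.Curve
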