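import Vale.Agent.P042.Upper.Weil.LPoly

/-!
Invariant multisets for an injective map with finitely many periodic points of each order, and
power sums from the recursion they satisfy.
-/

open Finset Polynomial

namespace Vale.Agent.P042.Curve.Orbit

open Vale.Agent.P042.Upper.WeilProof (cc pp newton coeff_prod_eq_cc)

noncomputable section

variable {α : Type*} (φ : α → α) (fix : ℕ → Finset α)

/-- The orbit multiset of length `k`. -/
def orb (k : ℕ) (x : α) : Multiset α := (Multiset.range k).map fun i => φ^[i] x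

open scoped Classical in
/-- The invariant multisets of size `n` of periodic points. -/
def mset (n : ℕ) : Finset (Multiset α) :=
  ((((Finset.Icc 1 n).biUnion fix).sym n).image fun s : Sym α n => (s : Multiset α)).filter
    fun R => R.map φ = R

variable {φ} {fix} (Dom : α → Prop) (hφ : Function.Injective φ) (hD : ∀ x, Dom x → Dom (φ x))
  (hfix : ∀ k, 1 ≤ k → ∀ x, x ∈ fix k ↔ Dom x ∧ φ^[k] x = x)

include hφ hD hfix

omit hD hfix in
theorem orb_invariant {k : ℕ} {x : α} (h : φ^[k] x = x) : (orb φ k x).map φ = orb φ k x := by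
  have e : (orb φ k x).map φ = (Multiset.range k).map fun i => φ^[i + 1] x := by
    simp [orb, Multiset.map_map, Function.iterate_succ_apply']
  rw [e]
  have hsplit : ∀ g : ℕ → α, g 0 ::ₘ (Multiset.range k).map (fun i => g (i + 1)) =
      g k ::ₘ (Multiset.range k).map g := by
    intro g
    clear e h
    induction k with
    | zero => simp
    | succ k ih =>
      simp only [Multiset.range_succ, Multiset.map_cons]
      rw [Multiset.cons_swap, ih]
  have := hsplit fun i => φ^[i] x
  simp only [Function.iterate_zero, id_eq, h] at this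
  exact (Multiset.cons_inj_right _).1 this

omit hD hfix in
theorem exists_period {R : Multiset α} (hR : R.map φ = R) {x : α} (hx : x ∈ R) :
    ∃ k ∈ Finset.Icc 1 (Multiset.card R), φ^[k] x = x := by
  classical
  have hmem : ∀ i, φ^[i] x ∈ R.toFinset := by
    intro i
    induction i with
    | zero => simpa using hx
    | succ i ih =>
      rw [Function.iterate_succ_apply', Multiset.mem_toFinset, ← hR]
      exact Multiset.mem_map_of_mem _ (Multiset.mem_toFinset.1 ih)
  obtain ⟨i, hi, j, hj, hne, he⟩ := Finset.exists_ne_map_eq_of_card_lt_of_maps_to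
    (s := range (R.toFinset.card + 1)) (t := R.toFinset) (by simp) fun i _ => hmem i
  wlog hij : i < j generalizing i j
  · exact this j hj i hi hne.symm he.symm (by omega)
  have hle := R.toFinset_card_le
  rw [Finset.mem_range] at hj
  refine ⟨j - i, Finset.mem_Icc.2 ⟨by omega, by omega⟩, hφ.iterate i ?_⟩
  rw [← Function.iterate_add_apply, show i + (j - i) = j by omega, he]

theorem mem_mset {n : ℕ} {R : Multiset α} :
    R ∈ mset φ fix n ↔ Multiset.card R = n ∧ R.map φ = R ∧ ∀ x ∈ R, Dom x := by
  classical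
  simp only [mset, Finset.mem_filter, Finset.mem_image, Finset.mem_sym_iff, Finset.mem_biUnion]
  constructor
  · rintro ⟨⟨s, hs, rfl⟩, hR⟩
    refine ⟨Sym.card_coe, hR, fun x hx => ?_⟩
    obtain ⟨k, hk, hxk⟩ := hs x hx
    exact ((hfix k (Finset.mem_Icc.1 hk).1 x).1 hxk).1
  · rintro ⟨hn, hR, hdom⟩
    refine ⟨⟨⟨R, hn⟩, fun x hx => ?_, rfl⟩, hR⟩
    obtain ⟨k, hk, hxk⟩ := exists_period hφ hR hx
    exact ⟨k, hn ▸ hk, (hfix k (Finset.mem_Icc.1 hk).1 x).2 ⟨hdom x hx, hxk⟩⟩

omit hφ hfix in
theorem dom_orb {k : ℕ} {x : α} (hx : Dom x) : ∀ y ∈ orb φ k x, Dom y := by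
  intro y hy
  obtain ⟨i, -, rfl⟩ := Multiset.mem_map.1 hy
  clear hy
  induction i with
  | zero => exact hx
  | succ i ih =>
    rw [Function.iterate_succ_apply']
    exact hD _ ih

theorem orb_mem_mset {k : ℕ} (hk : 1 ≤ k) {x : α} (hx : x ∈ fix k) :
    orb φ k x ∈ mset φ fix k := by
  obtain ⟨hd, hp⟩ := (hfix k hk x).1 hx
  exact (mem_mset Dom hφ hD hfix).2
    ⟨by simp [orb], orb_invariant hφ hp, dom_orb Dom hD hd⟩

/-- The number of orbit multisets through `x` inside `R` is the multiplicity of `x`. -/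
theorem card_orbits {n : ℕ} {R : Multiset α} (hR : R ∈ mset φ fix n) {x : α} (hx : x ∈ R)
    [DecidableEq α] :
    ((Finset.Icc 1 n).filter fun k => φ^[k] x = x ∧ orb φ k x ≤ R).card = R.count x := by
  classical
  obtain ⟨hRn, hRf, -⟩ := (mem_mset Dom hφ hD hfix).1 hR
  have hper : x ∈ Function.periodicPts φ := by
    obtain ⟨k, hk, hxk⟩ := exists_period hφ hRf hx
    exact Function.mk_mem_periodicPts (Finset.mem_Icc.1 hk).1 hxk
  set e := Function.minimalPeriod φ x with he
  have he0 : 0 < e := Function.minimalPeriod_pos_of_mem_periodicPts hper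
  have hex : φ^[e] x = x := Function.iterate_minimalPeriod
  have hcount : ∀ i, R.count (φ^[i] x) = R.count x := by
    intro i
    induction i with
    | zero => rfl
    | succ i ih =>
      conv_lhs => rw [← hRf]
      rw [Function.iterate_succ_apply', Multiset.count_map_eq_count' _ _ hφ, ih]
  have horb : ∀ j, orb φ (j * e) x = j • orb φ e x := by
    intro j
    induction j with
    | zero => simp [orb]
    | succ j ih =>
      rw [add_one_mul, succ_nsmul, ← ih]
      simp only [orb, Multiset.range_add, Multiset.map_add, Multiset.map_map]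
      congr 1
      refine Multiset.map_congr rfl fun i _ => ?_
      rw [Function.comp_apply, add_comm, Function.iterate_add_apply]
      congr 1
      have hp' : Function.IsPeriodicPt φ (j * e) x :=
        (Function.isPeriodicPt_minimalPeriod _ _).const_mul j
      exact hp'
  have hnd : (orb φ e x).Nodup := by
    refine (Multiset.nodup_range e).map_on fun i hi j hj h => ?_
    exact Function.iterate_injOn_Iio_minimalPeriod
      (Multiset.mem_range.1 hi) (Multiset.mem_range.1 hj) h
  have hxe : x ∈ orb φ e x := Multiset.mem_map.2 ⟨0, Multiset.mem_range.2 he0, rfl⟩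
  have hle : ∀ j, orb φ (j * e) x ≤ R ↔ j ≤ R.count x := by
    intro j
    rw [horb, Multiset.le_iff_count]
    constructor
    · intro h
      have := h x
      rwa [Multiset.count_nsmul, Multiset.count_eq_one_of_mem hnd hxe, mul_one] at this
    · intro h y
      rw [Multiset.count_nsmul]
      by_cases hy : y ∈ orb φ e x
      · rw [Multiset.count_eq_one_of_mem hnd hy, mul_one]
        obtain ⟨i, -, rfl⟩ := Multiset.mem_map.1 hy
        rw [hcount]; exact h
      · rw [Multiset.count_eq_zero_of_notMem hy, mul_zero]; exact Nat.zero_le _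
  have hset : ((Finset.Icc 1 n).filter fun k => φ^[k] x = x ∧ orb φ k x ≤ R) =
      (Finset.Icc 1 (R.count x)).image (· * e) := by
    ext k
    simp only [Finset.mem_filter, Finset.mem_Icc, Finset.mem_image]
    constructor
    · rintro ⟨⟨hk1, -⟩, hk, hkR⟩
      obtain ⟨j, rfl⟩ := (show Function.IsPeriodicPt φ k x from hk).minimalPeriod_dvd
      rw [← he] at hkR hk1 ⊢
      refine ⟨j, ⟨Nat.pos_of_ne_zero fun h => by simp [h] at hk1, ?_⟩, mul_comm _ _⟩
      rwa [mul_comm, hle] at hkR
    · rintro ⟨j, ⟨hj1, hj2⟩, rfl⟩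
      refine ⟨⟨Nat.mul_pos hj1 he0, ?_⟩, ?_, (hle j).2 hj2⟩
      · have := Multiset.card_le_card ((hle j).2 hj2)
        simpa [orb, hRn] using this
      · exact (Function.isPeriodicPt_minimalPeriod _ _).const_mul j
  rw [hset, Finset.card_image_of_injective _ (fun a b h => Nat.eq_of_mul_eq_mul_right he0 h),
    Nat.card_Icc]
  omega

/-- Newton's recursion for sums over invariant multisets of a multiplicative function. -/
theorem recursion (χ : Multiset α → ℂ)
    (hadd : ∀ R S : Multiset α, R.map φ = R → S.map φ = S → (∀ x ∈ R, Dom x) → (∀ x ∈ S, Dom x) →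
      χ (R + S) = χ R * χ S) (n : ℕ) :
    (n : ℂ) * ∑ R ∈ mset φ fix n, χ R =
      ∑ k ∈ Finset.Icc 1 n, (∑ x ∈ fix k, χ (orb φ k x)) * ∑ R ∈ mset φ fix (n - k), χ R := by
  classical
  have h1 : ∀ k ∈ Finset.Icc 1 n, (∑ x ∈ fix k, χ (orb φ k x)) * (∑ R ∈ mset φ fix (n - k), χ R) =
      ∑ x ∈ fix k, ∑ R ∈ (mset φ fix n).filter (fun R => orb φ k x ≤ R), χ R := by
    intro k hk
    rw [Finset.mem_Icc] at hk
    rw [Finset.sum_mul]
    refine Finset.sum_congr rfl fun x hx => ?_
    obtain ⟨hxd, hxp⟩ := (hfix k hk.1 x).1 hx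
    have ho := orb_invariant hφ hxp
    have hod := dom_orb Dom hD (k := k) hxd
    rw [Finset.mul_sum]
    refine Finset.sum_bij' (fun H _ => orb φ k x + H) (fun R _ => R - orb φ k x) ?_ ?_ ?_ ?_ ?_
    · intro H hH
      obtain ⟨hc, hf, hd⟩ := (mem_mset Dom hφ hD hfix).1 hH
      refine Finset.mem_filter.2
        ⟨(mem_mset Dom hφ hD hfix).2 ⟨?_, ?_, ?_⟩, Multiset.le_add_right _ _⟩
      · simp [orb, hc]; omega
      · rw [Multiset.map_add, ho, hf]
      · intro y hy
        rcases Multiset.mem_add.1 hy with h | h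
        · exact hod y h
        · exact hd y h
    · intro R hR
      obtain ⟨hRm, hle⟩ := Finset.mem_filter.1 hR
      obtain ⟨hc, hf, hd⟩ := (mem_mset Dom hφ hD hfix).1 hRm
      refine (mem_mset Dom hφ hD hfix).2 ⟨?_, ?_, ?_⟩
      · rw [Multiset.card_sub hle, hc]; simp [orb]
      · have h2 := congrArg (Multiset.map φ) (add_tsub_cancel_of_le hle)
        rw [Multiset.map_add, ho, hf] at h2
        conv_rhs => rw [← h2, add_tsub_cancel_left]
      · exact fun y hy => hd y (Multiset.mem_of_le tsub_le_self hy)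
    · intro H _; simp
    · intro R hR; exact add_tsub_cancel_of_le (Finset.mem_filter.1 hR).2
    · intro H hH
      obtain ⟨-, hf, hd⟩ := (mem_mset Dom hφ hD hfix).1 hH
      exact (hadd _ _ ho hf hod hd).symm
  rw [Finset.sum_congr rfl h1, Finset.mul_sum]
  calc ∑ R ∈ mset φ fix n, (n : ℂ) * χ R
      = ∑ R ∈ mset φ fix n, ∑ k ∈ Finset.Icc 1 n,
          ∑ x ∈ (fix k).filter (fun x => orb φ k x ≤ R), χ R := by
        refine Finset.sum_congr rfl fun R hR => ?_
        obtain ⟨hRn, -, hRd⟩ := (mem_mset Dom hφ hD hfix).1 hR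
        simp only [Finset.sum_const, nsmul_eq_mul]
        rw [← Finset.sum_mul, ← Nat.cast_sum]
        congr 2
        have hx : ∀ k ∈ Finset.Icc 1 n, ((fix k).filter (fun x => orb φ k x ≤ R)).card =
            (R.toFinset.filter fun x => φ^[k] x = x ∧ orb φ k x ≤ R).card := by
          intro k hk
          rw [Finset.mem_Icc] at hk
          congr 1
          ext x
          simp only [Finset.mem_filter, hfix k hk.1 x, Multiset.mem_toFinset]
          refine ⟨fun h => ⟨?_, h.1.2, h.2⟩, fun h => ⟨⟨hRd x h.1, h.2.1⟩, h.2.2⟩⟩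
          exact Multiset.mem_of_le h.2
            (Multiset.mem_map.2 ⟨0, Multiset.mem_range.2 hk.1, rfl⟩)
        rw [Finset.sum_congr rfl hx]
        simp only [Finset.card_filter]
        rw [Finset.sum_comm]
        conv_lhs => rw [← hRn, ← Multiset.toFinset_sum_count_eq]
        refine Finset.sum_congr rfl fun x hx => ?_
        rw [← card_orbits Dom hφ hD hfix hR (Multiset.mem_toFinset.1 hx), Finset.card_filter]
    _ = ∑ k ∈ Finset.Icc 1 n, ∑ x ∈ fix k,
          ∑ R ∈ (mset φ fix n).filter (fun R => orb φ k x ≤ R), χ R := by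
        rw [Finset.sum_comm]
        refine Finset.sum_congr rfl fun k _ => ?_
        simp only [Finset.sum_filter]
        exact Finset.sum_comm

omit hφ hD hfix

/-- Power sums from a recursion with finitely many nonzero coefficients. -/
theorem power_sum_of_recursion (B : ℕ) (a S : ℕ → ℂ) (h0 : a 0 = 1) (hB : ∀ n, B < n → a n = 0)
    (hrec : ∀ n : ℕ, (n : ℂ) * a n = ∑ k ∈ Finset.Icc 1 n, S k * a (n - k)) :
    ∃ w : Fin B → ℂ, ∀ n : ℕ, 1 ≤ n → S n = -∑ i, w i ^ n := by
  classical
  set v : Fin B → ℂ := fun i => a (B - i)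
  set g : ℂ[X] := X ^ B + ∑ i : Fin B, C (v i) * X ^ (i : ℕ)
  have hlt := degree_sum_fin_lt v
  have hm : g.Monic := monic_X_pow_add hlt
  have hn : g.natDegree = B := natDegree_eq_of_degree_eq_some
    (by rw [degree_add_eq_left_of_degree_lt (by rwa [degree_X_pow]), degree_X_pow])
  have hs : g.Splits := IsAlgClosed.splits _
  have hcard : Multiset.card g.roots = B := by rw [← hs.natDegree_eq_card_roots, hn]
  have hprod := hs.eq_prod_roots_of_monic hm
  have hcc : ∀ i, cc g.roots i = a i := by
    intro m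
    by_cases ha : m ≤ B
    · rw [← coeff_prod_eq_cc g.roots (hcard.symm ▸ ha), ← hprod, hcard]
      rcases Nat.eq_zero_or_pos m with rfl | ha0
      · rw [Nat.sub_zero, h0]; exact hn ▸ hm.coeff_natDegree
      · have hi : B - m < B := by omega
        rw [coeff_add, coeff_X_pow, if_neg (by omega), zero_add, finsetSum_coeff,
          Finset.sum_eq_single ⟨B - m, hi⟩]
        · simp [v, Nat.sub_sub_self ha]
        · intro j _ hj
          rw [coeff_C_mul, coeff_X_pow, if_neg (fun h => hj (Fin.ext h.symm)), mul_zero]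
        · simp
    · rw [hB m (by omega), cc, Multiset.esymm,
        Multiset.powersetCard_eq_empty _ (by omega)]
      simp
  have hsk : ∀ k, 1 ≤ k → S k = -pp g.roots k := by
    intro k
    induction k using Nat.strong_induction_on with
    | _ k ih =>
      intro hk
      have h1 := newton g.roots k
      simp only [hcc] at h1
      have h2 := hrec k
      obtain ⟨k', rfl⟩ : ∃ k', k = k' + 1 := ⟨k - 1, by omega⟩
      rw [Finset.sum_range_succ', h0, one_mul, Nat.sub_zero] at h1
      rw [Finset.sum_Icc_succ_top (by omega), Nat.sub_self, h0, mul_one] at h2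
      have h3 : ∑ i ∈ range k', a (i + 1) * pp g.roots (k' + 1 - (i + 1)) =
          -∑ j ∈ Finset.Icc 1 k', S j * a (k' + 1 - j) := by
        rw [← Finset.sum_neg_distrib]
        refine Finset.sum_bij' (fun i _ => k' - i) (fun j _ => k' - j) ?_ ?_ ?_ ?_ ?_
        · intro i ha; simp only [Finset.mem_range] at ha; rw [Finset.mem_Icc]; omega
        · intro j hj; rw [Finset.mem_Icc] at hj; simp only [Finset.mem_range]; omega
        · intro i ha; simp only [Finset.mem_range] at ha; omega
        · intro j hj; rw [Finset.mem_Icc] at hj; omega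
        · intro i ha
          simp only [Finset.mem_range] at ha
          rw [ih (k' - i) (by omega) (by omega), show k' + 1 - (k' - i) = i + 1 by omega,
            show k' + 1 - (i + 1) = k' - i by omega]
          ring
      rw [h3] at h1
      linear_combination -h2 + h1
  obtain ⟨l, hl⟩ : ∃ l : List ℂ, (l : Multiset ℂ) = g.roots := ⟨_, Multiset.coe_toList _⟩
  have hlen : l.length = B := by rw [← hcard, ← hl, Multiset.coe_card]
  refine ⟨fun i => l.get (i.cast hlen.symm), fun k hk => ?_⟩
  rw [hsk k hk, pp, ← hl, Multiset.map_coe, Multiset.sum_coe,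
    Fintype.sum_equiv (finCongr hlen.symm) (fun i => l.get (i.cast hlen.symm) ^ k)
      (fun j => l.get j ^ k) (fun i => rfl), ← List.sum_ofFn]
  congr 2
  exact (List.ofFn_getElem_eq_map l fun z => z ^ k).symm

/-- Power sums from a recursion with eventually geometric coefficients. -/
theorem power_sum_of_geometric (B : ℕ) (q : ℂ) (a S : ℕ → ℂ) (h0 : a 0 = 1)
    (hB : ∀ n, B ≤ n → a (n + 1) = q * a n)
    (hrec : ∀ n : ℕ, (n : ℂ) * a n = ∑ k ∈ Finset.Icc 1 n, S k * a (n - k)) :
    ∃ w : Fin B → ℂ, ∀ n : ℕ, 1 ≤ n → S n = q ^ n - ∑ i, w i ^ n := by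
  set b : ℕ → ℂ := fun n => if n = 0 then 1 else a n - q * a (n - 1) with hb
  have hIcc : ∀ (f : ℕ → ℂ) (m : ℕ), ∑ k ∈ Finset.Icc 1 m, f k = ∑ i ∈ range m, f (i + 1) := by
    intro f m
    induction m with
    | zero => simp
    | succ m ih => rw [Finset.sum_Icc_succ_top (by omega), Finset.sum_range_succ, ih]
  suffices hr : ∀ n : ℕ, (n : ℂ) * b n = ∑ k ∈ Finset.Icc 1 n, (S k - q ^ k) * b (n - k) by
    obtain ⟨w, hw⟩ := power_sum_of_recursion B b (fun k => S k - q ^ k) (by simp [hb]) (fun n hn => by
      obtain ⟨m, rfl⟩ : ∃ m, n = m + 1 := ⟨n - 1, by omega⟩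
      simp [hb, hB m (by omega)]) hr
    exact ⟨w, fun n hn => by linear_combination hw n hn⟩
  intro n
  rcases n with _ | m
  · simp
  have hsplit : ∀ f : ℕ → ℂ, ∑ k ∈ Finset.Icc 1 (m + 1), f k * b (m + 1 - k) =
      ∑ i ∈ range (m + 1), f (i + 1) * a (m - i) -
        q * ∑ i ∈ range m, f (i + 1) * a (m - 1 - i) := by
    intro f
    rw [hIcc, Finset.sum_range_succ, Finset.sum_range_succ (fun i => f (i + 1) * a (m - i))]
    have hterm : ∀ i ∈ range m, f (i + 1) * b (m + 1 - (i + 1)) =
        f (i + 1) * a (m - i) - q * (f (i + 1) * a (m - 1 - i)) := by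
      intro i hi
      have := Finset.mem_range.1 hi
      simp only [hb, show m + 1 - (i + 1) = m - i by omega]
      rw [if_neg (by omega), show m - i - 1 = m - 1 - i by omega]
      ring
    rw [Finset.sum_congr rfl hterm, Finset.sum_sub_distrib, ← Finset.mul_sum]
    simp [hb, h0]
    ring
  have hgeo : ∑ i ∈ range (m + 1), q ^ (i + 1) * a (m - i) -
      q * ∑ i ∈ range m, q ^ (i + 1) * a (m - 1 - i) = q * a m := by
    rw [Finset.sum_range_succ', Finset.mul_sum, Nat.sub_zero]
    have e : ∀ i ∈ range m, q * (q ^ (i + 1) * a (m - 1 - i)) = q ^ (i + 1 + 1) * a (m - (i + 1)) := by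
      intro i hi
      rw [show m - (i + 1) = m - 1 - i by omega]
      ring
    rw [Finset.sum_congr rfl e]
    ring
  simp only [sub_mul, Finset.sum_sub_distrib]
  rw [hsplit, hsplit, hgeo]
  have h1 := hrec (m + 1)
  have h2 := hrec m
  rw [hIcc] at h1 h2
  have e2 : ∀ i ∈ range m, S (i + 1) * a (m - (i + 1)) = S (i + 1) * a (m - 1 - i) := fun i _ => by
    rw [show m - (i + 1) = m - 1 - i by omega]
  simp only [Nat.add_sub_add_right] at h1
  rw [Finset.sum_congr rfl e2] at h2
  rw [← h1, ← h2]
  simp only [hb, Nat.succ_ne_zero, if_false, Nat.add_sub_cancel]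
  push_cast
  ring

end

end Vale.Agent.P042.Curve.Orbit
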