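import Vale.Agent.P042.Curve.Series.Zeros

/-!
Orders of vanishing along the good branches: at most `e M` zeros for a function of degree `M`; all
notions commute with Frobenius.

The other facts about the branches used later are `pK_monic`, `one_le_edeg`, `edeg_le`,
`mem_LSpace`, `mem_bad`, `card_bad_le`, `exists_good_points`, `onCurve_iff`, `jet_zero` and
`expand_pK`.
-/

open Finset Polynomial

namespace Vale.Agent.P042.Curve

open Vale.Agent.P042.Upper

noncomputable section

variable {p : ℕ} [Fact p.Prime] (A : Comp p)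

lemma frP_injective : Function.Injective (frP (p := p)) := fun _ _ h =>
  Prod.ext (WeilProof.fr_injective p (Prod.mk.inj h).1) (WeilProof.fr_injective p (Prod.mk.inj h).2)

lemma fr_comp_algebraMap :
    (WeilProof.fr p).comp (algebraMap (ZMod p) (Kbar p)) = algebraMap (ZMod p) (Kbar p) := by
  ext a
  rw [RingHom.comp_apply, WeilProof.fr_apply, ← map_pow, ZMod.pow_card]

lemma fr_aeval (q : (ZMod p)[X]) (y : Kbar p) :
    WeilProof.fr p (aeval y q) = aeval (WeilProof.fr p y) q := by
  rw [aeval_def, aeval_def, hom_eval₂, fr_comp_algebraMap]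

lemma pK_map_fr : (pK A).map (mapRingHom (WeilProof.fr p)) = pK A := by
  rw [pK, Polynomial.map_map, mapRingHom_comp, fr_comp_algebraMap]

lemma good_frP (P : Kbar p × Kbar p) : Good A (frP P) ↔ Good A P := by
  rw [Good, Good, frP, ← fr_aeval]
  exact (map_ne_zero_iff _ (WeilProof.fr_injective p))

lemma ev_frP (P : Kbar p × Kbar p) (f : (Kbar p)[X][X]) :
    ev (frP P) (f.map (mapRingHom (WeilProof.fr p))) = WeilProof.fr p (ev P f) := by
  simp only [ev, frP, LinearMap.coe_mk, AddHom.coe_mk]
  rw [Polynomial.map_map, show (evalRingHom (WeilProof.fr p P.1)).comp (mapRingHom (WeilProof.fr p))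
      = (WeilProof.fr p).comp (evalRingHom P.1) by ext a <;> simp,
    ← Polynomial.map_map, eval_map, eval₂_hom]

lemma onCurve_frP (P : Kbar p × Kbar p) : OnCurve A (frP P) ↔ OnCurve A P := by
  rw [onCurve_iff, onCurve_iff]
  conv_lhs => rw [← pK_map_fr A, ev_frP]
  exact map_eq_zero_iff _ (WeilProof.fr_injective p)

lemma frP_mem_bad {P : Kbar p × Kbar p} : frP P ∈ bad A ↔ P ∈ bad A := by
  rw [mem_bad, mem_bad, onCurve_frP, good_frP]

lemma xmap_fr (x : Kbar p) : (xmap (WeilProof.fr p x)).comp (mapRingHom (WeilProof.fr p)) =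
    (PowerSeries.map (WeilProof.fr p)).comp (xmap x) := by
  ext a <;> simp [xmap]

lemma branch_frP {P : Kbar p × Kbar p} (hg : Good A P) (hc : OnCurve A P) :
    branch A (frP P) = PowerSeries.map (WeilProof.fr p) (branch A P) := by
  refine ((branch_spec A ((good_frP A P).2 hg) ((onCurve_frP A P).2 hc)).2 _ ?_ ?_).symm
  · show ((pK A).map (xmap (WeilProof.fr p P.1))).eval _ = 0
    rw [← pK_map_fr A, Polynomial.map_map, xmap_fr, ← Polynomial.map_map, eval_map, eval₂_hom,
      (branch_spec A hg hc).1, map_zero]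
  · rw [← PowerSeries.coeff_zero_eq_constantCoeff_apply, PowerSeries.coeff_map,
      PowerSeries.coeff_zero_eq_constantCoeff_apply, constantCoeff_branch]; rfl

lemma jet_frP {P : Kbar p × Kbar p} (hg : Good A P) (hc : OnCurve A P) (i : ℕ)
    (f : (Kbar p)[X][X]) :
    jet A (frP P) i (f.map (mapRingHom (WeilProof.fr p))) = WeilProof.fr p (jet A P i f) := by
  simp only [jet, LinearMap.coe_mk, AddHom.coe_mk, expand_apply]
  rw [Polynomial.map_map, show xmap (frP P).1 = xmap (WeilProof.fr p P.1) from rfl, xmap_fr,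
    branch_frP A hg hc, ← Polynomial.map_map, eval_map, eval₂_hom, PowerSeries.coeff_map]

open scoped Classical in
/-- A function of degree `M` has at most `e M` zeros. -/
theorem card_zeros_le {M : ℕ} {f : (Kbar p)[X][X]}
    (hf : f ∈ LSpace p (edeg A) M) (hf0 : f ≠ 0) (E : Multiset (Kbar p × Kbar p))
    (hE : ∀ P ∈ E, Good A P ∧ OnCurve A P)
    (h0 : ∀ P, ∀ i < E.count P, jet A P i f = 0) : Multiset.card E ≤ edeg A * M :=
  (Multiset.card_le_card ((le_zeros_iff hf hf0 hE).2 h0)).trans (card_zeros hf hf0)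

end

end Vale.Agent.P042.Curve
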