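import Vale.Agent.P042.Curve.Series

/-!
Functions of large degree vanishing on a cycle: prescribed boundary data are always attainable, so
the rational ones with given boundary data number a fixed fraction of all.
-/

open Finset Polynomial

namespace Vale.Agent.P042.Curve

open Vale.Agent.P042.Upper

noncomputable section

open scoped Classical

variable {p : ℕ} [Fact p.Prime] (A : Comp p)

/-! ### Membership and the coefficient maps -/

lemma mem_Wsp {M : ℕ} {E : Multiset (Kbar p × Kbar p)} {B : Finset (Kbar p × Kbar p)}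
    {f : (Kbar p)[X][X]} : f ∈ Wsp A M E B ↔ f ∈ LSpace p (edeg A) M ∧
      (∀ P, ∀ i < E.count P, jet A P i f = 0) ∧ ∀ P ∈ B, ev P f = 0 := by
  simp only [Wsp, Submodule.mem_inf, Submodule.mem_iInf, LinearMap.mem_ker, and_assoc]
  refine and_congr_right fun _ => and_congr ?_ ?_
  · exact ⟨fun h P i hi => h P ⟨i, hi⟩, fun h P i => h P i i.2⟩
  · exact ⟨fun h P hP => h ⟨P, hP⟩, fun h P => h P P.2⟩

instance finite_LSpace (e M : ℕ) : Module.Finite (Kbar p) (LSpace p e M) :=
  Module.Finite.span_of_finite _ ((idx e M).finite_toSet.image _)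

instance finite_Wsp (M : ℕ) (E : Multiset (Kbar p × Kbar p)) (B : Finset (Kbar p × Kbar p)) :
    Module.Finite (Kbar p) (Wsp A M E B) :=
  Submodule.finiteDimensional_of_le (show Wsp A M E B ≤ LSpace p (edeg A) M from
    inf_le_left.trans inf_le_left)

/-- The polynomial with given coefficients, as a linear map. -/
def polyK (e M : ℕ) : (idx e M → Kbar p) →ₗ[Kbar p] (Kbar p)[X][X] where
  toFun := poly
  map_add' u v := by simp [poly, Finset.sum_add_distrib]
  map_smul' c v := by simp [poly, Finset.smul_sum, Polynomial.smul_monomial]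

lemma coeff_poly {R : Type*} [CommRing R] {e M : ℕ} (v : idx e M → R) (i j : ℕ) :
    ((poly v).coeff j).coeff i = if h : (i, j) ∈ idx e M then v ⟨(i, j), h⟩ else 0 := by
  simp only [poly, finsetSum_coeff, coeff_monomial, apply_ite (fun q : R[X] => q.coeff i),
    Polynomial.coeff_zero]
  split_ifs with h
  · rw [Finset.sum_eq_single ⟨(i, j), h⟩]
    · simp
    · rintro ⟨⟨a, b⟩, hab⟩ _ hne
      by_cases hb : b = j
      · subst hb
        have : a ≠ i := fun ha => hne (by subst ha; rfl)
        simp [this]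
      · simp [hb]
    · simp
  · refine Finset.sum_eq_zero fun ij _ => ?_
    obtain ⟨⟨a, b⟩, hab⟩ := ij
    by_cases hb : b = j
    · subst hb
      have : a ≠ i := fun ha => h (ha ▸ hab)
      simp [this]
    · simp [hb]

lemma poly_mem_LSpace {e M : ℕ} (v : idx e M → Kbar p) : poly v ∈ LSpace p e M := by
  rw [mem_LSpace]
  intro i j h
  rw [coeff_poly, dif_neg]
  rw [mem_idx]
  omega

lemma polyK_injective (e M : ℕ) : Function.Injective (polyK (p := p) e M) := by
  intro u v h
  funext ⟨⟨i, j⟩, hij⟩
  have : ((poly u).coeff j).coeff i = ((poly v).coeff j).coeff i :=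
    congrArg (fun f : (Kbar p)[X][X] => (f.coeff j).coeff i) h
  simpa [coeff_poly, hij] using this

lemma range_polyK (e M : ℕ) : LinearMap.range (polyK (p := p) e M) = LSpace p e M := by
  refine le_antisymm ?_ fun f hf => ?_
  · rintro _ ⟨v, rfl⟩
    exact poly_mem_LSpace v
  · refine ⟨fun ij => (f.coeff ij.1.2).coeff ij.1.1, ?_⟩
    ext j i
    show ((poly _).coeff j).coeff i = _
    rw [coeff_poly]
    split_ifs with h
    · rfl
    · rw [mem_idx] at h
      exact ((mem_LSpace).1 hf i j (by omega)).symm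

lemma finrank_LSpace (e M : ℕ) :
    Module.finrank (Kbar p) (LSpace p e M) = (idx e M).card := by
  rw [← range_polyK, LinearMap.finrank_range_of_inj (polyK_injective e M),
    Module.finrank_fintype_fun_eq_card, Fintype.card_coe]

lemma sub_sq_le_card_idx (e M : ℕ) : e * M ≤ (idx e M).card + e * e := by
  have h : range (M + 1 - e) ×ˢ range e ⊆ idx e M := by
    rintro ⟨i, j⟩ h
    simp only [Finset.mem_product, Finset.mem_range] at h
    rw [mem_idx]
    omega
  have := Finset.card_le_card h
  simp only [Finset.card_product, Finset.card_range] at this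
  have h2 : e * M ≤ (M + 1 - e) * e + e * e := by
    rw [← add_mul, mul_comm e M]
    exact Nat.mul_le_mul_right e (by omega)
  omega

lemma card_idx_succ {e M : ℕ} (h : e ≤ M + 1) : (idx e (M + 1)).card = (idx e M).card + e := by
  have hu : idx e (M + 1) = idx e M ∪ (range e).image (fun j => (M + 1 - j, j)) := by
    ext ⟨i, j⟩
    simp only [mem_idx, Finset.mem_union, Finset.mem_image, Finset.mem_range, Prod.mk.injEq]
    constructor
    · intro hij
      by_cases h' : i + j ≤ M
      · exact Or.inl ⟨hij.1, h'⟩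
      · exact Or.inr ⟨j, hij.1, by omega, rfl⟩
    · rintro (hij | ⟨a, ha, h1, rfl⟩) <;> omega
  rw [hu, Finset.card_union_of_disjoint, Finset.card_image_of_injective, Finset.card_range]
  · intro a b hab
    exact congrArg Prod.snd hab
  · rw [Finset.disjoint_left]
    rintro ⟨i, j⟩ h1 h2
    simp only [mem_idx] at h1
    simp only [Finset.mem_image, Finset.mem_range, Prod.mk.injEq] at h2
    omega

/-! ### The conditions -/

/-- The conditions of vanishing on a cycle and at finitely many points. -/
abbrev Cond (E : Multiset (Kbar p × Kbar p)) (B : Finset (Kbar p × Kbar p)) :=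
  (Σ P : E.toFinset, Fin (E.count (P : Kbar p × Kbar p))) ⊕ B

/-- The jets and values. -/
def condMap (E : Multiset (Kbar p × Kbar p)) (B : Finset (Kbar p × Kbar p)) :
    (Kbar p)[X][X] →ₗ[Kbar p] (Cond E B → Kbar p) :=
  LinearMap.pi fun c => match c with
    | Sum.inl q => jet A q.1 q.2
    | Sum.inr P => ev (P : Kbar p × Kbar p)

lemma card_Cond (E : Multiset (Kbar p × Kbar p)) (B : Finset (Kbar p × Kbar p)) :
    Fintype.card (Cond E B) = Multiset.card E + B.card := by
  simp only [Cond, Fintype.card_sum, Fintype.card_sigma, Fintype.card_fin, Fintype.card_coe]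
  rw [Finset.sum_coe_sort E.toFinset (fun P => E.count P), Multiset.toFinset_sum_count_eq]

lemma Wsp_eq_ker (M : ℕ) (E : Multiset (Kbar p × Kbar p)) (B : Finset (Kbar p × Kbar p)) :
    Wsp A M E B = LSpace p (edeg A) M ⊓ LinearMap.ker (condMap A E B) := by
  ext f
  rw [mem_Wsp, Submodule.mem_inf, LinearMap.mem_ker]
  refine and_congr_right fun _ => ?_
  constructor
  · rintro ⟨h1, h2⟩
    funext c
    rcases c with ⟨P, i⟩ | P
    · exact h1 P i i.2
    · exact h2 P P.2
  · intro h
    refine ⟨fun P i hi => ?_, fun P hP => congrFun h (Sum.inr ⟨P, hP⟩)⟩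
    have hP : P ∈ E.toFinset := Multiset.mem_toFinset.2 (Multiset.count_pos.1 (by omega))
    exact congrFun h (Sum.inl ⟨⟨P, hP⟩, ⟨i, hi⟩⟩)

/-- The dimension. -/
def dimW (M : ℕ) (E : Multiset (Kbar p × Kbar p)) (B : Finset (Kbar p × Kbar p)) : ℕ :=
  Module.finrank (Kbar p) (Wsp A M E B)

lemma le_dimW (M : ℕ) (E : Multiset (Kbar p × Kbar p)) (B : Finset (Kbar p × Kbar p)) :
    (idx (edeg A) M).card ≤ dimW A M E B + (Multiset.card E + B.card) := by
  let g := (condMap A E B).domRestrict (LSpace p (edeg A) M)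
  have h := LinearMap.finrank_range_add_finrank_ker (K := Kbar p)
    (V := LSpace p (edeg A) M) (V₂ := Cond E B → Kbar p) g
  have h1 : Module.finrank (Kbar p) (LinearMap.range g) ≤ Multiset.card E + B.card := by
    refine (Submodule.finrank_le _).trans ?_
    rw [Module.finrank_fintype_fun_eq_card, card_Cond]
  have e : LinearMap.ker g =
      (LinearMap.ker (condMap A E B)).comap (LSpace p (edeg A) M).subtype := by
    ext f; simp [g]
  have h2 : Module.finrank (Kbar p) (LinearMap.ker g) = dimW A M E B := by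
    rw [dimW, Wsp_eq_ker, e, ← Submodule.finrank_map_subtype_eq, Submodule.map_comap_subtype]
  rw [finrank_LSpace, h2] at h
  omega

lemma dimW_le (M : ℕ) {E : Multiset (Kbar p × Kbar p)}
    (hE : ∀ P ∈ E, Good A P ∧ OnCurve A P) (B : Finset (Kbar p × Kbar p)) :
    dimW A M E B ≤ edeg A * M + 1 - Multiset.card E := by
  set r := edeg A * M + 1 - Multiset.card E with hr
  obtain ⟨T, hTn, hTd, hTg⟩ := exists_good_points A E.toFinset r
  by_contra hlt
  push Not at hlt
  let g : Wsp A M E B →ₗ[Kbar p] (T → Kbar p) :=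
    LinearMap.pi fun P => (ev (P : Kbar p × Kbar p)).comp (Wsp A M E B).subtype
  have hg : LinearMap.ker g ≠ ⊥ := by
    refine LinearMap.ker_ne_bot_of_finrank_lt (K := Kbar p) (V := Wsp A M E B) (V₂ := T → Kbar p) (f := g) ?_
    rw [Module.finrank_fintype_fun_eq_card, Fintype.card_coe, hTn]
    exact hlt
  obtain ⟨⟨f, hf⟩, hker, hne⟩ := Submodule.exists_mem_ne_zero_of_ne_bot hg
  obtain ⟨hL, hjet, -⟩ := (mem_Wsp A).1 hf
  have hf0 : f ≠ 0 := fun h => hne (Subtype.ext h)
  have := card_zeros_le A hL hf0 (E + T.val) (fun P hP => ?_) (fun P i hi => ?_)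
  · rw [Multiset.card_add, Finset.card_val, hTn] at this
    omega
  · rcases Multiset.mem_add.1 hP with h | h
    · exact hE P h
    · exact hTg P h
  · rw [Multiset.count_add] at hi
    by_cases hPT : P ∈ T
    · have h0 : E.count P = 0 := Multiset.count_eq_zero.2 fun hPE =>
        Finset.disjoint_left.1 hTd hPT (Multiset.mem_toFinset.2 hPE)
      have h1 : T.val.count P = 1 := Multiset.count_eq_one_of_mem T.nodup hPT
      obtain rfl : i = 0 := by omega
      rw [jet_zero]
      exact congrFun (LinearMap.mem_ker.1 hker) ⟨P, hPT⟩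
    · have h1 : T.val.count P = 0 := Multiset.count_eq_zero.2 hPT
      exact hjet P i (by omega)

/-! ### The top coefficients -/

/-- The top coefficients. -/
def topK (e M : ℕ) : (Kbar p)[X][X] →ₗ[Kbar p] (Fin e → Kbar p) where
  toFun f j := (f.coeff j).coeff (M - j)
  map_add' f g := by funext j; simp
  map_smul' c f := by funext j; simp

lemma mem_LSpace_iff_top {e M : ℕ} {f : (Kbar p)[X][X]}
    (hf : f ∈ LSpace p e (M + 1)) :
    f ∈ LSpace p e M ↔ topK e (M + 1) f = 0 ∧ ∀ j, j < e → M + 1 < j → f.coeff j = 0 := by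
  rw [mem_LSpace] at hf ⊢
  constructor
  · intro h
    refine ⟨funext fun j => h _ _ (Or.inr (by omega)), fun j _ hj' => ?_⟩
    ext i
    simpa using h i j (Or.inr (by omega))
  · rintro ⟨h, h'⟩ i j (hij | hij)
    · exact hf i j (Or.inl hij)
    · by_cases hj : e ≤ j
      · exact hf i j (Or.inl hj)
      by_cases hlt : M + 1 < i + j
      · exact hf i j (Or.inr hlt)
      have := congrFun h ⟨j, by omega⟩
      simp only [topK, LinearMap.coe_mk, AddHom.coe_mk, Pi.zero_apply] at this
      rwa [show M + 1 - j = i by omega] at this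

lemma LSpace_mono {e M N : ℕ} (h : M ≤ N) : LSpace p e M ≤ LSpace p e N := by
  intro f hf
  rw [mem_LSpace] at hf ⊢
  intro i j hij
  exact hf i j (by omega)

lemma ker_top (M : ℕ) (hM : edeg A ≤ M + 1) (E : Multiset (Kbar p × Kbar p))
    (B : Finset (Kbar p × Kbar p)) :
    LinearMap.ker ((topK (edeg A) (M + 1)).domRestrict (Wsp A (M + 1) E B)) =
      (Wsp A M E B).comap (Wsp A (M + 1) E B).subtype := by
  ext ⟨f, hf⟩
  obtain ⟨hL, h2, h3⟩ := (mem_Wsp A).1 hf
  simp only [LinearMap.mem_ker, LinearMap.domRestrict_apply, Submodule.mem_comap,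
    Submodule.subtype_apply, mem_Wsp, mem_LSpace_iff_top hL]
  exact ⟨fun h => ⟨⟨h, fun j _ _ => by omega⟩, h2, h3⟩, fun h => h.1.1⟩

lemma Wsp_mono {M N : ℕ} (h : M ≤ N) (E : Multiset (Kbar p × Kbar p))
    (B : Finset (Kbar p × Kbar p)) : Wsp A M E B ≤ Wsp A N E B := by
  intro f hf
  rw [mem_Wsp] at hf ⊢
  exact ⟨LSpace_mono h hf.1, hf.2⟩

lemma rank_top_add (M : ℕ) (hM : edeg A ≤ M + 1) (E : Multiset (Kbar p × Kbar p))
    (B : Finset (Kbar p × Kbar p)) :
    Module.finrank (Kbar p)
        (LinearMap.range ((topK (edeg A) (M + 1)).domRestrict (Wsp A (M + 1) E B))) +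
      dimW A M E B = dimW A (M + 1) E B := by
  have h := LinearMap.finrank_range_add_finrank_ker (K := Kbar p)
    (V := Wsp A (M + 1) E B) (V₂ := Fin (edeg A) → Kbar p) ((topK (edeg A) (M + 1)).domRestrict (Wsp A (M + 1) E B))
  have h2 : Module.finrank (Kbar p) ((Wsp A M E B).comap (Wsp A (M + 1) E B).subtype) =
      dimW A M E B := by
    rw [dimW, ← Submodule.finrank_map_subtype_eq, Submodule.map_comap_subtype,
      inf_eq_right.2 (Wsp_mono A (Nat.le_succ M) E B)]
  rw [ker_top A M hM, h2] at h
  exact h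

lemma dimW_succ_le (M : ℕ) (hM : edeg A ≤ M + 1) (E : Multiset (Kbar p × Kbar p))
    (B : Finset (Kbar p × Kbar p)) : dimW A (M + 1) E B ≤ dimW A M E B + edeg A := by
  have h := rank_top_add A M hM E B
  have h1 := Submodule.finrank_le
    (LinearMap.range ((topK (edeg A) (M + 1)).domRestrict (Wsp A (M + 1) E B)))
  rw [Module.finrank_fintype_fun_eq_card, Fintype.card_fin] at h1
  omega

lemma jet_mul_eq_zero {P : Kbar p × Kbar p} {m : ℕ} (g : (Kbar p)[X][X]) {f : (Kbar p)[X][X]}
    (h : ∀ i < m, jet A P i f = 0) : ∀ i < m, jet A P i (g * f) = 0 := by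
  intro i hi
  show PowerSeries.coeff i (expand A P (g * f)) = 0
  rw [map_mul, PowerSeries.coeff_mul]
  refine Finset.sum_eq_zero fun q hq => ?_
  rw [HasAntidiagonal.mem_antidiagonal] at hq
  rw [show PowerSeries.coeff q.2 (expand A P f) = 0 from h q.2 (by omega), mul_zero]

lemma ev_mul (P : Kbar p × Kbar p) (f g : (Kbar p)[X][X]) : ev P (f * g) = ev P f * ev P g := by
  simp [ev]

lemma full_succ (M : ℕ) (hM : edeg A ≤ M + 1) (E : Multiset (Kbar p × Kbar p))
    (B : Finset (Kbar p × Kbar p)) (h : dimW A (M + 1) E B = dimW A M E B + edeg A) :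
    dimW A (M + 2) E B = dimW A (M + 1) E B + edeg A := by
  have htop : ((topK (edeg A) (M + 1)).domRestrict (Wsp A (M + 1) E B)).range = ⊤ := by
    refine Submodule.eq_top_of_finrank_eq ?_
    rw [Module.finrank_fintype_fun_eq_card, Fintype.card_fin]
    have := rank_top_add A M hM E B
    omega
  have htop2 : ((topK (edeg A) (M + 2)).domRestrict (Wsp A (M + 2) E B)).range = ⊤ := by
    rw [eq_top_iff]
    intro t _
    obtain ⟨⟨f, hf⟩, hft⟩ : t ∈ ((topK (edeg A) (M + 1)).domRestrict
      (Wsp A (M + 1) E B)).range := htop ▸ Submodule.mem_top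
    obtain ⟨hL, hj, hev⟩ := (mem_Wsp A).1 hf
    rw [mem_LSpace] at hL
    have hcoeff : ∀ i j, ((C X * f).coeff j).coeff i =
        if i = 0 then 0 else (f.coeff j).coeff (i - 1) := by
      intro i j
      rw [coeff_C_mul]
      rcases i with _ | i
      · simp
      · simp [coeff_X_mul]
    refine ⟨⟨C X * f, (mem_Wsp A).2 ⟨mem_LSpace.2 fun i j hij => ?_,
      fun P => jet_mul_eq_zero A (C X) (hj P), fun P hP => by rw [ev_mul, hev P hP, mul_zero]⟩⟩, ?_⟩
    · rw [hcoeff]
      split_ifs with hi
      · rfl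
      · exact hL _ _ (by omega)
    · rw [← hft]
      funext j
      simp only [LinearMap.domRestrict_apply, topK, LinearMap.coe_mk, AddHom.coe_mk, hcoeff]
      rw [if_neg (by have := j.2; omega)]
      congr 1
      omega
  have h2 := rank_top_add A (M + 1) (by omega) E B
  rw [show M + 1 + 1 = M + 2 from rfl, htop2, finrank_top, Module.finrank_fintype_fun_eq_card,
    Fintype.card_fin] at h2
  omega

/-! ### Independence of the conditions -/

/-- A function vanishing at `Q` and not at a different `P`. -/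
def sep (P Q : Kbar p × Kbar p) : (Kbar p)[X][X] :=
  if P.1 = Q.1 then X - C (C Q.2) else C (X - C Q.1)

lemma ev_sep_self (P Q : Kbar p × Kbar p) : ev Q (sep P Q) = 0 := by
  unfold sep
  split_ifs <;> simp [ev]

lemma ev_sep_ne {P Q : Kbar p × Kbar p} (h : P ≠ Q) : ev P (sep P Q) ≠ 0 := by
  unfold sep
  split_ifs with h1
  · have : P.2 ≠ Q.2 := fun h2 => h (Prod.ext h1 h2)
    simpa [ev, sub_eq_zero] using this
  · simpa [ev, sub_eq_zero] using h1

lemma ev_prod {ι : Type*} (s : Finset ι) (P : Kbar p × Kbar p) (f : ι → (Kbar p)[X][X]) :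
    ev P (∏ i ∈ s, f i) = ∏ i ∈ s, ev P (f i) := by
  induction s using Finset.induction_on with
  | empty => simp [ev]
  | @insert a s ha ih => rw [Finset.prod_insert ha, Finset.prod_insert ha, ev_mul, ih]

lemma ev_pow (P : Kbar p × Kbar p) (f : (Kbar p)[X][X]) (m : ℕ) : ev P (f ^ m) = ev P f ^ m := by
  simp [ev]

lemma condMap_surjective (E : Multiset (Kbar p × Kbar p))
    {B : Finset (Kbar p × Kbar p)} (hB : ∀ P ∈ B, P ∉ E) :
    Function.Surjective (condMap A E B) := by
  rw [← LinearMap.range_eq_top, eq_top_iff]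
  set S := E.toFinset ∪ B
  let U : Kbar p × Kbar p → (Kbar p)[X][X] := fun P =>
    ∏ Q ∈ S.erase P, sep P Q ^ (E.count Q + 1)
  have hUne : ∀ P, ev P (U P) ≠ 0 := by
    intro P
    rw [ev_prod]
    refine Finset.prod_ne_zero_iff.2 fun Q hQ => ?_
    rw [ev_pow]
    exact pow_ne_zero _ (ev_sep_ne (Finset.ne_of_mem_erase hQ).symm)
  have hU0 : ∀ P, ∀ Q ∈ S, Q ≠ P → ev Q (U P) = 0 ∧
      ∀ i < E.count Q, jet A Q i (U P) = 0 := by
    intro P Q hQ hne
    have hmem : Q ∈ S.erase P := Finset.mem_erase.2 ⟨hne, hQ⟩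
    refine ⟨?_, ?_⟩
    · rw [ev_prod]
      exact Finset.prod_eq_zero hmem (by rw [ev_pow, ev_sep_self, zero_pow (by omega)])
    · intro i hi
      show PowerSeries.coeff i (expand A Q (U P)) = 0
      have h1 : PowerSeries.X ^ (E.count Q + 1) ∣ expand A Q (U P) := by
        rw [map_prod]
        refine dvd_trans ?_ (Finset.dvd_prod_of_mem _ hmem)
        rw [map_pow]
        refine pow_dvd_pow_of_dvd (PowerSeries.X_dvd_iff.2 ?_) _
        rw [← PowerSeries.coeff_zero_eq_constantCoeff_apply]
        exact (jet_zero A Q _).trans (ev_sep_self P Q)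
      exact PowerSeries.X_pow_dvd_iff.1 h1 i (by omega)
  have hsingle : ∀ c, Pi.single c (1 : Kbar p) ∈ LinearMap.range (condMap A E B) := by
    rintro (⟨⟨P, hP⟩, ⟨l, hl⟩⟩ | ⟨P, hP⟩)
    · have key : ∀ n l (hl : l < E.count P), E.count P - l = n →
          (Pi.single (Sum.inl ⟨⟨P, hP⟩, ⟨l, hl⟩⟩) (1 : Kbar p) : Cond E B → Kbar p) ∈
            LinearMap.range (condMap A E B) := by
        intro n
        induction n using Nat.strong_induction_on with
        | _ n ih =>
          intro l hl hn
          set g := C (X - C P.1) ^ l * U P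
          set R := LinearMap.range (condMap A E B)
          have hexp : expand A P g = PowerSeries.X ^ l * expand A P (U P) := by
            simp only [g, map_mul, map_pow]
            congr 2
            simp [expand, xmap]
          have hlow : ∀ i < l, jet A P i g = 0 := by
            intro i hi
            show PowerSeries.coeff i (expand A P g) = 0
            rw [hexp, PowerSeries.coeff_X_pow_mul', if_neg (by omega)]
          have hl' : jet A P l g = ev P (U P) := by
            show PowerSeries.coeff l (expand A P g) = _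
            rw [hexp, PowerSeries.coeff_X_pow_mul', if_pos le_rfl, Nat.sub_self]
            exact jet_zero A P (U P)
          have hg : condMap A E B g ∈ R := ⟨g, rfl⟩
          have hrest : ∀ c, c ≠ Sum.inl ⟨⟨P, hP⟩, ⟨l, hl⟩⟩ →
              Pi.single c (condMap A E B g c) ∈ R := by
            intro c hc
            rcases c with ⟨⟨Q, hQ⟩, ⟨i, hi⟩⟩ | ⟨Q, hQ⟩
            · by_cases hQP : Q = P
              · subst hQP
                rcases lt_trichotomy i l with h | h | h
                · rw [show condMap A E B g (Sum.inl ⟨⟨Q, hQ⟩, ⟨i, hi⟩⟩) = 0 from hlow i h,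
                    Pi.single_zero]
                  exact zero_mem _
                · subst h; exact absurd rfl hc
                · have := ih (E.count Q - i) (by omega) i hi rfl
                  have e := Submodule.smul_mem R
                    (condMap A E B g (Sum.inl ⟨⟨Q, hQ⟩, ⟨i, hi⟩⟩)) this
                  rwa [← Pi.single_smul, smul_eq_mul, mul_one] at e
              · rw [show condMap A E B g (Sum.inl ⟨⟨Q, hQ⟩, ⟨i, hi⟩⟩) = 0 from
                  jet_mul_eq_zero A _ ((hU0 P Q (Finset.mem_union_left _ hQ) hQP).2) i hi,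
                  Pi.single_zero]
                exact zero_mem _
            · have hQP : Q ≠ P := fun h => hB Q hQ (h ▸ Multiset.mem_toFinset.1 hP)
              have : condMap A E B g (Sum.inr ⟨Q, hQ⟩) = 0 := by
                show ev Q g = 0
                rw [ev_mul, (hU0 P Q (Finset.mem_union_right _ hQ) hQP).1, mul_zero]
              rw [this, Pi.single_zero]
              exact zero_mem _
          have hsum := Finset.univ_sum_single (condMap A E B g)
          rw [← Finset.add_sum_erase _ _ (Finset.mem_univ (Sum.inl ⟨⟨P, hP⟩, ⟨l, hl⟩⟩))] at hsum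
          have hs : Pi.single (Sum.inl ⟨⟨P, hP⟩, ⟨l, hl⟩⟩)
              (condMap A E B g (Sum.inl ⟨⟨P, hP⟩, ⟨l, hl⟩⟩)) ∈ R := by
            rw [eq_sub_of_add_eq hsum]
            exact sub_mem hg (Submodule.sum_mem _ fun c hc =>
              hrest c (Finset.ne_of_mem_erase hc))
          rw [show condMap A E B g (Sum.inl ⟨⟨P, hP⟩, ⟨l, hl⟩⟩) = ev P (U P) from hl'] at hs
          have e := Submodule.smul_mem R (ev P (U P))⁻¹ hs
          rwa [← Pi.single_smul, smul_eq_mul, inv_mul_cancel₀ (hUne P)] at e
      exact key _ l hl rfl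
    · refine ⟨(ev P (U P))⁻¹ • U P, ?_⟩
      funext c
      rcases c with ⟨⟨Q, hQ⟩, ⟨i, hi⟩⟩ | ⟨Q, hQ⟩
      · have hQP : Q ≠ P := fun h => hB P hP (h ▸ Multiset.mem_toFinset.1 hQ)
        show jet A Q i ((ev P (U P))⁻¹ • U P) = _
        rw [map_smul, (hU0 P Q (Finset.mem_union_left _ hQ) hQP).2 i hi, smul_zero,
          Pi.single_eq_of_ne (by simp)]
      · show ev Q ((ev P (U P))⁻¹ • U P) = _
        rw [map_smul, smul_eq_mul]
        by_cases hQP : Q = P
        · subst hQP
          rw [inv_mul_cancel₀ (hUne Q), Pi.single_eq_same]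
        · rw [(hU0 P Q (Finset.mem_union_right _ hQ) hQP).1, mul_zero,
            Pi.single_eq_of_ne (by simp [hQP])]
  intro t _
  rw [← Finset.univ_sum_single t]
  refine Submodule.sum_mem _ fun c _ => ?_
  have := Submodule.smul_mem _ (t c) (hsingle c)
  rwa [← Pi.single_smul, smul_eq_mul, mul_one] at this

lemma exists_large_exact (E : Multiset (Kbar p × Kbar p)) (hE : ∀ P ∈ E, Good A P ∧ OnCurve A P)
    {B : Finset (Kbar p × Kbar p)} (hB : B ⊆ bad A) (M0 : ℕ) :
    ∃ M, M0 ≤ M ∧ dimW A M E B + (Multiset.card E + B.card) = (idx (edeg A) M).card := by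
  have hdis : ∀ P ∈ B, P ∉ E := fun P hP h => ((mem_bad A).1 (hB hP)).2 (hE P h).1
  choose f hf using condMap_surjective A E hdis
  let r : Cond E B → (Kbar p)[X][X] := fun c => f (Pi.single c 1) %ₘ pK A
  let N : ℕ := M0 + ∑ c, ∑ j ∈ range (edeg A), (((r c).coeff j).natDegree + j)
  have hmon := pK_monic A
  have hrL : ∀ c, r c ∈ LSpace p (edeg A) N := by
    intro c
    rw [mem_LSpace]
    intro i j hij
    by_cases hj : edeg A ≤ j
    · have hd : (r c).natDegree < edeg A := natDegree_modByMonic_lt _ hmon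
        (fun h => by have := one_le_edeg A; simp [edeg, h] at this)
      rw [coeff_eq_zero_of_natDegree_lt (lt_of_lt_of_le hd hj), Polynomial.coeff_zero]
    · have h1 : ((r c).coeff j).natDegree + j ≤
          ∑ j ∈ range (edeg A), (((r c).coeff j).natDegree + j) :=
        Finset.single_le_sum (f := fun j => ((r c).coeff j).natDegree + j) (fun _ _ => Nat.zero_le _)
          (Finset.mem_range.2 (by omega))
      have h2 : ∑ j ∈ range (edeg A), (((r c).coeff j).natDegree + j) ≤
          ∑ c, ∑ j ∈ range (edeg A), (((r c).coeff j).natDegree + j) :=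
        Finset.single_le_sum (f := fun c => ∑ j ∈ range (edeg A), (((r c).coeff j).natDegree + j))
          (fun _ _ => Nat.zero_le _) (Finset.mem_univ c)
      exact coeff_eq_zero_of_natDegree_lt (by omega)
  have hpk : ∀ q, condMap A E B (pK A * q) = 0 := by
    intro q
    funext c
    rcases c with ⟨⟨P, hP⟩, i⟩ | ⟨P, hP⟩
    · show PowerSeries.coeff (i : ℕ) (expand A P (pK A * q)) = 0
      rw [map_mul, expand_pK A (hE P (Multiset.mem_toFinset.1 hP)).1
        (hE P (Multiset.mem_toFinset.1 hP)).2, zero_mul, map_zero]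
    · show ev P (pK A * q) = 0
      rw [ev_mul, (onCurve_iff A).1 ((mem_bad A).1 (hB hP)).1, zero_mul]
  have hr : ∀ c, condMap A E B (r c) = Pi.single c 1 := by
    intro c
    have e := congrArg (condMap A E B) (modByMonic_add_div (f (Pi.single c 1)) (pK A))
    rw [map_add, hpk, add_zero, hf] at e
    exact e
  refine ⟨N, Nat.le_add_right _ _, ?_⟩
  let g := (condMap A E B).domRestrict (LSpace p (edeg A) N)
  have hg : LinearMap.range g = ⊤ := by
    rw [eq_top_iff]
    intro t _
    rw [← Finset.univ_sum_single t]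
    refine Submodule.sum_mem _ fun c _ => ?_
    refine ⟨t c • ⟨r c, hrL c⟩, ?_⟩
    rw [map_smul]
    show t c • condMap A E B (r c) = _
    rw [hr, ← Pi.single_smul, smul_eq_mul, mul_one]
  have h := LinearMap.finrank_range_add_finrank_ker (K := Kbar p)
    (V := LSpace p (edeg A) N) (V₂ := Cond E B → Kbar p) g
  have e : LinearMap.ker g =
      (LinearMap.ker (condMap A E B)).comap (LSpace p (edeg A) N).subtype := by
    ext f; simp [g]
  have h2 : Module.finrank (Kbar p) (LinearMap.ker g) = dimW A N E B := by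
    rw [dimW, Wsp_eq_ker, e, ← Submodule.finrank_map_subtype_eq, Submodule.map_comap_subtype]
  rw [finrank_LSpace, hg, finrank_top, Module.finrank_fintype_fun_eq_card, card_Cond, h2] at h
  omega

/-- The conditions are independent from a degree a bounded amount above the obvious one. -/
theorem dimW_eq {E : Multiset (Kbar p × Kbar p)}
    (hE : ∀ P ∈ E, Good A P ∧ OnCurve A P) {B : Finset (Kbar p × Kbar p)} (hB : B ⊆ bad A)
    {M : ℕ} (hM : Multiset.card E +
      edeg A * (edeg A + edeg A * edeg A + B.card + 5) ≤ edeg A * M) :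
    dimW A M E B + (Multiset.card E + B.card) = (idx (edeg A) M).card := by
  set e := edeg A with he
  set d := Multiset.card E
  have he1 : 1 ≤ e := one_le_edeg A
  set M0 := max e ((d + e - 1) / e)
  have hM0 : e ≤ M0 := le_max_left _ _
  have hdM0 : d ≤ e * M0 := by
    have h1 : (d + e - 1) / e ≤ M0 := le_max_right _ _
    have h2 : d ≤ e * ((d + e - 1) / e) := by
      have := Nat.div_add_mod (d + e - 1) e
      have := Nat.mod_lt (d + e - 1) (show e > 0 by omega)
      omega
    exact h2.trans (Nat.mul_le_mul_left e h1)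
  set D := e * e + B.card + 1
  have hfar : M0 + D + 2 ≤ M := by
    have h2 : e * ((d + e - 1) / e) ≤ d + e - 1 := Nat.mul_div_le _ _
    have h3 : e * M0 ≤ e * e + (d + e - 1) := by
      rcases le_total e ((d + e - 1) / e) with h | h
      · rw [show M0 = (d + e - 1) / e from max_eq_right h]; omega
      · rw [show M0 = e from max_eq_left h]; omega
    refine Nat.le_of_mul_le_mul_left ?_ he1
    calc e * (M0 + D + 2) = e * M0 + e * (D + 2) := by ring
      _ ≤ d + e * (e + e * e + B.card + 5) := by
        have : e * (e + e * e + B.card + 5) = e * e + e * (D + 2) + 2 * e := by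
          simp only [D]; ring
        omega
      _ ≤ e * M := hM
  -- the defect
  let δ : ℕ → ℕ := fun N => dimW A N E B + (d + B.card) - (idx e N).card
  have hδ : ∀ N, δ N + (idx e N).card = dimW A N E B + (d + B.card) := fun N => by
    have := le_dimW A N E B
    simp only [δ, d, he]
    omega
  have hmono : ∀ N, e ≤ N + 1 → δ (N + 1) ≤ δ N := fun N hN => by
    have h1 := hδ N
    have h2 := hδ (N + 1)
    have h3 := dimW_succ_le A N hN E B
    rw [card_idx_succ hN] at h2
    omega
  have hstart : δ M0 ≤ D := by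
    have h1 := hδ M0
    have h2 : dimW A M0 E B ≤ e * M0 + 1 - d := dimW_le A M0 hE B
    have h3 := sub_sq_le_card_idx e M0
    omega
  -- some step is full
  obtain ⟨t, ht, hfull⟩ : ∃ t, t ≤ D ∧ δ (M0 + t + 1) = δ (M0 + t) := by
    by_contra hno
    have hdec : ∀ t, t ≤ D + 1 → δ (M0 + t) + t ≤ δ M0 := by
      intro t
      induction t with
      | zero => simp
      | succ t ih =>
        intro ht
        have h1 := ih (by omega)
        have h2 := hmono (M0 + t) (by omega)
        have h3 : δ (M0 + t + 1) ≠ δ (M0 + t) := fun h => hno ⟨t, by omega, h⟩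
        rw [show M0 + (t + 1) = M0 + t + 1 from rfl]
        omega
    have := hdec (D + 1) le_rfl
    omega
  have hall : ∀ s, dimW A (M0 + t + s + 1) E B = dimW A (M0 + t + s) E B + e := by
    intro s
    induction s with
    | zero =>
      have h1 := hδ (M0 + t)
      have h2 := hδ (M0 + t + 1)
      rw [card_idx_succ (show e ≤ M0 + t + 1 by omega)] at h2
      simp only [add_zero]
      omega
    | succ s ih => exact full_succ A (M0 + t + s) (by omega) E B ih
  have hconst : ∀ s, δ (M0 + t + s) = δ (M0 + t) := by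
    intro s
    induction s with
    | zero => rfl
    | succ s ih =>
      have h1 := hδ (M0 + t + s)
      have h2 := hδ (M0 + t + s + 1)
      rw [card_idx_succ (show e ≤ M0 + t + s + 1 by omega)] at h2
      have := hall s
      rw [← add_assoc]
      omega
  obtain ⟨N, hN, hNeq⟩ := exists_large_exact A E hE hB (M0 + t)
  obtain ⟨s, rfl⟩ : ∃ s, N = M0 + t + s := ⟨N - (M0 + t), by omega⟩
  have h0 : δ (M0 + t) = 0 := by
    rw [← hconst s]
    have := hδ (M0 + t + s)
    simp only [he] at this hNeq ⊢
    omega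
  obtain ⟨u, rfl⟩ : ∃ u, M = M0 + t + u := ⟨M - (M0 + t), by omega⟩
  have := hδ (M0 + t + u)
  rw [hconst u, h0] at this
  simp only [he] at this ⊢
  omega

/-! ### Descent -/

section Descent

variable {n : Type*} [Fintype n]

/-- Base change of vectors. -/
def iota : (n → ZMod p) →ₗ[ZMod p] (n → Kbar p) :=
  (Algebra.linearMap (ZMod p) (Kbar p)).compLeft n

lemma linearIndependent_iota {ι : Type*} {v : ι → n → ZMod p}
    (hv : LinearIndependent (ZMod p) v) :
    LinearIndependent (Kbar p) (fun i => iota (p := p) (v i)) := by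
  have h := (linearIndependent_algebraMap_comp_iff (R := ZMod p) (S := Kbar p) (v := v)).2 hv
  have e : (fun i => iota (p := p) (v i)) = fun i => algebraMap (ZMod p) (Kbar p) ∘ v i := by
    funext i j
    rfl
  rw [e]
  exact h

lemma le_span_rational (W : Submodule (Kbar p) (n → Kbar p))
    (hW : ∀ v ∈ W, (fun i => WeilProof.fr p (v i)) ∈ W) :
    W ≤ Submodule.span (Kbar p) ((iota (p := p)) '' {x : n → ZMod p | iota x ∈ W}) := by
  suffices h : ∀ m, ∀ v ∈ W, (Finset.univ.filter fun i => v i ≠ 0).card = m →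
      v ∈ Submodule.span (Kbar p) ((iota (p := p)) '' {x : n → ZMod p | iota x ∈ W}) from
    fun v hv => h _ v hv rfl
  intro m
  induction m using Nat.strong_induction_on with
  | _ m ih =>
    intro v hv hm
    let supp : (n → Kbar p) → Finset n := fun w => Finset.univ.filter fun i => w i ≠ 0
    by_cases hv0 : v = 0
    · subst hv0; exact zero_mem _
    obtain ⟨w, ⟨hwW, hw0, hws⟩, hmin⟩ : ∃ w, (w ∈ W ∧ w ≠ 0 ∧ supp w ⊆ supp v) ∧
        ∀ w', w' ∈ W ∧ w' ≠ 0 ∧ supp w' ⊆ supp v → (supp w).card ≤ (supp w').card := by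
      have hne : ({w | w ∈ W ∧ w ≠ 0 ∧ supp w ⊆ supp v} : Set (n → Kbar p)).Nonempty :=
        ⟨v, hv, hv0, subset_rfl⟩
      exact ⟨Function.argminOn (fun w => (supp w).card) _ hne,
        Function.argminOn_mem _ _ hne, fun w' hw' =>
          Function.argminOn_le (fun w => (supp w).card) ({w | w ∈ W ∧ w ≠ 0 ∧ supp w ⊆ supp v}) hw'⟩
    obtain ⟨i, hi⟩ := Function.ne_iff.1 hw0
    simp only [Pi.zero_apply] at hi
    set u := (w i)⁻¹ • w
    have huW : u ∈ W := W.smul_mem _ hwW
    have hui : u i = 1 := by simp [u, inv_mul_cancel₀ hi]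
    have husupp : ∀ j, u j ≠ 0 → j ∈ supp w := fun j hj => by
      simp only [supp, Finset.mem_filter, Finset.mem_univ, true_and]
      intro h0; simp [u, h0] at hj
    have hfix : ∀ j, WeilProof.fr p (u j) = u j := by
      set z := (fun j => WeilProof.fr p (u j)) - u
      have hz : z = 0 := by
        by_contra hz
        have hsub : supp z ⊆ (supp w).erase i := by
          intro j hj
          simp only [supp, Finset.mem_filter, Finset.mem_univ, true_and, z, Pi.sub_apply] at hj
          refine Finset.mem_erase.2 ⟨fun hji => hj (by rw [hji, hui, map_one, sub_self]),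
            husupp j fun h0 => hj (by rw [h0, map_zero, sub_self])⟩
        have h1 := hmin z ⟨W.sub_mem (hW u huW) huW, hz,
          hsub.trans ((Finset.erase_subset _ _).trans hws)⟩
        have h2 := Finset.card_le_card hsub
        have h3 : i ∈ supp w := by simp [supp, hi]
        rw [Finset.card_erase_of_mem h3] at h2
        have h4 := Finset.card_pos.2 ⟨i, h3⟩
        omega
      intro j
      exact sub_eq_zero.1 (congrFun hz j)
    have hu : iota (fun j => WeilProof.coord p (u j)) = u := by
      funext j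
      exact WeilProof.coord_spec p (hfix j)
    have humem : u ∈ Submodule.span (Kbar p) ((iota (p := p)) '' {x : n → ZMod p | iota x ∈ W}) :=
      Submodule.subset_span ⟨fun j => WeilProof.coord p (u j),
        show iota _ ∈ W by rw [hu]; exact huW, hu⟩
    have hrest : v - v i • u ∈ W := W.sub_mem hv (W.smul_mem _ huW)
    have hlt : (supp (v - v i • u)).card < m := by
      rw [← hm]
      refine Finset.card_lt_card ((Finset.ssubset_iff_of_subset ?_).2 ⟨i, ?_, ?_⟩)
      · intro j hj
        simp only [Finset.mem_filter, Finset.mem_univ, true_and, supp] at hj ⊢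
        intro h0
        by_cases hju : u j = 0
        · simp [h0, hju] at hj
        · have := hws (husupp j hju)
          simp only [supp, Finset.mem_filter] at this
          exact this.2 h0
      · exact hws (husupp i (by rw [hui]; exact one_ne_zero))
      · simp [supp, hui]
    have := add_mem (ih _ hlt _ hrest rfl) (Submodule.smul_mem _ (v i) humem)
    simpa using this

/-- A subspace stable under Frobenius has as many rational points as its dimension allows. -/
theorem finrank_rational (W : Submodule (Kbar p) (n → Kbar p))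
    (hW : ∀ v ∈ W, (fun i => WeilProof.fr p (v i)) ∈ W) :
    Module.finrank (ZMod p) ((W.restrictScalars (ZMod p)).comap (iota (p := p))) =
      Module.finrank (Kbar p) W := by
  set WF := (W.restrictScalars (ZMod p)).comap (iota (p := p) (n := n))
  have hspan : W ≤ Submodule.span (Kbar p) ((iota (p := p)) '' (WF : Set (n → ZMod p))) :=
    le_span_rational W hW
  have heq : Submodule.span (Kbar p) ((iota (p := p)) '' (WF : Set (n → ZMod p))) = W := by
    refine le_antisymm (Submodule.span_le.2 ?_) hspan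
    rintro _ ⟨x, hx, rfl⟩
    exact hx
  let b := Module.finBasis (ZMod p) WF
  let g := fun i => iota (p := p) ((b i : WF) : n → ZMod p)
  have hg : LinearIndependent (Kbar p) g :=
    linearIndependent_iota ((LinearIndependent.map' b.linearIndependent WF.subtype
      (Submodule.ker_subtype _)))
  have hgspan : Submodule.span (Kbar p) (Set.range g) = W := by
    refine le_antisymm (Submodule.span_le.2 ?_) (heq ▸ Submodule.span_le.2 ?_)
    · rintro _ ⟨i, rfl⟩
      exact (b i).2
    · rintro _ ⟨x, hx, rfl⟩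
      have e := congrArg (fun y : WF => iota (p := p) (y : n → ZMod p)) (b.sum_repr ⟨x, hx⟩)
      simp only [Submodule.coe_sum, Submodule.coe_smul, map_sum, map_smul] at e
      rw [SetLike.mem_coe, ← e]
      refine Submodule.sum_mem _ fun i _ => ?_
      rw [← algebraMap_smul (Kbar p) (b.repr ⟨x, hx⟩ i)]
      exact Submodule.smul_mem _ _ (Submodule.subset_span ⟨i, rfl⟩)
  conv_rhs => rw [← hgspan]
  rw [finrank_span_eq_card hg, Fintype.card_fin]

end Descent

/-! ### The count -/

lemma mem_bad_of_frP_surj {P : Kbar p × Kbar p} (hP : P ∈ bad A) :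
    ∃ Q ∈ bad A, frP Q = P := by
  have h := Finset.surjOn_of_injOn_of_card_le (frP (p := p)) (s := bad A) (t := bad A)
    (fun Q hQ => (frP_mem_bad A).2 hQ) (frP_injective.injOn) le_rfl
  obtain ⟨Q, hQ, hQP⟩ := h hP
  exact ⟨Q, hQ, hQP⟩

lemma map_fr_mem_Wsp {M : ℕ} {E : Multiset (Kbar p × Kbar p)} (hE : IsCycle A E)
    {B : Finset (Kbar p × Kbar p)} (hB : B = ∅ ∨ B = bad A) {f : (Kbar p)[X][X]}
    (hf : f ∈ Wsp A M E B) : f.map (mapRingHom (WeilProof.fr p)) ∈ Wsp A M E B := by
  obtain ⟨hL, hj, hev⟩ := (mem_Wsp A).1 hf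
  refine (mem_Wsp A).2 ⟨mem_LSpace.2 fun i j hij => ?_, fun P i hi => ?_, fun P hP => ?_⟩
  · rw [coeff_map, coe_mapRingHom, coeff_map, (mem_LSpace).1 hL i j hij, map_zero]
  · have hPE : P ∈ E := Multiset.count_pos.1 (by omega)
    rw [← hE.1] at hPE
    obtain ⟨Q, hQ, rfl⟩ := Multiset.mem_map.1 hPE
    rw [jet_frP A (hE.2 Q hQ).1 (hE.2 Q hQ).2, hj Q i ?_, map_zero]
    rw [← hE.1, Multiset.count_map_eq_count' _ _ frP_injective] at hi
    exact hi
  · rcases hB with rfl | rfl
    · simp at hP
    · obtain ⟨Q, hQ, rfl⟩ := mem_bad_of_frP_surj A hP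
      rw [ev_frP, hev Q hQ, map_zero]

/-- The rational coefficient vectors of functions in a space. -/
def ratSub (M N : ℕ) (E : Multiset (Kbar p × Kbar p)) (B : Finset (Kbar p × Kbar p)) :
    Submodule (ZMod p) (idx (edeg A) M → ZMod p) :=
  (((Wsp A N E B).comap (polyK (edeg A) M)).restrictScalars (ZMod p)).comap iota

lemma mem_ratSub {M N : ℕ} {E : Multiset (Kbar p × Kbar p)} {B : Finset (Kbar p × Kbar p)}
    {v : idx (edeg A) M → ZMod p} : v ∈ ratSub A M N E B ↔ rat v ∈ Wsp A N E B := Iff.rfl

lemma finrank_ratSub {M N : ℕ} (hN : N ≤ M) {E : Multiset (Kbar p × Kbar p)} (hE : IsCycle A E)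
    {B : Finset (Kbar p × Kbar p)} (hB : B = ∅ ∨ B = bad A) :
    Module.finrank (ZMod p) (ratSub A M N E B) = dimW A N E B := by
  rw [ratSub, finrank_rational]
  · rw [(Submodule.equivMapOfInjective (polyK (edeg A) M) (polyK_injective (edeg A) M)
      ((Wsp A N E B).comap (polyK (edeg A) M))).finrank_eq, Submodule.map_comap_eq, inf_eq_right.2]
    · rfl
    · rw [range_polyK]
      exact le_trans (inf_le_left.trans inf_le_left) (LSpace_mono hN)
  · intro v hv
    have h := map_fr_mem_Wsp A hE hB (Submodule.mem_comap.1 hv)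
    refine Submodule.mem_comap.2 ?_
    convert h using 1
    ext j i
    rw [coeff_map, coe_mapRingHom, coeff_map]
    show ((poly _).coeff j).coeff i = WeilProof.fr p (((poly v).coeff j).coeff i)
    rw [coeff_poly, coeff_poly]
    split_ifs <;> simp

/-- Rational functions through a cycle of degree `d` are a proportion `p ^ (- d)` of all, within any
class of boundary data. -/
theorem card_rat_through (k : ℕ) : ∃ G : ℕ, ∀ (p : ℕ) [Fact p.Prime], G < p →
    ∀ A : Comp p, A.h.natDegree = k → ∀ (M : ℕ) (E : Multiset (Kbar p × Kbar p)), IsCycle A E →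
    Multiset.card E + G ≤ edeg A * M →
    ∀ Q : (idx (edeg A) M → ZMod p) → Prop,
      (∀ v w, SameBoundary A M (rat v) (rat w) → Q v → Q w) →
      p ^ Multiset.card E *
          (univ.filter fun v => rat v ∈ Wsp A M E ∅ ∧ Q v).card =
        (univ.filter fun v => Q v).card := by
  refine ⟨k * (k + k * k + k ^ 3 + 5) + k, fun p _ hG A hA M E hE hM => ?_⟩
  set e := edeg A with he
  have he1 : 1 ≤ e := one_le_edeg A
  have hek : e ≤ k := hA ▸ edeg_le A
  have hp : A.h.natDegree < p := by
    rw [hA]
    exact lt_of_le_of_lt (Nat.le_add_left _ _) hG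
  have hb : (bad A).card ≤ k ^ 3 := hA ▸ card_bad_le A
  set d := Multiset.card E
  have hbig : e * (e + e * e + (bad A).card + 5) + e ≤ k * (k + k * k + k ^ 3 + 5) + k := by
    gcongr
  have hMe : e + 5 ≤ M := by
    by_contra hlt
    have : e * (e + 5) ≤ e * (e + e * e + (bad A).card + 5) := Nat.mul_le_mul_left e (by omega)
    have h5 : e * M ≤ e * (e + 5) := Nat.mul_le_mul_left e (by omega)
    omega
  obtain ⟨M', rfl⟩ : ∃ M', M = M' + 1 := ⟨M - 1, by omega⟩
  intro Q hQ
  have hM' : e * (M' + 1) = e * M' + e := by ring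
  have hzero : IsCycle A 0 := ⟨by simp, by simp⟩
  -- dimensions
  have h1 : dimW A (M' + 1) E ∅ + d = (idx e (M' + 1)).card := by
    have := dimW_eq A hE.2 (Finset.empty_subset _) (M := M' + 1) (by
      have : e * (e + e * e + 0 + 5) ≤ e * (e + e * e + (bad A).card + 5) :=
        Nat.mul_le_mul_left e (by omega)
      simp only [Finset.card_empty, ← he]
      omega)
    simpa using this
  have h2 : dimW A M' E (bad A) + (d + (bad A).card) = (idx e M').card :=
    dimW_eq A hE.2 subset_rfl (by simp only [← he]; omega)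
  have h3 : dimW A M' 0 (bad A) + (bad A).card = (idx e M').card := by
    have := dimW_eq A hzero.2 subset_rfl (M := M') (by
      simp only [Multiset.card_zero, ← he]; omega)
    simpa using this
  -- the kernel of the boundary data
  set W := ratSub A (M' + 1) (M' + 1) E ∅
  set Z := ratSub A (M' + 1) M' 0 (bad A)
  have hWZ : W ⊓ Z = ratSub A (M' + 1) M' E (bad A) := by
    ext v
    simp only [W, Z, Submodule.mem_inf, mem_ratSub, mem_Wsp]
    constructor
    · rintro ⟨⟨-, hj, -⟩, hL, -, hev⟩
      exact ⟨hL, hj, hev⟩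
    · rintro ⟨hL, hj, hev⟩
      exact ⟨⟨LSpace_mono (Nat.le_succ M') hL, hj, by simp⟩, hL, by simp, hev⟩
  have fW : Module.finrank (ZMod p) W = dimW A (M' + 1) E ∅ :=
    finrank_ratSub A le_rfl hE (Or.inl rfl)
  have fZ : Module.finrank (ZMod p) Z = dimW A M' 0 (bad A) :=
    finrank_ratSub A (Nat.le_succ _) hzero (Or.inr rfl)
  have fI : Module.finrank (ZMod p) (W ⊓ Z : Submodule (ZMod p) _) = dimW A M' E (bad A) := by
    rw [hWZ]; exact finrank_ratSub A (Nat.le_succ _) hE (Or.inr rfl)
  have hsup : W ⊔ Z = ⊤ := by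
    refine Submodule.eq_top_of_finrank_eq ?_
    have := Submodule.finrank_sup_add_finrank_inf_eq W Z
    rw [Module.finrank_fintype_fun_eq_card, Fintype.card_coe]
    have h4 : (idx e (M' + 1)).card = (idx e M').card + e := card_idx_succ (by omega)
    simp only [← he] at *
    omega
  -- adding the kernel does not change the data
  have hQZ : ∀ v, ∀ z ∈ Z, (Q v ↔ Q (v + z)) := by
    intro v z hz
    obtain ⟨hzL, -, hzev⟩ := (mem_Wsp A).1 ((mem_ratSub A).1 hz)
    have hsum : rat (v + z) = rat v + rat z := by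
      simp only [rat, Pi.add_apply, map_add]
      exact map_add (polyK e (M' + 1))
        (fun ij => algebraMap (ZMod p) (Kbar p) (v ij))
        (fun ij => algebraMap (ZMod p) (Kbar p) (z ij))
    have hs : SameBoundary A (M' + 1) (rat v) (rat (v + z)) := by
      refine ⟨fun j hj => ?_, fun P hP => ?_⟩
      · rw [hsum, coeff_add, coeff_add, (mem_LSpace).1 hzL (M' + 1 - j) j (Or.inr (by omega)),
          add_zero]
      · rw [hsum, map_add, hzev P hP, add_zero]
    refine ⟨hQ v (v + z) hs, hQ (v + z) v ?_⟩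
    exact ⟨fun j hj => (hs.1 j hj).symm, fun P hP => (hs.2 P hP).symm⟩
  -- counting
  set SW := univ.filter fun v => rat v ∈ Wsp A (M' + 1) E ∅ ∧ Q v
  set SA := univ.filter fun v => Q v
  have hmaps : ∀ x ∈ SW ×ˢ (univ.filter (· ∈ Z)), x.1 + x.2 ∈ SA := by
    intro x hx
    simp only [SW, SA, Finset.mem_product, Finset.mem_filter, Finset.mem_univ, true_and] at hx ⊢
    exact (hQZ x.1 x.2 hx.2).1 hx.1.2
  have hcount := Finset.card_eq_sum_card_fiberwise
    (f := fun x : (idx e (M' + 1) → ZMod p) × (idx e (M' + 1) → ZMod p) => x.1 + x.2) hmaps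
  have hfib : ∀ v ∈ SA, ((SW ×ˢ (univ.filter (· ∈ Z))).filter fun x => x.1 + x.2 = v).card =
      (univ.filter (· ∈ (W ⊓ Z : Submodule (ZMod p) _))).card := by
    intro v hv
    obtain ⟨w0, hw0, z0, hz0, rfl⟩ := Submodule.mem_sup.1 (hsup ▸ Submodule.mem_top : v ∈ W ⊔ Z)
    simp only [SA, Finset.mem_filter, Finset.mem_univ, true_and] at hv
    refine Finset.card_bij' (fun x _ => x.1 - w0) (fun t _ => (w0 + t, z0 - t)) ?_ ?_ ?_ ?_
    · intro x hx
      simp only [SW, Finset.mem_filter, Finset.mem_product, Finset.mem_univ, true_and] at hx ⊢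
      refine ⟨W.sub_mem hx.1.1.1 hw0, ?_⟩
      have : x.1 - w0 = z0 - x.2 := by
        rw [sub_eq_sub_iff_add_eq_add, hx.2]
        exact add_comm _ _
      rw [this]
      exact Z.sub_mem hz0 hx.1.2
    · intro t ht
      simp only [SW, Finset.mem_filter, Finset.mem_product, Finset.mem_univ, true_and] at ht ⊢
      refine ⟨⟨⟨W.add_mem hw0 ht.1, ?_⟩, Z.sub_mem hz0 ht.2⟩, by abel⟩
      have := (hQZ (w0 + t) (z0 - t) (Z.sub_mem hz0 ht.2)).2
      refine this ?_
      rwa [show w0 + t + (z0 - t) = w0 + z0 by abel]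
    · intro x hx
      simp only [Finset.mem_filter] at hx
      refine Prod.ext (by simp) ?_
      show z0 - (x.1 - w0) = x.2
      rw [eq_comm, ← sub_eq_zero]
      have := sub_eq_zero.2 hx.2
      rw [← this]
      abel
    · intro t _
      simp
  rw [Finset.sum_congr rfl hfib, Finset.sum_const, smul_eq_mul, Finset.card_product] at hcount
  have cardOf : ∀ S : Submodule (ZMod p) (idx e (M' + 1) → ZMod p),
      (univ.filter (· ∈ S)).card = p ^ Module.finrank (ZMod p) S := by
    intro S
    rw [← Fintype.card_subtype, Module.card_eq_pow_finrank (K := ZMod p) (V := S), ZMod.card]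
  rw [cardOf, cardOf, fZ, fI] at hcount
  have hsplit : dimW A M' 0 (bad A) = dimW A M' E (bad A) + d := by omega
  rw [hsplit, pow_add] at hcount
  have hp0 : 0 < p ^ dimW A M' E (bad A) := pow_pos (Nat.Prime.pos Fact.out) _
  apply Nat.eq_of_mul_eq_mul_right hp0
  rw [← hcount]
  ring

end

end Vale.Agent.P042.Curve
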