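import Mathlib

/-!
# Stepanov's method for a ring with finitely many places at infinity

No Riemann-Roch: the only inputs are pole filtrations with one-dimensional steps and a lower
bound for the dimension of the functions with all poles of order at most `D`.
-/

namespace Vale.Agent.P042.Curve.Sm

open Finset Module

noncomputable section

/-- Pole filtrations at finitely many places. -/
structure Places (k₀ B ι : Type*) [Field k₀] [CommRing B] [Algebra k₀ B] [Fintype ι] where
  F : ι → ℤ → Submodule k₀ B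
  mono : ∀ i, Monotone (F i)
  mul : ∀ i a b x y, x ∈ F i a → y ∈ F i b → x * y ∈ F i (a + b)
  one : ∀ i, (1 : B) ∈ F i 0
  step : ∀ i n, ∃ l : B →ₗ[k₀] k₀, ∀ x ∈ F i n, l x = 0 → x ∈ F i (n - 1)
  exh : ∀ x, ∃ n : ℕ, ∀ i, x ∈ F i n
  inj : ∀ x, (∀ i, x ∈ F i (-1)) → x = 0
  C : ℕ
  big : ∀ D : ℕ, Fintype.card ι * D ≤ finrank k₀ ↥(⨅ i, F i (D : ℤ)) + C

namespace Places

variable {k₀ B ι : Type*} [Field k₀] [CommRing B] [Algebra k₀ B] [Fintype ι]
  (P : Places k₀ B ι)

/-- Functions with pole order at most `D i` at the `i`-th place. -/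
def V (D : ι → ℕ) : Submodule k₀ B := ⨅ i, P.F i (D i : ℤ)

lemma mem_V {D : ι → ℕ} {x : B} : x ∈ P.V D ↔ ∀ i, x ∈ P.F i (D i : ℤ) := Submodule.mem_iInf _

/-- The leading coefficient at the `i`-th place in degree `n`. -/
def lead (i : ι) (n : ℤ) : B →ₗ[k₀] k₀ := (P.step i n).choose

lemma lead_spec {i : ι} {n : ℤ} {x : B} (hx : x ∈ P.F i n) (h : P.lead i n x = 0) :
    x ∈ P.F i (n - 1) := (P.step i n).choose_spec x hx h

/-- All leading coefficients of degrees in `(D i, E i]`. -/
def leads (D E : ι → ℕ) : B →ₗ[k₀] ((Σ i : ι, Fin (E i - D i)) → k₀) :=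
  LinearMap.pi fun t => P.lead t.1 ((D t.1 : ℤ) + (t.2 : ℕ) + 1)

lemma descend {i : ι} {x : B} {d : ℤ} : ∀ m : ℕ, x ∈ P.F i (d + m) →
    (∀ j < m, P.lead i (d + j + 1) x = 0) → x ∈ P.F i d
  | 0, hx, _ => by simpa using hx
  | m + 1, hx, h => by
    refine descend m ?_ fun j hj => h j (by omega)
    have e : d + ((m + 1 : ℕ) : ℤ) = d + m + 1 := by push_cast; ring
    rw [e] at hx
    simpa using P.lead_spec hx (h m (by omega))

lemma mem_of_leads {D E : ι → ℕ} {x : B} (hDE : ∀ i, D i ≤ E i) (hx : x ∈ P.V E)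
    (h : P.leads D E x = 0) : x ∈ P.V D := by
  rw [mem_V] at hx ⊢
  intro i
  refine P.descend (E i - D i) ?_ fun j hj => congrFun h ⟨i, ⟨j, hj⟩⟩
  have e : (D i : ℤ) + ((E i - D i : ℕ) : ℤ) = E i := by have := hDE i; omega
  rw [e]; exact hx i

/-- The leading coefficients of degrees in `[0, D i]`. -/
def coeffs (D : ι → ℕ) : P.V D →ₗ[k₀] ((Σ i : ι, Fin (D i + 1)) → k₀) :=
  LinearMap.pi fun t => (P.lead t.1 (-1 + (t.2 : ℕ) + 1)).comp (P.V D).subtype

lemma coeffs_injective (D : ι → ℕ) : Function.Injective (P.coeffs D) := by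
  refine (injective_iff_map_eq_zero _).2 fun x hx => Subtype.ext (P.inj _ fun i => ?_)
  refine P.descend (D i + 1) ?_ fun j hj => congrFun hx ⟨i, ⟨j, hj⟩⟩
  have e : (-1 : ℤ) + ((D i + 1 : ℕ) : ℤ) = D i := by push_cast; ring
  rw [e]; exact (P.mem_V.1 x.2) i

instance (D : ι → ℕ) : FiniteDimensional k₀ (P.V D) :=
  FiniteDimensional.of_injective (P.coeffs D) (P.coeffs_injective D)

lemma finrank_V_le (D : ι → ℕ) : finrank k₀ (P.V D) ≤ (∑ i, D i) + Fintype.card ι := by
  refine (LinearMap.finrank_le_finrank_of_injective (P.coeffs_injective D)).trans ?_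
  simp [Finset.sum_add_distrib]

lemma le_finrank_V (D : ι → ℕ) : ∑ i, D i ≤ finrank k₀ (P.V D) + P.C := by
  classical
  set M := ∑ i, D i with hM
  let E : ι → ℕ := fun _ => M
  have hDE : ∀ i, D i ≤ E i := fun i => Finset.single_le_sum (by simp) (mem_univ i)
  let f := (P.leads D E).comp (P.V E).subtype
  have hker : finrank k₀ (LinearMap.ker f) ≤ finrank k₀ (P.V D) := by
    let g : LinearMap.ker f →ₗ[k₀] P.V D :=
      { toFun := fun x => ⟨x.1.1, P.mem_of_leads hDE x.1.2 x.2⟩
        map_add' := fun x y => rfl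
        map_smul' := fun c x => rfl }
    refine LinearMap.finrank_le_finrank_of_injective (f := g) fun x y h => ?_
    exact Subtype.ext (Subtype.ext (congrArg (fun z : P.V D => (z : B)) h))
  have h1 := f.finrank_range_add_finrank_ker
  have h2 : finrank k₀ (LinearMap.range f) ≤ ∑ i, (E i - D i) := by
    refine (Submodule.finrank_le _).trans ?_
    simp
  have h3 : Fintype.card ι * M ≤ finrank k₀ (P.V E) + P.C := P.big M
  have h4 : ∑ i, (E i - D i) + ∑ i, D i = Fintype.card ι * M := by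
    rw [← Finset.sum_add_distrib, Finset.sum_congr rfl fun i _ => Nat.sub_add_cancel (hDE i)]
    simp [E]
  omega

/-- Exact pole order `a` at the place `i`. -/
def Pole (i : ι) (x : B) (a : ℤ) : Prop := x ∈ P.F i a ∧ x ∉ P.F i (a - 1)

lemma pole_mem_lt {i : ι} {x : B} {a b : ℤ} (h : x ∈ P.F i b) (ha : P.Pole i x a) : a ≤ b := by
  by_contra hlt
  exact ha.2 (P.mono i (by omega) h)

/-- The leading coefficient in degree `a` detects pole order `a`. -/
lemma lead_ne_zero {i : ι} {x : B} {a : ℤ} (ha : P.Pole i x a) : P.lead i a x ≠ 0 :=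
  fun h => ha.2 (P.lead_spec ha.1 h)

variable [DecidableEq ι] (i₀ : ι)

/-- Functions with pole order at most `n` at `i₀` and zeros at all other places. -/
def L (n : ℕ) : Submodule k₀ B :=
  P.V (Pi.single i₀ n) ⊓ ⨅ i ∈ ({i₀}ᶜ : Set ι), P.F i (-1)

lemma mem_L {n : ℕ} {x : B} :
    x ∈ P.L i₀ n ↔ x ∈ P.F i₀ n ∧ ∀ i, i ≠ i₀ → x ∈ P.F i (-1) := by
  simp only [L, Submodule.mem_inf, mem_V, Submodule.mem_iInf, Set.mem_compl_iff,
    Set.mem_singleton_iff]
  refine ⟨fun h => ⟨by simpa using h.1 i₀, h.2⟩, fun h => ⟨fun i => ?_, h.2⟩⟩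
  by_cases hi : i = i₀
  · subst hi; simpa using h.1
  · exact P.mono i (by rw [Pi.single_eq_of_ne hi]; norm_num) (h.2 i hi)

lemma L_le (n : ℕ) : P.L i₀ n ≤ P.V (Pi.single i₀ n) := inf_le_left

instance (n : ℕ) : FiniteDimensional k₀ (P.L i₀ n) :=
  Submodule.finiteDimensional_of_le (P.L_le i₀ n)

lemma le_finrank_L (n : ℕ) : n ≤ finrank k₀ (P.L i₀ n) + P.C + Fintype.card ι := by
  classical
  let f : P.V (Pi.single i₀ n) →ₗ[k₀] (ι → k₀) :=
    (LinearMap.pi fun i => P.lead i 0).comp (P.V (Pi.single i₀ n)).subtype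
  let g : LinearMap.ker f →ₗ[k₀] P.L i₀ n :=
    { toFun := fun x => ⟨x.1.1, (P.mem_L i₀).2 ⟨by simpa using (P.mem_V.1 x.1.2) i₀, fun i hi => by
        have h1 := (P.mem_V.1 x.1.2) i
        rw [Pi.single_eq_of_ne hi] at h1
        simpa using P.lead_spec h1 (congrFun x.2 i)⟩⟩
      map_add' := fun x y => rfl
      map_smul' := fun c x => rfl }
  have hker : finrank k₀ (LinearMap.ker f) ≤ finrank k₀ (P.L i₀ n) :=
    LinearMap.finrank_le_finrank_of_injective (f := g) fun x y h =>
      Subtype.ext (Subtype.ext (congrArg (fun z : P.L i₀ n => (z : B)) h))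
  have h1 := f.finrank_range_add_finrank_ker
  have h2 : finrank k₀ (LinearMap.range f) ≤ Fintype.card ι :=
    (Submodule.finrank_le _).trans (by simp)
  have h3 := P.le_finrank_V (Pi.single i₀ n)
  rw [Finset.sum_pi_single'] at h3
  simp only [mem_univ, if_true] at h3
  omega

lemma exists_pole {n : ℕ} {x : B} (hx : x ∈ P.L i₀ n) (h0 : x ≠ 0) :
    ∃ a : ℕ, a ≤ n ∧ P.Pole i₀ x a := by
  classical
  obtain ⟨hn, hoff⟩ := (P.mem_L i₀).1 hx
  have hex : ∃ a : ℕ, x ∈ P.F i₀ a := ⟨n, hn⟩
  refine ⟨Nat.find hex, Nat.find_le hn, Nat.find_spec hex, fun h => ?_⟩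
  rcases Nat.eq_zero_or_pos (Nat.find hex) with hz | hz
  · refine h0 (P.inj x fun i => ?_)
    by_cases hi : i = i₀
    · subst hi; rw [hz] at h; simpa using h
    · exact hoff i hi
  · refine Nat.find_min hex (show Nat.find hex - 1 < Nat.find hex by omega) ?_
    have e : ((Nat.find hex - 1 : ℕ) : ℤ) = (Nat.find hex : ℤ) - 1 := by omega
    rw [e]; exact h

/-- The pole orders at `i₀` of the functions in `L n`. -/
def gapless (n : ℕ) : Finset ℕ := by
  classical exact (Finset.range (n + 1)).filter fun a => ∃ x ∈ P.L i₀ n, P.Pole i₀ x a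

lemma exists_of_mem_gapless {n a : ℕ} (ha : a ∈ P.gapless i₀ n) :
    ∃ x, x ∈ P.L i₀ n ∧ P.Pole i₀ x a := by
  classical
  simp only [gapless, Finset.mem_filter] at ha
  exact ha.2

lemma finrank_L_le (n : ℕ) : finrank k₀ (P.L i₀ n) ≤ (P.gapless i₀ n).card := by
  classical
  let f : P.L i₀ n →ₗ[k₀] (P.gapless i₀ n → k₀) :=
    LinearMap.pi fun a => (P.lead i₀ ((a : ℕ) : ℤ)).comp (P.L i₀ n).subtype
  have hf : Function.Injective f := by
    refine (injective_iff_map_eq_zero _).2 fun x hx => Subtype.ext ?_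
    by_contra h0
    obtain ⟨a, han, ha⟩ := P.exists_pole i₀ x.2 h0
    have hmem : a ∈ P.gapless i₀ n := by
      simp only [gapless, Finset.mem_filter, Finset.mem_range]
      exact ⟨by omega, x, x.2, ha⟩
    exact P.lead_ne_zero ha (congrFun hx ⟨a, hmem⟩)
  exact (LinearMap.finrank_le_finrank_of_injective hf).trans (by simp)

variable [IsDomain B]

lemma pole_pow (hex : ∀ x y a b, P.Pole i₀ x a → P.Pole i₀ y b → P.Pole i₀ (x * y) (a + b))
    {x : B} {a : ℤ} (h : P.Pole i₀ x a) : ∀ m : ℕ, P.Pole i₀ (x ^ (m + 1)) ((m + 1 : ℕ) * a)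
  | 0 => by simpa using h
  | m + 1 => by
    have := hex _ _ _ _ (pole_pow hex h m) h
    rw [← pow_succ] at this
    convert this using 1
    push_cast; ring

omit [DecidableEq ι] [IsDomain B] in
lemma mem_pow {i : ι} {x : B} {a : ℤ} (h : x ∈ P.F i a) : ∀ m : ℕ, x ^ (m + 1) ∈ P.F i ((m + 1 : ℕ) * a)
  | 0 => by simpa using h
  | m + 1 => by
    have := P.mul i _ _ _ _ (mem_pow h m) h
    rw [← pow_succ] at this
    convert this using 2
    push_cast; ring

variable {K : Type*} [Field K] [Algebra k₀ K]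

/-- A nonzero function with poles of total order `n` at `i₀` has at most `n + O(1)` zeros. -/
lemma card_zeros_le {g : B} {n : ℕ} (hg : g ≠ 0) (hn : g ∈ P.L i₀ n) (S : Finset (B →ₐ[k₀] K))
    (hS : ∀ φ ∈ S, φ g = 0) : S.card ≤ n + P.C + Fintype.card ι := by
  classical
  let ev : B →ₗ[k₀] (S → K) := LinearMap.pi fun φ => φ.1.toLinearMap
  -- the points are independent
  have hspan : Submodule.span K (Set.range ev) = ⊤ := by
    have hli : LinearIndependent K (fun φ : S => ((φ.1.toRingHom.toMonoidHom : B →* K) : B → K)) :=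
      (linearIndependent_monoidHom B K).comp _ (fun a b h => Subtype.ext (AlgHom.ext fun x =>
        DFunLike.congr_fun h x))
    by_contra hne
    obtain ⟨f, hf0, hf⟩ := Submodule.exists_le_ker_of_lt_top _ (lt_top_iff_ne_top.2 hne)
    apply hf0
    have hzero : ∀ φ : S, f (Pi.single φ 1) = 0 := by
      refine Fintype.linearIndependent_iff.1 hli (fun φ => f (Pi.single φ 1)) ?_
      funext x
      have h1 : f (ev x) = 0 := hf (Submodule.subset_span ⟨x, rfl⟩)
      rw [← Finset.univ_sum_single (ev x), map_sum] at h1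
      simp only [Finset.sum_apply, Pi.smul_apply, smul_eq_mul, Pi.zero_apply]
      refine Eq.trans (Finset.sum_congr rfl fun φ _ => ?_) h1
      have : (Pi.single φ (ev x φ) : S → K) = ev x φ • Pi.single φ 1 := by
        rw [← Pi.single_smul', smul_eq_mul, mul_one]
      rw [this, map_smul, smul_eq_mul, mul_comm]
      rfl
    refine LinearMap.ext fun v => ?_
    rw [← Finset.univ_sum_single v, map_sum, LinearMap.zero_apply]
    refine Finset.sum_eq_zero fun φ _ => ?_
    have : (Pi.single φ (v φ) : S → K) = v φ • Pi.single φ 1 := by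
      rw [← Pi.single_smul', smul_eq_mul, mul_one]
    rw [this, map_smul, hzero, smul_zero]
  -- a bounded degree already separates them
  obtain ⟨D, hD⟩ : ∃ D : ℕ, ∀ φ : S, Pi.single φ (1 : K) ∈
      Submodule.span K (ev '' (P.V fun _ => D : Submodule k₀ B)) := by
    have h1 : ∀ φ : S, ∃ D : ℕ, Pi.single φ (1 : K) ∈
        Submodule.span K (ev '' (P.V fun _ => D : Submodule k₀ B)) := by
      intro φ
      have hv : Pi.single φ (1 : K) ∈ Submodule.span K (Set.range ev) := by simp [hspan]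
      obtain ⟨T, hT, hv⟩ := Submodule.mem_span_finite_of_mem_span hv
      choose b hb using fun t : T => hT t.2
      choose d hd using fun t : T => P.exh (b t)
      refine ⟨univ.sup d, Submodule.span_mono ?_ hv⟩
      intro t ht
      refine ⟨b ⟨t, ht⟩, ?_, hb ⟨t, ht⟩⟩
      rw [SetLike.mem_coe, mem_V]
      exact fun i => P.mono i (by exact_mod_cast Finset.le_sup (mem_univ _)) (hd ⟨t, ht⟩ i)
    choose d hd using h1
    refine ⟨univ.sup d, fun φ => Submodule.span_mono (Set.image_mono ?_) (hd φ)⟩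
    intro x hx
    rw [SetLike.mem_coe, mem_V] at hx ⊢
    exact fun i => P.mono i (by exact_mod_cast Finset.le_sup (mem_univ φ)) (hx i)
  set E : ι → ℕ := fun i => D + (Pi.single i₀ n : ι → ℕ) i with hE
  let R := LinearMap.range (ev.comp (P.V E).subtype)
  -- the multiples of `g` are killed
  have hgmem : ∀ x ∈ P.V (fun _ => D), g * x ∈ P.V E := by
    intro x hx
    rw [mem_V] at hx ⊢
    intro i
    have := P.mul i _ _ _ _ ((P.mem_V.1 (P.L_le i₀ n hn)) i) (hx i)
    simpa [hE, add_comm] using this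
  let m : P.V (fun _ => D) →ₗ[k₀] LinearMap.ker (ev.comp (P.V E).subtype) :=
    { toFun := fun x => ⟨⟨g * x.1, hgmem x.1 x.2⟩, by
        ext φ
        simp [ev, hS φ.1 φ.2]⟩
      map_add' := fun x y => Subtype.ext (Subtype.ext (mul_add _ _ _))
      map_smul' := fun c x => Subtype.ext (Subtype.ext (mul_smul_comm _ _ _)) }
  have hm : finrank k₀ (P.V fun _ => D) ≤ finrank k₀ (LinearMap.ker (ev.comp (P.V E).subtype)) :=
    LinearMap.finrank_le_finrank_of_injective (f := m) fun x y h => Subtype.ext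
      (mul_left_cancel₀ hg (congrArg
        (fun z : LinearMap.ker (ev.comp (P.V E).subtype) => (z.1 : B)) h))
  have hR : S.card ≤ finrank k₀ R := by
    have htop : Submodule.span K (R : Set (S → K)) = ⊤ := by
      rw [eq_top_iff]
      intro v _
      rw [← Finset.univ_sum_single v]
      refine Submodule.sum_mem _ fun φ _ => ?_
      have : (Pi.single φ (v φ) : S → K) = v φ • Pi.single φ 1 := by
        rw [← Pi.single_smul', smul_eq_mul, mul_one]
      rw [this]
      refine Submodule.smul_mem _ _ (Submodule.span_mono ?_ (hD φ))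
      rintro _ ⟨x, hx, rfl⟩
      refine ⟨⟨x, ?_⟩, rfl⟩
      rw [SetLike.mem_coe, mem_V] at hx
      rw [mem_V]
      exact fun i => P.mono i (by simp [hE]) (hx i)
    let bR := Module.finBasis k₀ R
    have hgen : Submodule.span K (Set.range fun j => ((bR j : R) : S → K)) = ⊤ := by
      rw [eq_top_iff, ← htop, Submodule.span_le]
      intro v hv
      have := bR.sum_repr ⟨v, hv⟩
      have h2 := congrArg (fun z : R => (z : S → K)) this
      simp only [AddSubmonoidClass.coe_finsetSum, SetLike.val_smul] at h2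
      rw [← h2]
      refine Submodule.sum_mem _ fun j _ => ?_
      rw [← algebraMap_smul K]
      exact Submodule.smul_mem _ _ (Submodule.subset_span ⟨j, rfl⟩)
    have := finrank_range_le_card (R := K) (fun j => ((bR j : R) : S → K))
    rw [Set.finrank, hgen, finrank_top] at this
    simpa using this
  have h1 := (ev.comp (P.V E).subtype).finrank_range_add_finrank_ker
  have h2 := P.finrank_V_le E
  have h3 := P.le_finrank_V (fun _ => D)
  have h4 : ∑ i, E i = ∑ _i : ι, D + n := by simp [hE, Finset.sum_add_distrib]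
  simp only [R] at hR
  rw [h4] at h2
  omega

/-- **Stepanov's bound.** Points with `Frob φ = φ ∘ σ` are at most `q + O(√q)`. -/
theorem stepanov [Finite k₀] (p : ℕ) [ExpChar B p] [ExpChar K p]
    (hexact : ∀ x y a b, P.Pole i₀ x a → P.Pole i₀ y b → P.Pole i₀ (x * y) (a + b))
    (σ : B →+* B) (π : ι ≃ ι) (hσ : ∀ i n x, x ∈ P.F i n → σ x ∈ P.F (π i) n)
    (μ : ℕ) (hb : (P.C + Fintype.card ι + 6) ^ 2 ≤ p ^ μ)
    (S : Finset (B →ₐ[k₀] K)) (hS : ∀ φ ∈ S, ∀ x, φ x ^ (p ^ μ * p ^ μ) = φ (σ x)) :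
    S.card ≤ p ^ μ * p ^ μ + (4 * P.C + 4 * Fintype.card ι + 8) * p ^ μ := by
  classical
  have := Fintype.ofFinite k₀
  set b := p ^ μ with hbdef
  set r := Fintype.card ι with hr
  set A := P.C + r + 6 with hA
  have hAb : A ≤ A ^ 2 := Nat.le_self_pow (by norm_num) _
  set l := b - 1 with hl
  set m := b + 3 * P.C + 3 * r + 6 with hm
  set G := P.gapless i₀ m with hG
  choose s hsL hsP using fun a : G => P.exists_of_mem_gapless i₀ a.2
  let T : ι → ℕ := fun i => (if i = i₀ then b * l else 0) + if i = π i₀ then m else 0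
  -- the additive map
  have hb0 : 0 < b := lt_of_lt_of_le (by positivity) hb
  have hterm : ∀ (v : P.L i₀ l) (a : G), (v : B) ^ b * σ (s a) ∈ P.V T := by
    intro v a
    rw [mem_V]
    intro i
    obtain ⟨hv0, hvoff⟩ := (P.mem_L i₀).1 v.2
    obtain ⟨hs0, hsoff⟩ := (P.mem_L i₀).1 (hsL a)
    have h1 : (v : B) ^ b ∈ P.F i ((if i = i₀ then b * l else 0 : ℕ) : ℤ) := by
      obtain ⟨b', hb'⟩ : ∃ b', b = b' + 1 := ⟨b - 1, by omega⟩
      by_cases hi : i = i₀
      · subst hi
        rw [if_pos rfl, hb']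
        exact P.mono i (by push_cast; exact le_rfl) (P.mem_pow hv0 b')
      · rw [if_neg hi, hb']
        exact P.mono i (by push_cast; omega) (P.mem_pow (hvoff i hi) b')
    have h2 : σ (s a) ∈ P.F i ((if i = π i₀ then m else 0 : ℕ) : ℤ) := by
      by_cases hi : i = π i₀
      · rw [if_pos hi, hi]; exact hσ i₀ _ _ hs0
      · rw [if_neg hi]
        have hne : π.symm i ≠ i₀ := fun e => hi (by rw [← e, Equiv.apply_symm_apply])
        have := hσ _ _ _ (hsoff _ hne)
        rw [Equiv.apply_symm_apply] at this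
        exact P.mono i (by norm_num) this
    exact P.mono i (by simp [T]) (P.mul i _ _ _ _ h1 h2)
  let Φ : (G → P.L i₀ l) → P.V T := fun v => ∑ a, ⟨(v a : B) ^ b * σ (s a), hterm (v a) a⟩
  have hcard : ∀ W : Submodule k₀ B, FiniteDimensional k₀ W →
      Nat.card W = Fintype.card k₀ ^ finrank k₀ W := fun W _ => by
    rw [Module.natCard_eq_pow_finrank (K := k₀), Nat.card_eq_fintype_card]
  have : Finite (P.V T) := Module.finite_of_finite k₀
  have : Finite (P.L i₀ l) := Module.finite_of_finite k₀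
  have hlt : Nat.card (P.V T) < Nat.card (G → P.L i₀ l) := by
    rw [Nat.card_fun, hcard _ inferInstance, hcard _ inferInstance, ← pow_mul,
      Nat.card_eq_fintype_card, Fintype.card_coe]
    refine Nat.pow_lt_pow_right Fintype.one_lt_card ?_
    have h1 := P.finrank_V_le T
    have h2 := P.le_finrank_L i₀ l
    have h3 := P.finrank_L_le i₀ m
    have h4 := P.le_finrank_L i₀ m
    have h5 : ∑ i, T i = b * l + m := by simp [T, Finset.sum_add_distrib]
    obtain ⟨B', hB'⟩ : ∃ B', b = P.C + r + 1 + B' := ⟨b - (P.C + r + 1), by omega⟩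
    have h6 : B' ≤ finrank k₀ (P.L i₀ l) := by
      rw [hr] at hB'; omega
    have h7 : b + 2 * P.C + 2 * r + 6 ≤ G.card := by
      rw [hG, hr]; omega
    refine lt_of_le_of_lt h1 (lt_of_lt_of_le ?_ (Nat.mul_le_mul h6 h7))
    rw [h5, hl, hm, show b - 1 = P.C + r + B' by omega, hB']
    have h8 : A ^ 2 ≤ P.C + r + 1 + B' := hB' ▸ hb
    rw [hA] at h8
    nlinarith
  obtain ⟨v, w, hne, heq⟩ : ∃ v w, v ≠ w ∧ Φ v = Φ w := by
    by_contra h
    push Not at h
    exact absurd (Nat.card_le_card_of_injective Φ fun v w e => by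
      by_contra hvw; exact h v w hvw e) (not_le.2 hlt)
  let u : G → B := fun a => (v a : B) - (w a : B)
  have hu : ∀ a, u a ∈ P.L i₀ l := fun a => (P.L i₀ l).sub_mem (v a).2 (w a).2
  have hker : ∑ a, u a ^ b * σ (s a) = 0 := by
    have := congrArg (fun z : P.V T => (z : B)) heq
    simp only [Φ, AddSubmonoidClass.coe_finsetSum] at this
    simp only [u, hbdef, sub_pow_expChar_pow, sub_mul, Finset.sum_sub_distrib]
    rw [← hbdef, this, sub_self]
  -- the auxiliary function
  set g := ∑ a, u a * s a ^ b with hg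
  have hgL : g ∈ P.L i₀ (l + b * m) := by
    refine Submodule.sum_mem _ fun a _ => (P.mem_L i₀).2 ⟨?_, fun i hi => ?_⟩
    · obtain ⟨b', hb'⟩ : ∃ b', b = b' + 1 := ⟨b - 1, by omega⟩
      have := P.mul i₀ _ _ _ _ ((P.mem_L i₀).1 (hu a)).1
        (P.mem_pow ((P.mem_L i₀).1 (hsL a)).1 b')
      rw [← hb'] at this
      exact P.mono i₀ (by push_cast; omega) this
    · obtain ⟨b', hb'⟩ : ∃ b', b = b' + 1 := ⟨b - 1, by omega⟩
      have := P.mul i _ _ _ _ (((P.mem_L i₀).1 (hu a)).2 i hi)
        (P.mem_pow (((P.mem_L i₀).1 (hsL a)).2 i hi) b')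
      rw [← hb'] at this
      exact P.mono i (by omega) this
  have hg0 : g ≠ 0 := by
    obtain ⟨a₁, ha₁⟩ : ∃ a, u a ≠ 0 := by
      by_contra h
      push Not at h
      exact hne (funext fun a => Subtype.ext (sub_eq_zero.1 (h a)))
    have hdeg : ∀ a, u a ≠ 0 → ∃ e : ℕ, e ≤ l ∧ P.Pole i₀ (u a * s a ^ b) (e + b * a.1 : ℕ) := by
      intro a ha
      obtain ⟨e, he, hpe⟩ := P.exists_pole i₀ (hu a) ha
      refine ⟨e, he, ?_⟩
      obtain ⟨b', hb'⟩ : ∃ b', b = b' + 1 := ⟨b - 1, by omega⟩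
      have := hexact _ _ _ _ hpe (P.pole_pow i₀ hexact (hsP a) b')
      rw [← hb'] at this
      convert this using 1
      push_cast; rfl
    choose e he hpe using hdeg
    obtain ⟨a₀, ha₀, hmax⟩ := Finset.exists_max_image
      (univ.filter fun a => u a ≠ 0) (fun a => a.1) ⟨a₁, by simp [ha₁]⟩
    simp only [Finset.mem_filter, mem_univ, true_and] at ha₀ hmax
    intro h0
    apply (hpe a₀ ha₀).2
    have hsum : u a₀ * s a₀ ^ b = -∑ a ∈ univ.erase a₀, u a * s a ^ b := by
      rw [eq_neg_iff_add_eq_zero, Finset.add_sum_erase _ (fun a => u a * s a ^ b) (mem_univ a₀)]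
      exact h0
    rw [hsum]
    refine Submodule.neg_mem _ (Submodule.sum_mem _ fun a ha => ?_)
    by_cases hua : u a = 0
    · simp [hua]
    refine P.mono i₀ ?_ (hpe a hua).1
    have h1 : a.1 < a₀.1 := lt_of_le_of_ne (hmax a hua) fun h =>
      (Finset.mem_erase.1 ha).1 (Subtype.ext h)
    have h2 : b * (a.1 + 1) ≤ b * a₀.1 := Nat.mul_le_mul_left b h1
    have := he a hua
    rw [mul_add, mul_one] at h2
    omega
  have hzero : ∀ φ ∈ S, φ g = 0 := by
    intro φ hφ
    refine (pow_eq_zero_iff hb0.ne').1 ?_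
    rw [hg, map_sum, hbdef, sum_pow_char_pow, ← hbdef]
    have := congrArg φ hker
    simp only [map_sum, map_mul, map_pow, map_zero] at this
    rw [← this]
    refine Finset.sum_congr rfl fun a _ => ?_
    rw [map_mul, map_pow, mul_pow, ← pow_mul, hS φ hφ]
  refine (P.card_zeros_le i₀ hg0 hgL S hzero).trans ?_
  rw [hm, hl]
  have : b * (b + 3 * P.C + 3 * r + 6) = b * b + (3 * P.C + 3 * r + 6) * b := by ring
  have h9 : (4 * P.C + 4 * r + 8) * b = (3 * P.C + 3 * r + 6) * b + (P.C + r + 2) * b := by ring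
  have h10 : P.C + r ≤ (P.C + r + 2) * b :=
    le_trans (by omega) (Nat.le_mul_of_pos_right _ hb0)
  have h11 : b ≤ (P.C + r + 2) * b := Nat.le_mul_of_pos_left _ (by omega)
  have h12 : P.C + r + b ≤ (P.C + r + 2) * b := by
    have : (P.C + r + 1) * b + b = (P.C + r + 2) * b := by ring
    have := Nat.le_mul_of_pos_right (P.C + r + 1) hb0
    omega
  rw [← hr]
  omega

end Places

end

end Vale.Agent.P042.Curve.Sm
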