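import Vale.Agent.P042.Curve.InfSeries
import Vale.Agent.P042.Curve.Stepanov

/-!
# The splitting field of `h Y + h x` and its places at infinity
-/

open Finset Polynomial

namespace Vale.Agent.P042.Curve.Sm

noncomputable section

variable {p : ℕ} [hp : Fact p.Prime] (A : Comp p)

/-- Rational functions. -/
abbrev RF : Type := RatFunc (k0 A)

/-- Rational functions as series in `1 / x`. -/
def ratSer : RF A →+* Ser A :=
  IsFractionRing.lift (A := (k0 A)[X]) (g := (polySer A).toRingHom) (polySer_injective A)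

lemma ratSer_poly (f : (k0 A)[X]) : ratSer A (algebraMap (k0 A)[X] (RF A) f) = polySer A f := by
  simp [ratSer]

lemma ratSer_const (c : k0 A) :
    ratSer A (algebraMap (k0 A) (RF A) c) = algebraMap (k0 A) (Ser A) c := by
  rw [IsScalarTower.algebraMap_apply (k0 A) (k0 A)[X] (RF A), ratSer_poly]
  exact (polySer A).commutes c

/-- `h Y + h x` over rational functions. -/
def Qpoly : (RF A)[X] :=
  (hk A).map (algebraMap (k0 A) (RF A)) + C (algebraMap (k0 A)[X] (RF A) (hk A))

lemma Qpoly_natDegree : (Qpoly A).natDegree = A.h.natDegree := by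
  rw [Qpoly, natDegree_add_C, natDegree_map, hk_natDegree]

lemma Qpoly_ne_zero : Qpoly A ≠ 0 := by
  intro h
  have := Qpoly_natDegree A
  rw [h, natDegree_zero] at this
  have := A.two_le; omega

lemma eval_Qpoly_map (y : Ser A) :
    ((Qpoly A).map (ratSer A)).eval y = aeval y (hk A) + aeval (xs A) (hk A) := by
  rw [Qpoly, Polynomial.map_add, map_C, ratSer_poly, eval_add, eval_C, Polynomial.map_map,
    eval_map, aeval_def]
  congr 1
  refine congrArg (fun f => eval₂ f y (hk A)) (RingHom.ext fun c => ?_)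
  exact ratSer_const A c

/-- The series roots. -/
def serRoot (ζ : dirs A) : Ser A := (exists_ser_root A ζ.2).choose

lemma serRoot_spec (ζ : dirs A) : ((Qpoly A).map (ratSer A)).eval (serRoot A ζ) = 0 ∧
    (∀ j : ℤ, j < -1 → (serRoot A ζ).coeff j = 0) ∧ (serRoot A ζ).coeff (-1) = ζ := by
  obtain ⟨h1, h2, h3⟩ := (exists_ser_root A ζ.2).choose_spec
  exact ⟨by rw [eval_Qpoly_map]; exact h1, h2, h3⟩

lemma serRoot_injective : Function.Injective (serRoot A) := fun ζ η h => Subtype.ext <| by
  rw [← (serRoot_spec A ζ).2.2, h, (serRoot_spec A η).2.2]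

lemma roots_map_eq : ((Qpoly A).map (ratSer A)).roots = (univ : Finset (dirs A)).val.map (serRoot A) := by
  classical
  have h0 : (Qpoly A).map (ratSer A) ≠ 0 :=
    (Polynomial.map_ne_zero_iff (ratSer A).injective).2 (Qpoly_ne_zero A)
  refine (Multiset.eq_of_le_of_card_le ?_ ?_).symm
  · refine (Multiset.le_iff_subset ((univ : Finset (dirs A)).nodup.map (serRoot_injective A))).2 ?_
    intro y hy
    obtain ⟨ζ, -, rfl⟩ := Multiset.mem_map.1 hy
    rw [mem_roots h0]
    exact (serRoot_spec A ζ).1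
  · refine (card_roots' _).trans ?_
    rw [natDegree_map, Qpoly_natDegree, Multiset.card_map, Finset.card_val, card_univ,
      Fintype.card_coe, card_dirs]

lemma splits_map : ((Qpoly A).map (ratSer A)).Splits := by
  rw [splits_iff_card_roots, roots_map_eq, natDegree_map, Qpoly_natDegree, Multiset.card_map,
    Finset.card_val, card_univ, Fintype.card_coe, card_dirs]

lemma Qpoly_separable : (Qpoly A).Separable := by
  rw [← separable_map (ratSer A), ← nodup_roots_iff_of_splits
    ((Polynomial.map_ne_zero_iff (ratSer A).injective).2 (Qpoly_ne_zero A)) (splits_map A),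
    roots_map_eq]
  exact (univ : Finset (dirs A)).nodup.map (serRoot_injective A)

/-- The splitting field. -/
abbrev LF : Type := (Qpoly A).SplittingField

instance : IsGalois (RF A) (LF A) :=
  IsGalois.of_separable_splitting_field (p := Qpoly A) (Qpoly_separable A)

instance tower_poly : IsScalarTower (k0 A) (k0 A)[X] (LF A) :=
  IsScalarTower.of_algebraMap_eq fun c => by
    rw [IsScalarTower.algebraMap_apply (k0 A) (RF A) (LF A),
      IsScalarTower.algebraMap_apply (k0 A)[X] (RF A) (LF A),
      ← IsScalarTower.algebraMap_apply (k0 A) (k0 A)[X] (RF A)]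

/-- The embedding at infinity. -/
def ser : LF A →+* Ser A :=
  letI := (ratSer A).toAlgebra
  (Polynomial.IsSplittingField.lift (LF A) (Qpoly A) (splits_map A)).toRingHom

lemma ser_rat (r : RF A) : ser A (algebraMap (RF A) (LF A) r) = ratSer A r :=
  letI := (ratSer A).toAlgebra
  (Polynomial.IsSplittingField.lift (LF A) (Qpoly A) (splits_map A)).commutes r

lemma ser_poly (f : (k0 A)[X]) : ser A (algebraMap (k0 A)[X] (LF A) f) = polySer A f := by
  rw [IsScalarTower.algebraMap_apply (k0 A)[X] (RF A) (LF A), ser_rat, ratSer_poly]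

lemma ser_const (c : k0 A) :
    ser A (algebraMap (k0 A) (LF A) c) = algebraMap (k0 A) (Ser A) c := by
  rw [IsScalarTower.algebraMap_apply (k0 A) (RF A) (LF A), ser_rat, ratSer_const]

/-- The roots. -/
def rts : Set (LF A) := (Qpoly A).rootSet (LF A)

lemma ser_root {y : LF A} (hy : y ∈ rts A) : ∃ ζ : dirs A, ser A y = serRoot A ζ := by
  have h0 : (Qpoly A).map (ratSer A) ≠ 0 :=
    (Polynomial.map_ne_zero_iff (ratSer A).injective).2 (Qpoly_ne_zero A)
  have : ser A y ∈ ((Qpoly A).map (ratSer A)).roots := by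
    rw [mem_roots h0, IsRoot.def, eval_map]
    have h1 := (mem_rootSet.1 hy).2
    have h2 := congrArg (ser A) h1
    rw [aeval_def, hom_eval₂, map_zero] at h2
    have e : (ser A).comp (algebraMap (RF A) (LF A)) = ratSer A := RingHom.ext (ser_rat A)
    rwa [e] at h2
  rw [roots_map_eq] at this
  obtain ⟨ζ, -, hζ⟩ := Multiset.mem_map.1 this
  exact ⟨ζ, hζ.symm⟩

/-- `x`. -/
def xL : LF A := algebraMap (k0 A)[X] (LF A) X

lemma ser_xL : ser A (xL A) = xs A := by simp [xL, ser_poly, polySer]

/-- The Galois group. -/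
abbrev Gal' : Type := LF A ≃ₐ[RF A] LF A

instance : DecidableEq (Gal' A) := Classical.decEq _

instance : Fintype (Gal' A) := Fintype.ofFinite _

lemma gal_xL (g : Gal' A) : g (xL A) = xL A := by
  rw [xL, IsScalarTower.algebraMap_apply (k0 A)[X] (RF A) (LF A)]
  exact g.commutes _

lemma gal_const (g : Gal' A) (c : k0 A) :
    g (algebraMap (k0 A) (LF A) c) = algebraMap (k0 A) (LF A) c := by
  rw [IsScalarTower.algebraMap_apply (k0 A) (RF A) (LF A)]
  exact g.commutes _

lemma gal_rts (g : Gal' A) {y : LF A} (hy : y ∈ rts A) : g y ∈ rts A := by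
  simp only [rts, mem_rootSet] at hy ⊢
  exact ⟨hy.1, by rw [aeval_algEquiv, AlgHom.comp_apply, hy.2]; simp⟩

/-- The ring generated by the coordinates. -/
def Bring : Subalgebra (k0 A) (LF A) := Algebra.adjoin (k0 A) (insert (xL A) (rts A))

lemma xL_mem : xL A ∈ Bring A := Algebra.subset_adjoin (Set.mem_insert _ _)

lemma rts_mem {y : LF A} (hy : y ∈ rts A) : y ∈ Bring A :=
  Algebra.subset_adjoin (Set.mem_insert_of_mem _ hy)

lemma map_mem_of_gens {F : Type*} [FunLike F (LF A) (LF A)] [RingHomClass F (LF A) (LF A)] (f : F)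
    (hc : ∀ c, f (algebraMap (k0 A) (LF A) c) ∈ Bring A) (hx : f (xL A) ∈ Bring A)
    (hr : ∀ y ∈ rts A, f y ∈ Bring A) {b : LF A} (hb : b ∈ Bring A) : f b ∈ Bring A := by
  induction hb using Algebra.adjoin_induction with
  | mem y hy =>
    rcases hy with rfl | hy
    · exact hx
    · exact hr y hy
  | algebraMap c => exact hc c
  | add a b _ _ ha hb => rw [map_add]; exact add_mem ha hb
  | mul a b _ _ ha hb => rw [map_mul]; exact mul_mem ha hb

lemma gal_mem (g : Gal' A) {b : LF A} (hb : b ∈ Bring A) : g b ∈ Bring A :=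
  map_mem_of_gens A g (fun c => by rw [gal_const]; exact Subalgebra.algebraMap_mem _ c)
    (by rw [gal_xL]; exact xL_mem A) (fun y hy => rts_mem A (gal_rts A g hy)) hb

/-- The action on the ring. -/
def galB (g : Gal' A) : Bring A →ₐ[k0 A] Bring A :=
  AlgHom.codRestrict (((AlgEquiv.restrictScalars (k0 A) g).toAlgHom).comp (Bring A).val) (Bring A)
    (fun b => gal_mem A g b.2)

lemma galB_coe (g : Gal' A) (b : Bring A) : (galB A g b : LF A) = g b := rfl

lemma isIntegral_mem {b : LF A} (hb : b ∈ Bring A) : IsIntegral (k0 A)[X] b := by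
  induction hb using Algebra.adjoin_induction with
  | mem y hy =>
    rcases hy with rfl | hy
    · exact isIntegral_algebraMap
    · set a := (hk A).leadingCoeff with ha
      refine ⟨(C a⁻¹ * hk A).map C + C (C a⁻¹ * hk A), ?_, ?_⟩
      · refine (Monic.map _ ?_).add_of_left ?_
        · rw [Monic, leadingCoeff_C_mul_of_isUnit (isUnit_iff_ne_zero.2 (inv_ne_zero (hk_lead_ne A))),
            ← ha, inv_mul_cancel₀ (hk_lead_ne A)]
        · refine degree_C_le.trans_lt ?_
          rw [Polynomial.degree_map_eq_of_injective C_injective, degree_C_mul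
            (inv_ne_zero (hk_lead_ne A)), degree_eq_natDegree (leadingCoeff_ne_zero.1 (hk_lead_ne A)),
            hk_natDegree]
          exact_mod_cast (show 0 < A.h.natDegree by have := A.two_le; omega)
      · have h1 : aeval y ((hk A).map (algebraMap (k0 A) (RF A))
            + C (algebraMap (k0 A)[X] (RF A) (hk A))) = 0 := (mem_rootSet.1 hy).2
        rw [map_add, aeval_C, aeval_map_algebraMap,
          ← IsScalarTower.algebraMap_apply (k0 A)[X] (RF A) (LF A)] at h1
        rw [eval₂_add, eval₂_C, eval₂_map, map_mul, eval₂_mul, eval₂_C]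
        have e : (algebraMap (k0 A)[X] (LF A)).comp C = algebraMap (k0 A) (LF A) := by
          rw [IsScalarTower.algebraMap_eq (k0 A) (k0 A)[X] (LF A)]; rfl
        rw [e, ← aeval_def, ← RingHom.comp_apply, e, ← mul_add, h1, mul_zero]
  | algebraMap c =>
    rw [IsScalarTower.algebraMap_apply (k0 A) (k0 A)[X] (LF A)]
    exact isIntegral_algebraMap
  | add a b _ _ ha hb => exact ha.add hb
  | mul a b _ _ ha hb => exact ha.mul hb

lemma exists_poly_of_fixed {b : LF A} (hb : b ∈ Bring A) (hfix : ∀ g : Gal' A, g b = b) :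
    ∃ f : (k0 A)[X], algebraMap (k0 A)[X] (LF A) f = b := by
  obtain ⟨r, hr⟩ := IntermediateField.mem_bot.1 ((IsGalois.mem_bot_iff_fixed b).2 hfix)
  have h1 := isIntegral_mem A hb
  rw [← hr, isIntegral_algebraMap_iff (algebraMap (RF A) (LF A)).injective] at h1
  obtain ⟨f, hf⟩ := IsIntegrallyClosed.isIntegral_iff.1 h1
  exact ⟨f, by rw [IsScalarTower.algebraMap_apply (k0 A)[X] (RF A) (LF A), hf, hr]⟩

/-- The series vanishes below degree `m`. -/
def Low (m : ℤ) (z : Ser A) : Prop := ∀ j < m, z.coeff j = 0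

lemma low_iff {m : ℤ} {z : Ser A} : Low A m z ↔ (m : WithTop ℤ) ≤ z.orderTop := by
  constructor
  · intro h
    by_contra hlt
    rw [not_le] at hlt
    obtain ⟨j, hj⟩ := WithTop.ne_top_iff_exists.1 hlt.ne_top
    rw [← hj, WithTop.coe_lt_coe] at hlt
    exact HahnSeries.coeff_orderTop_ne hj.symm (h j hlt)
  · intro h j hj
    by_contra hne
    have := h.trans (HahnSeries.orderTop_le_of_coeff_ne_zero hne)
    rw [WithTop.coe_le_coe] at this
    omega

lemma low_mul {m n : ℤ} {y z : Ser A} (hy : Low A m y) (hz : Low A n z) : Low A (m + n) (y * z) := by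
  rw [low_iff] at hy hz ⊢
  rw [HahnSeries.orderTop_mul, WithTop.coe_add]
  exact add_le_add hy hz

/-- A coefficient at a place. -/
def coefL (g : Gal' A) (j : ℤ) : Bring A →ₗ[k0 A] k0 A where
  toFun b := (ser A (g b)).coeff j
  map_add' a b := by simp
  map_smul' c b := by
    have e : g ((c • b : Bring A) : LF A) = algebraMap (k0 A) (LF A) c * g b := by
      rw [Subalgebra.coe_smul, Algebra.smul_def, map_mul, gal_const]
    rw [e, map_mul, ser_const, C_mul_coeff]
    rfl

/-- The filtration at a place. -/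
def Fil (g : Gal' A) (n : ℤ) : Submodule (k0 A) (Bring A) :=
  ⨅ j ∈ Set.Iio (-n), LinearMap.ker (coefL A g j)

lemma mem_Fil {g : Gal' A} {n : ℤ} {b : Bring A} : b ∈ Fil A g n ↔ Low A (-n) (ser A (g b)) := by
  simp [Fil, Low, Submodule.mem_iInf, coefL]

lemma poly_Fil (g : Gal' A) (f : (k0 A)[X]) {n : ℕ} (hf : f.natDegree ≤ n) {b : Bring A}
    (hb : (b : LF A) = algebraMap (k0 A)[X] (LF A) f) : b ∈ Fil A g n := by
  rw [mem_Fil, hb, IsScalarTower.algebraMap_apply (k0 A)[X] (RF A) (LF A), g.commutes,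
    ← IsScalarTower.algebraMap_apply (k0 A)[X] (RF A) (LF A), ser_poly]
  intro j hj
  rw [polySer_coeff, if_pos (by omega), coeff_eq_zero_of_natDegree_lt (by omega)]

lemma Fil_mul (g : Gal' A) (n m : ℤ) (a b : Bring A) (ha : a ∈ Fil A g n) (hb : b ∈ Fil A g m) :
    a * b ∈ Fil A g (n + m) := by
  rw [mem_Fil] at ha hb ⊢
  rw [Subalgebra.coe_mul, map_mul, map_mul, show -(n + m) = -n + -m by ring]
  exact low_mul A ha hb

lemma Fil_inj (b : Bring A) (hb : ∀ g, b ∈ Fil A g (-1)) : b = 0 := by
  classical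
  set N : LF A := ∏ g : Gal' A, g b with hN
  have hmem : N ∈ Bring A := prod_mem fun g _ => gal_mem A g b.2
  have hfix : ∀ h : Gal' A, h N = N := by
    intro h
    rw [hN, map_prod]
    exact Fintype.prod_equiv (Equiv.mulLeft h) _ _ fun g => rfl
  obtain ⟨f, hf⟩ := exists_poly_of_fixed A hmem hfix
  have hlow : Low A (Fintype.card (Gal' A)) (ser A N) := by
    rw [hN, map_prod, ← card_univ]
    have : ∀ s : Finset (Gal' A), Low A s.card (∏ g ∈ s, ser A (g b)) := by
      intro s
      induction s using Finset.induction with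
      | empty =>
        intro j hj
        rw [Finset.prod_empty, HahnSeries.coeff_one, if_neg (by simp at hj; omega)]
      | insert g s hgs ih =>
        rw [Finset.prod_insert hgs, Finset.card_insert_of_notMem hgs, Nat.cast_succ, add_comm]
        exact low_mul A (by simpa using (mem_Fil A).1 (hb g)) ih
    exact this univ
  have hf0 : f = 0 := by
    ext i
    have := hlow (-(i : ℤ)) (by have := Fintype.card_pos (α := Gal' A); omega)
    rw [← hf, ser_poly, polySer_coeff, if_pos (by omega)] at this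
    simpa using this
  rw [hf0, map_zero, hN] at hf
  obtain ⟨g, -, hg⟩ := Finset.prod_eq_zero_iff.1 hf.symm
  exact Subtype.ext ((map_eq_zero g).1 hg)

lemma Fil_exh (b : Bring A) : ∃ n : ℕ, ∀ g, b ∈ Fil A g n := by
  classical
  have h : ∀ g : Gal' A, ∃ n : ℕ, b ∈ Fil A g n := by
    intro g
    rcases eq_or_ne (ser A (g b)) 0 with h | h
    · exact ⟨0, (mem_Fil A).2 (by rw [h]; intro j _; simp)⟩
    · obtain ⟨o, ho⟩ := WithTop.ne_top_iff_exists.1 (HahnSeries.orderTop_ne_top.2 h)
      refine ⟨(-o).toNat, (mem_Fil A).2 ((low_iff A).2 ?_)⟩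
      rw [← ho, WithTop.coe_le_coe]
      omega
  choose n hn using h
  refine ⟨univ.sup n, fun g => (mem_Fil A).2 fun j hj => (mem_Fil A).1 (hn g) j ?_⟩
  have := Finset.le_sup (f := n) (mem_univ g)
  omega

lemma exists_basis : ∃ ω : Fin (Fintype.card (Gal' A)) → Bring A,
    LinearIndependent (RF A) (fun a => (ω a : LF A)) := by
  classical
  have hspan : Submodule.span (RF A) (Bring A : Set (LF A)) = ⊤ := by
    rw [eq_top_iff]
    have h1 : Algebra.adjoin (RF A) (rts A) = ⊤ := SplittingField.adjoin_rootSet _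
    rw [← Algebra.top_toSubmodule, ← h1, Algebra.adjoin_eq_span, Submodule.span_le]
    intro y hy
    exact Submodule.subset_span ((Submonoid.closure_le (S := (Bring A).toSubmonoid)).2
      (fun z hz => rts_mem A hz) hy)
  obtain ⟨s, hs, hss, hli⟩ := exists_linearIndependent (RF A) (Bring A : Set (LF A))
  have hfin : s.Finite := hli.setFinite
  have := hfin.fintype
  have hcard : Fintype.card s = Fintype.card (Gal' A) := by
    have b := Module.Basis.mk hli (by rw [Subtype.range_coe, hss, hspan])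
    rw [← Module.finrank_eq_card_basis b, ← IsGalois.card_aut_eq_finrank, Nat.card_eq_fintype_card]
  let e := (Fintype.equivFinOfCardEq hcard).symm
  exact ⟨fun a => ⟨(e a).1, hs (e a).2⟩, hli.comp _ e.injective⟩

lemma Fil_big : ∃ C : ℕ, ∀ D : ℕ,
    Fintype.card (Gal' A) * D ≤ Module.finrank (k0 A) ↥(⨅ g, Fil A g (D : ℤ)) + C := by
  classical
  obtain ⟨ω, hω⟩ := exists_basis A
  choose w hw using fun a => Fil_exh A (ω a)
  set w0 := univ.sup w with hw0
  refine ⟨Fintype.card (Gal' A) * w0, fun D => ?_⟩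
  rcases Nat.lt_or_ge D w0 with h | h
  · have := Nat.mul_le_mul_left (Fintype.card (Gal' A)) h.le
    omega
  set W := (⨅ g, Fil A g (D : ℤ) : Submodule (k0 A) (Bring A)) with hW
  have : FiniteDimensional (k0 A) W := by
    let f : W →ₗ[k0 A] ((Σ _g : Gal' A, Fin (D + 1)) → k0 A) :=
      LinearMap.pi fun t => (coefL A t.1 (-((t.2 : ℕ) : ℤ))).comp W.subtype
    refine FiniteDimensional.of_injective f ((injective_iff_map_eq_zero _).2 fun b hb => ?_)
    refine Subtype.ext (Fil_inj A _ fun g => (mem_Fil A).2 fun j hj => ?_)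
    rcases lt_or_ge j (-(D : ℤ)) with hj' | hj'
    · exact (mem_Fil A).1 ((Submodule.mem_iInf _).1 b.2 g) j hj'
    · have h1 := congrFun hb ⟨g, ⟨(-j).toNat, by omega⟩⟩
      simp only [f, LinearMap.pi_apply, LinearMap.comp_apply, Pi.zero_apply] at h1
      rw [show -((((-j).toNat : ℕ)) : ℤ) = j by omega] at h1
      exact h1
  let u : Fin (D - w0 + 1) × Fin (Fintype.card (Gal' A)) → Bring A :=
    fun t => ⟨xL A, xL_mem A⟩ ^ (t.1 : ℕ) * ω t.2
  have humem : ∀ t, u t ∈ W := by
    intro t
    rw [hW, Submodule.mem_iInf]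
    intro g
    have hmul := Fil_mul A g ((t.1 : ℕ) : ℤ) ((w t.2 : ℕ) : ℤ) _ _ (poly_Fil A g (X ^ (t.1 : ℕ))
      (by rw [natDegree_X_pow]) (b := ⟨xL A, xL_mem A⟩ ^ (t.1 : ℕ)) (by simp [xL])) (hw t.2 g)
    refine (mem_Fil A).2 fun j hj => (mem_Fil A).1 hmul j ?_
    have := Finset.le_sup (f := w) (mem_univ t.2)
    have := t.1.2
    omega
  have hli : LinearIndependent (k0 A) u := by
    refine LinearIndependent.of_comp (Bring A).val.toLinearMap ?_
    have h1 : LinearIndependent (k0 A)
        (fun i : Fin (D - w0 + 1) => algebraMap (k0 A)[X] (RF A) (X ^ (i : ℕ))) := by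
      have h0 : LinearIndependent (k0 A) (fun i : Fin (D - w0 + 1) => (X ^ (i : ℕ) : (k0 A)[X])) := by
        have := ((Polynomial.basisMonomials (k0 A)).linearIndependent).comp
          (Fin.val : Fin (D - w0 + 1) → ℕ) Fin.val_injective
        convert this using 1
        funext i
        simp [← X_pow_eq_monomial]
      exact h0.map' (IsScalarTower.toAlgHom (k0 A) (k0 A)[X] (RF A)).toLinearMap
        (LinearMap.ker_eq_bot.2 (IsFractionRing.injective (k0 A)[X] (RF A)))
    convert linearIndependent_smul h1 hω using 1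
    funext t
    simp only [u, Function.comp_apply, AlgHom.toLinearMap_apply, Subalgebra.coe_val,
      Subalgebra.coe_mul, SubmonoidClass.coe_pow, xL, Algebra.smul_def, ← map_pow,
      ← IsScalarTower.algebraMap_apply]
  have h2 := (LinearIndependent.of_comp W.subtype
    (v := fun t => (⟨u t, humem t⟩ : W)) hli).fintype_card_le_finrank
  rw [Fintype.card_prod, Fintype.card_fin, Fintype.card_fin] at h2
  have h3 : Fintype.card (Gal' A) * D + Fintype.card (Gal' A)
      = (D - w0 + 1) * Fintype.card (Gal' A) + Fintype.card (Gal' A) * w0 := by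
    obtain ⟨E, rfl⟩ := Nat.exists_eq_add_of_le h
    rw [Nat.add_sub_cancel_left]; ring
  omega

/-- The places at infinity. -/
def infPlaces : Places (k0 A) (Bring A) (Gal' A) where
  F := Fil A
  mono g n m hnm b hb := (mem_Fil A).2 fun j hj => (mem_Fil A).1 hb j (by omega)
  mul := Fil_mul A
  one g := by
    refine (mem_Fil A).2 fun j hj => ?_
    simp [HahnSeries.coeff_one, show j ≠ 0 by omega]
  step g n := ⟨coefL A g (-n), fun b hb hl => (mem_Fil A).2 fun j hj => by
    rcases (show j ≤ -n by omega).lt_or_eq with h | h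
    · exact (mem_Fil A).1 hb j h
    · subst h; exact hl⟩
  exh := Fil_exh A
  inj := Fil_inj A
  C := (Fil_big A).choose
  big := (Fil_big A).choose_spec

lemma pole_iff {g : Gal' A} {b : Bring A} {n : ℤ} :
    (infPlaces A).Pole g b n ↔ (ser A (g b)).orderTop = ((-n : ℤ) : WithTop ℤ) := by
  simp only [Places.Pole, infPlaces, mem_Fil, low_iff]
  constructor
  · rintro ⟨h1, h2⟩
    have hne : (ser A (g b)).orderTop ≠ ⊤ := fun htop => h2 (by simp [htop])
    obtain ⟨o, ho⟩ := WithTop.ne_top_iff_exists.1 hne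
    rw [← ho, WithTop.coe_le_coe] at h1 h2
    rw [← ho]
    congr 1; omega
  · intro h
    rw [h, WithTop.coe_le_coe, WithTop.coe_le_coe]
    omega

lemma inf_exact (g : Gal' A) (a b : Bring A) (n m : ℤ) (ha : (infPlaces A).Pole g a n)
    (hb : (infPlaces A).Pole g b m) : (infPlaces A).Pole g (a * b) (n + m) := by
  rw [pole_iff] at ha hb ⊢
  rw [Subalgebra.coe_mul, map_mul, map_mul, HahnSeries.orderTop_mul, ha, hb, ← WithTop.coe_add]
  congr 1; ring

lemma inf_sep (g : Gal' A) (b : Bring A) (hb : b ≠ 0) : ∃ n, (infPlaces A).Pole g b n := by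
  have h : ser A (g b) ≠ 0 := by simpa using hb
  obtain ⟨o, ho⟩ := WithTop.ne_top_iff_exists.1 (HahnSeries.orderTop_ne_top.2 h)
  exact ⟨-o, (pole_iff A).2 (by rw [neg_neg, ho])⟩

lemma inf_pole_poly (g : Gal' A) (f : (k0 A)[X]) (hf : f ≠ 0) {b : Bring A}
    (hb : (b : LF A) = algebraMap (k0 A)[X] (LF A) f) :
    (infPlaces A).Pole g b f.natDegree := by
  refine ⟨poly_Fil A g f le_rfl hb, fun h => ?_⟩
  have h1 := (mem_Fil A).1 h (-(f.natDegree : ℤ)) (by omega)
  rw [hb, IsScalarTower.algebraMap_apply (k0 A)[X] (RF A) (LF A), g.commutes,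
    ← IsScalarTower.algebraMap_apply (k0 A)[X] (RF A) (LF A), ser_poly, polySer_coeff,
    if_pos (by omega)] at h1
  simp only [neg_neg, Int.toNat_natCast] at h1
  exact leadingCoeff_ne_zero.2 hf h1

section Semilinear

variable (e : k0 A ≃+* k0 A)

lemma e_algebraMap (c : ZMod p) :
    e (algebraMap (ZMod p) (k0 A) c) = algebraMap (ZMod p) (k0 A) c :=
  RingHom.congr_fun (RingHom.ext_zmod ((e : k0 A →+* k0 A).comp (algebraMap (ZMod p) (k0 A)))
    (algebraMap (ZMod p) (k0 A))) c

lemma serMap_poly (f : (k0 A)[X]) :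
    serMap (e : k0 A →+* k0 A) (polySer A f) = polySer A (f.map (e : k0 A →+* k0 A)) := by
  ext j
  rw [serMap_coeff, polySer_coeff, polySer_coeff, coeff_map]
  split_ifs <;> simp

lemma serMap_rat (r : RF A) : ∃ r', serMap (e : k0 A →+* k0 A) (ratSer A r) = ratSer A r' := by
  obtain ⟨a, b, -, rfl⟩ := IsFractionRing.div_surjective (k0 A)[X] r
  refine ⟨algebraMap _ _ (a.map (e : k0 A →+* k0 A)) / algebraMap _ _ (b.map (e : k0 A →+* k0 A)), ?_⟩
  simp only [map_div₀, ratSer_poly, serMap_poly]

lemma hk_map_e : (hk A).map (e : k0 A →+* k0 A) = hk A := by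
  rw [hk, Polynomial.map_map]
  congr 1
  exact RingHom.ext fun c => e_algebraMap A e c

lemma serMap_root (ζ : dirs A) : ∃ y ∈ rts A, serMap (e : k0 A →+* k0 A) (serRoot A ζ) = ser A y := by
  set Φ := serMap (e : k0 A →+* k0 A)
  have hx : Φ (xs A) = xs A := by
    have := serMap_poly A e X
    simpa [polySer, Φ] using this
  have hz : ((Qpoly A).map (ratSer A)).eval (Φ (serRoot A ζ)) = 0 := by
    have h1 := congrArg Φ (serRoot_spec A ζ).1
    rw [eval_Qpoly_map, map_add, map_zero] at h1
    rw [eval_Qpoly_map]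
    have e1 : ∀ z : Ser A, Φ (aeval z (hk A)) = aeval (Φ z) (hk A) := by
      intro z
      conv_rhs => rw [← hk_map_e A e]
      rw [aeval_def, aeval_def, eval₂_map, hom_eval₂]
      congr 1
      refine RingHom.ext fun c => ?_
      ext j
      simp only [RingHom.comp_apply, serMap_coeff, Φ, algMap_eq, HahnSeries.C_apply,
        HahnSeries.coeff_single]
      split_ifs <;> simp
    rw [e1, e1, hx] at h1
    exact h1
  have hmap : ((Qpoly A).map (algebraMap (RF A) (LF A))).map (ser A) = (Qpoly A).map (ratSer A) := by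
    rw [Polynomial.map_map]
    congr 1
    exact RingHom.ext (ser_rat A)
  have h2 := (SplittingField.splits (Qpoly A)).map (ser A)
  have hroots : ((Qpoly A).map (ratSer A)).roots
      = ((Qpoly A).map (algebraMap (RF A) (LF A))).roots.map (ser A) := by
    rw [← hmap, ← (SplittingField.splits (Qpoly A)).roots_map]
  have hmem : Φ (serRoot A ζ) ∈ ((Qpoly A).map (ratSer A)).roots := by
    rw [mem_roots ((Polynomial.map_ne_zero_iff (ratSer A).injective).2 (Qpoly_ne_zero A))]
    exact hz
  rw [hroots, Multiset.mem_map] at hmem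
  obtain ⟨y, hy, hy'⟩ := hmem
  refine ⟨y, ?_, hy'.symm⟩
  classical
  rw [rts, rootSet_def, Finset.mem_coe, Multiset.mem_toFinset]
  exact hy

lemma serMap_ser_mem (a : LF A) : ∃ a', ser A a' = serMap (e : k0 A →+* k0 A) (ser A a) := by
  let S : Subfield (LF A) :=
    ((ser A).fieldRange).comap ((serMap (e : k0 A →+* k0 A)).comp (ser A))
  have hS : ∀ r : RF A, algebraMap (RF A) (LF A) r ∈ S := by
    intro r
    obtain ⟨r', hr'⟩ := serMap_rat A e r
    exact ⟨algebraMap _ _ r', by rw [RingHom.comp_apply, ser_rat, ser_rat, hr']⟩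
  let S' : IntermediateField (RF A) (LF A) := S.toIntermediateField hS
  have htop : a ∈ S' := by
    have h1 : Algebra.adjoin (RF A) (rts A) = ⊤ := SplittingField.adjoin_rootSet _
    have h2 : Algebra.adjoin (RF A) (rts A) ≤ S'.toSubalgebra := by
      refine Algebra.adjoin_le fun y hy => ?_
      obtain ⟨ζ, hζ⟩ := ser_root A hy
      obtain ⟨y', -, hy'⟩ := serMap_root A e ζ
      exact ⟨y', by rw [RingHom.comp_apply, hζ, hy']⟩
    exact h2 (h1 ▸ Algebra.mem_top)
  obtain ⟨a', ha'⟩ := htop
  exact ⟨a', ha'⟩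

/-- The semilinear map. -/
def tau : LF A →+* LF A where
  toFun a := (serMap_ser_mem A e a).choose
  map_one' := (ser A).injective (by rw [(serMap_ser_mem A e 1).choose_spec]; simp)
  map_mul' a b := (ser A).injective (by
    rw [(serMap_ser_mem A e (a * b)).choose_spec, map_mul, map_mul, map_mul,
      (serMap_ser_mem A e a).choose_spec, (serMap_ser_mem A e b).choose_spec])
  map_zero' := (ser A).injective (by rw [(serMap_ser_mem A e 0).choose_spec]; simp)
  map_add' a b := (ser A).injective (by
    rw [(serMap_ser_mem A e (a + b)).choose_spec, map_add, map_add, map_add,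
      (serMap_ser_mem A e a).choose_spec, (serMap_ser_mem A e b).choose_spec])

lemma ser_tau (a : LF A) : ser A (tau A e a) = serMap (e : k0 A →+* k0 A) (ser A a) :=
  (serMap_ser_mem A e a).choose_spec

lemma tau_tau (a : LF A) : tau A e (tau A e.symm a) = a := by
  refine (ser A).injective ?_
  ext j
  simp [ser_tau, serMap_coeff]

lemma tau_tau' (a : LF A) : tau A e.symm (tau A e a) = a := by
  refine (ser A).injective ?_
  ext j
  simp [ser_tau, serMap_coeff]

lemma tau_rat (r : RF A) : ∃ r', tau A e (algebraMap (RF A) (LF A) r) = algebraMap (RF A) (LF A) r' := by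
  obtain ⟨r', hr'⟩ := serMap_rat A e r
  exact ⟨r', (ser A).injective (by rw [ser_tau, ser_rat, ser_rat, hr'])⟩

lemma tau_const (c : k0 A) :
    tau A e (algebraMap (k0 A) (LF A) c) = algebraMap (k0 A) (LF A) (e c) := by
  refine (ser A).injective ?_
  ext j
  simp only [ser_tau, serMap_coeff, ser_const, algMap_eq, HahnSeries.C_apply, HahnSeries.coeff_single]
  split_ifs <;> simp

lemma tau_poly (f : (k0 A)[X]) :
    tau A e (algebraMap (k0 A)[X] (LF A) f)
      = algebraMap (k0 A)[X] (LF A) (f.map (e : k0 A →+* k0 A)) :=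
  (ser A).injective (by rw [ser_tau, ser_poly, ser_poly, serMap_poly])

lemma tau_rts {y : LF A} (hy : y ∈ rts A) : tau A e y ∈ rts A := by
  obtain ⟨ζ, hζ⟩ := ser_root A hy
  obtain ⟨y', hy', hy''⟩ := serMap_root A e ζ
  rwa [show tau A e y = y' from (ser A).injective (by rw [ser_tau, hζ, hy''])]

lemma tau_mem {b : LF A} (hb : b ∈ Bring A) : tau A e b ∈ Bring A :=
  map_mem_of_gens A (tau A e) (fun c => by rw [tau_const]; exact Subalgebra.algebraMap_mem _ _)
    (by rw [xL, tau_poly, map_X]; exact xL_mem A) (fun y hy => rts_mem A (tau_rts A e hy)) hb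

/-- A twist: a semilinear map after a Galois automorphism. -/
def twist (g : Gal' A) : Bring A →+* Bring A :=
  RingHom.codRestrict (((tau A e).comp (g : LF A →+* LF A)).comp (Bring A).val.toRingHom)
    (Bring A) fun b => tau_mem A e (gal_mem A g b.2)

lemma twist_coe (g : Gal' A) (b : Bring A) : (twist A e g b : LF A) = tau A e (g b) := rfl

/-- Conjugation. -/
def conjTau (g : Gal' A) : Gal' A :=
  AlgEquiv.ofRingEquiv (f := RingEquiv.ofRingHom
    (((tau A e).comp (g : LF A →+* LF A)).comp (tau A e.symm))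
    (((tau A e).comp (g.symm : LF A →+* LF A)).comp (tau A e.symm))
    (RingHom.ext fun a => by simp [tau_tau', tau_tau])
    (RingHom.ext fun a => by simp [tau_tau', tau_tau]))
    (fun r => by
      obtain ⟨r', hr'⟩ := tau_rat A e.symm r
      show tau A e (g (tau A e.symm (algebraMap (RF A) (LF A) r))) = _
      rw [hr', g.commutes, ← hr', tau_tau])

lemma conjTau_apply (g : Gal' A) (a : LF A) :
    conjTau A e g a = tau A e (g (tau A e.symm a)) := rfl

/-- The permutation of the places induced by a twist. -/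
def twistPerm (g₀ : Gal' A) : Gal' A ≃ Gal' A where
  toFun g := conjTau A e (g * g₀⁻¹)
  invFun g := conjTau A e.symm g * g₀
  left_inv g := by
    refine AlgEquiv.ext fun a => ?_
    rw [AlgEquiv.mul_apply, conjTau_apply, conjTau_apply, RingEquiv.symm_symm, tau_tau', tau_tau',
      AlgEquiv.mul_apply, AlgEquiv.aut_inv, AlgEquiv.symm_apply_apply]
  right_inv g := by
    show conjTau A e (conjTau A e.symm g * g₀ * g₀⁻¹) = g
    rw [mul_inv_cancel_right]
    refine AlgEquiv.ext fun a => ?_
    rw [conjTau_apply, conjTau_apply, RingEquiv.symm_symm, tau_tau, tau_tau]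

lemma twist_Fil (g₀ g : Gal' A) (n : ℤ) (b : Bring A) (hb : b ∈ Fil A g n) :
    twist A e g₀ b ∈ Fil A (twistPerm A e g₀ g) n := by
  rw [mem_Fil] at hb ⊢
  intro j hj
  have h : twistPerm A e g₀ g (twist A e g₀ b : LF A) = tau A e (g b) := by
    show conjTau A e (g * g₀⁻¹) (twist A e g₀ b : LF A) = _
    rw [conjTau_apply, twist_coe, tau_tau', AlgEquiv.mul_apply, AlgEquiv.aut_inv,
      AlgEquiv.symm_apply_apply]
  rw [h, ser_tau, serMap_coeff, hb j hj, map_zero]

end Semilinear

end

end Vale.Agent.P042.Curve.Sm
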