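import Vale.Agent.P042.Curve.Count

/-!
Points of the component over the fields with `p ^ (2 s)` elements, by Stepanov's method.
-/

open Finset Polynomial

namespace Vale.Agent.P042.Curve

open Vale.Agent.P042.Upper

noncomputable section

variable {p : ℕ} [hp : Fact p.Prime] (A : Comp p)

namespace Sm

/-- A root of the component in the splitting ring. -/
def root0 : rts A := (rtsP_nonempty A).choose

lemma root0_mem : root0 A ∈ rtsP A := (rtsP_nonempty A).choose_spec

open scoped Classical in
/-- The stabiliser of the chosen root. -/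
def stab : Finset (Gal' A) := univ.filter fun g => galB A g (rB A (root0 A)) = rB A (root0 A)

lemma one_mem_stab : (1 : Gal' A) ∈ stab A := by simp [stab, galB_one]

open scoped Classical in
/-- The twists fixing the chosen root. -/
def Efix (s : ℕ) : Finset (Gal' A) :=
  univ.filter fun g => twist A (eQ A s) g (rB A (root0 A)) = rB A (root0 A)

lemma card_Efix (s : ℕ) : (Efix A s).card = (stab A).card := by
  set y := root0 A
  set e := eQ A s
  obtain ⟨g1, hg1⟩ := rtsP_transitive A (root0_mem A) (tau_hom_root A e.symm (root0_mem A))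
  replace hg1 : g1 y.1 = tau A e.symm y.1 := hg1
  refine Finset.card_bij' (fun g _ => g1⁻¹ * g) (fun g _ => g1 * g) (fun g hg => ?_) (fun g hg => ?_)
    (fun g _ => by simp) (fun g _ => by simp)
  · simp only [Efix, stab, Finset.mem_filter, mem_univ, true_and] at hg ⊢
    have h : tau A e (g y.1) = y.1 := congrArg Subtype.val hg
    have h2 : g y.1 = g1 y.1 := by
      rw [hg1]
      exact ((congrArg (tau A e.symm) h.symm).trans (tau_tau' A e _)).symm
    refine Subtype.ext ?_
    show (g1⁻¹ * g) y.1 = y.1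
    rw [AlgEquiv.mul_apply, h2, AlgEquiv.aut_inv, AlgEquiv.symm_apply_apply]
  · simp only [Efix, stab, Finset.mem_filter, mem_univ, true_and] at hg ⊢
    have h : g y.1 = y.1 := congrArg Subtype.val hg
    refine Subtype.ext ?_
    show tau A e ((g1 * g) y.1) = y.1
    rw [AlgEquiv.mul_apply, h, hg1]
    exact tau_tau A e _

open scoped Classical in
/-- The points with everything above `x` noncritical. -/
def ptsG (s : ℕ) : Finset (KK p × KK p) := (pts A (2 * s)).filter fun P => GoodX A P.1

lemma sum_transfer {s : ℕ} (hs : 1 ≤ s) (F : KK p → ℂ) :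
    ∑ g ∈ Efix A s, ∑ φ ∈ fibre A s g, F (φ (xB A))
      = ((stab A).card : ℂ) * ∑ P ∈ ptsG A s, F P.1 := by
  classical
  set y := root0 A
  have hy := root0_mem A
  set sel := (Efix A s).biUnion (fibre A s) with hsel
  have hmem : ∀ φ, φ ∈ sel ↔ φ ∈ allPts A s ∧ φ (rB A y) ∈ WeilProof.fixk p (2 * s) := by
    intro φ
    rw [hsel, Finset.mem_biUnion, WeilProof.mem_fixk p (by omega), WeilProof.fr_iterate]
    constructor
    · rintro ⟨g, hg, hφ⟩
      rw [mem_fibre] at hφ
      refine ⟨hφ.1, ?_⟩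
      simp only [Efix, Finset.mem_filter, mem_univ, true_and] at hg
      rw [hφ.2, hg]
    · rintro ⟨hall, hr⟩
      have hX := (mem_XS A).1 ((mem_allPts A).1 hall)
      obtain ⟨g, hg⟩ := exists_twist A (eQ A s) (2 * s) (eQ_apply A s) φ
        (fixk_pow (by omega) hX.1)
      refine ⟨g, ?_, (mem_fibre A).2 ⟨hall, hg⟩⟩
      simp only [Efix, Finset.mem_filter, mem_univ, true_and]
      have h : φ (rB A ⟨tau A (eQ A s) (g y.1), tau_rts A _ (gal_rts A g y.2)⟩) = φ (rB A y) :=
        (hg (rB A y)).symm.trans hr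
      have h3 := point_inj A hX.2 h
      exact Subtype.ext (show tau A (eQ A s) (g y.1) = y.1 from congrArg Subtype.val h3)
  rw [← Finset.sum_biUnion fun g _ g' _ hne => fibre_disjoint A s hne, ← hsel,
    ← Finset.sum_fiberwise_of_maps_to (s := sel) (t := ptsG A s)
      (g := fun φ => (φ (xB A), φ (rB A y))) (fun φ hφ => ?_), Finset.mul_sum]
  · refine Finset.sum_congr rfl fun P hP => ?_
    simp only [ptsG, pts, Finset.mem_filter, Finset.mem_product] at hP
    obtain ⟨⟨⟨hx, hv⟩, hgood, hc⟩, hX⟩ := hP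
    obtain ⟨φ1, h1, h2⟩ := exists_pt_over A (x := P.1) (v := P.2) hc hy
    have hcard : (sel.filter fun φ => (φ (xB A), φ (rB A y)) = P).card = (stab A).card := by
      refine (Finset.card_bij (fun g _ => φ1.comp (galB A g)) (fun g hg => ?_)
        (fun g _ g' _ h => comp_galB_inj A (by rw [h1]; exact hX) h) (fun φ hφ => ?_)).symm
      · simp only [stab, Finset.mem_filter, mem_univ, true_and] at hg
        have e1 : φ1.comp (galB A g) (xB A) = P.1 := by rw [AlgHom.comp_apply, galB_xB, h1]
        have e2 : φ1.comp (galB A g) (rB A y) = P.2 := by rw [AlgHom.comp_apply, hg, h2]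
        rw [Finset.mem_filter, hmem, mem_allPts, mem_XS, e1, e2]
        exact ⟨⟨⟨hx, hX⟩, hv⟩, rfl⟩
      · rw [Finset.mem_filter, Prod.ext_iff] at hφ
        obtain ⟨g, hg⟩ := pt_transitive A (φ := φ1) (φ' := φ) (by rw [h1]; exact hφ.2.1.symm)
        refine ⟨g, ?_, hg.symm⟩
        simp only [stab, Finset.mem_filter, mem_univ, true_and]
        have h : φ1 (galB A g (rB A y)) = φ1 (rB A y) := by
          exact (DFunLike.congr_fun hg (rB A y)).symm.trans (hφ.2.2.trans h2.symm)
        exact congrArg (rB A) (point_inj A (y := ⟨g y.1, gal_rts A g y.2⟩) (y' := y)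
          (by rw [h1]; exact hX) h)
    rw [Finset.sum_congr rfl (g := fun _ => F P.1) (fun φ hφ => by
      rw [← (Finset.mem_filter.1 hφ).2]), Finset.sum_const, hcard, nsmul_eq_mul]
  · rw [hmem, mem_allPts, mem_XS] at hφ
    simp only [ptsG, pts, Finset.mem_filter, Finset.mem_product]
    exact ⟨⟨⟨hφ.1.1, hφ.2⟩, hφ.1.2 _ (root_val A φ y), onCurve_root A φ hy⟩, hφ.1.2⟩

lemma stab_pos : (0 : ℝ) < (stab A).card := by
  exact_mod_cast Finset.card_pos.2 ⟨1, one_mem_stab A⟩

/-- The few points above bad `x`. -/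
lemma card_bad (s : ℕ) :
    ((pts A (2 * s)).card : ℕ) ≤ (ptsG A s).card + (badX A).card * A.h.natDegree ∧
      (ptsG A s).card ≤ (pts A (2 * s)).card ∧
      (pts A (2 * s) \ ptsG A s).card ≤ (badX A).card * A.h.natDegree := by
  classical
  have hsub : ptsG A s ⊆ pts A (2 * s) := Finset.filter_subset _ _
  have h1 : (pts A (2 * s) \ ptsG A s).card ≤ (badX A).card * A.h.natDegree := by
    refine le_trans (Finset.card_le_card (t := (badX A).biUnion fun x =>
      ((A.h.map (algebraMap (ZMod p) (KK p)) + C (aeval x A.h)).roots.toFinset).image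
        fun v => (x, v)) ?_) (Finset.card_biUnion_le_card_mul _ _ _ fun x _ => ?_)
    · intro P hP
      simp only [ptsG, Finset.mem_sdiff, Finset.mem_filter, not_and] at hP
      simp only [Finset.mem_biUnion, Finset.mem_image, Multiset.mem_toFinset]
      refine ⟨P.1, mem_badX A (hP.2 hP.1), P.2, ?_, rfl⟩
      rw [mem_roots (hK_ne A _), IsRoot.def, eval_add, eval_C, eval_map, ← aeval_def]
      have hc : OnCurve A P := by
        have := hP.1
        simp only [pts, Finset.mem_filter] at this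
        exact this.2.2
      obtain ⟨T, hT⟩ := A.dvd
      have h2 := congrArg (fun f => (f.map
        (eval₂RingHom (algebraMap (ZMod p) (KK p)) P.1)).eval P.2) hT
      have hc' : (A.P.map (eval₂RingHom (algebraMap (ZMod p) (KK p)) P.1)).eval P.2 = 0 := hc
      simp only [Polynomial.map_add, map_C, Polynomial.map_map, Polynomial.map_mul, eval_add,
        eval_mul, eval_C, hc', zero_mul, coe_eval₂RingHom] at h2
      rw [show (eval₂RingHom (algebraMap (ZMod p) (KK p)) P.1).comp C = algebraMap (ZMod p) (KK p) by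
        ext c; simp, eval_map, ← aeval_def, ← aeval_def, add_comm] at h2
      exact h2
    · refine Finset.card_image_le.trans ((Multiset.toFinset_card_le _).trans ((card_roots' _).trans ?_))
      rw [natDegree_add_C, natDegree_map]
  have h2 := Finset.card_le_card hsub
  have h3 := Finset.card_sdiff_of_subset hsub
  exact ⟨by omega, h2, h1⟩

end Sm

open Sm

/-- The number of points over even extensions. The constant may depend on everything but `s`. -/
theorem card_pts_even (A : Comp p) : ∃ C : ℝ, ∀ s : ℕ, 1 ≤ s →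
    |((pts A (2 * s)).card : ℝ) - (p : ℝ) ^ (2 * s)| ≤ C * (p : ℝ) ^ s := by
  obtain ⟨C, hC0, hC⟩ := card_fibre_approx A
  refine ⟨C + ((badX A).card * A.h.natDegree : ℕ), fun s hs => ?_⟩
  have hb : (1 : ℝ) ≤ (p : ℝ) ^ s := one_le_pow₀ (by exact_mod_cast hp.out.one_le)
  have h := sum_transfer A hs (fun _ => 1)
  simp only [Finset.sum_const, nsmul_eq_mul, mul_one] at h
  have h' : ∑ g ∈ Efix A s, ((fibre A s g).card : ℝ)
      = ((stab A).card : ℝ) * (ptsG A s).card := by
    have := congrArg Complex.re h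
    simpa using this
  have hd : |(stab A).card * ((ptsG A s).card - (p : ℝ) ^ (2 * s))|
      ≤ (stab A).card * (C * (p : ℝ) ^ s) := by
    rw [mul_sub, ← h', ← card_Efix A s, ← nsmul_eq_mul, ← Finset.sum_const, ← Finset.sum_sub_distrib]
    refine (Finset.abs_sum_le_sum_abs _ _).trans
      ((Finset.sum_le_sum fun g _ => hC s hs g).trans ?_)
    rw [Finset.sum_const, nsmul_eq_mul]
  rw [abs_mul, abs_of_pos (stab_pos A)] at hd
  have h1 := abs_le.1 (le_of_mul_le_mul_left hd (stab_pos A))
  obtain ⟨hbad, hle, -⟩ := card_bad A s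
  have hbad' : ((pts A (2 * s)).card : ℝ)
      ≤ (ptsG A s).card + ((badX A).card * A.h.natDegree : ℕ) := by exact_mod_cast hbad
  have hle' : ((ptsG A s).card : ℝ) ≤ (pts A (2 * s)).card := by exact_mod_cast hle
  have h0 : (0 : ℝ) ≤ ((badX A).card * A.h.natDegree : ℕ) := Nat.cast_nonneg _
  rw [abs_le]
  constructor <;> nlinarith

/-- The character sums over even extensions. The constant may depend on everything but `s`. -/
theorem csum_even (A : Comp p) (ψ : AddChar (ZMod p) ℂ) (hψ : ψ ≠ 1) (g : (ZMod p)[X])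
    (hg : 1 ≤ g.natDegree) (hgp : g.natDegree < p) : ∃ C : ℝ, ∀ s : ℕ, 1 ≤ s →
      ‖csum A ψ g (2 * s)‖ ≤ C * (p : ℝ) ^ s := by
  obtain ⟨C, hC⟩ := norm_fibre_sum A ψ hψ g hg hgp
  refine ⟨C + ((badX A).card * A.h.natDegree : ℕ), fun s hs => ?_⟩
  classical
  have hb : (1 : ℝ) ≤ (p : ℝ) ^ s := one_le_pow₀ (by exact_mod_cast hp.out.one_le)
  have h := sum_transfer A hs (fun x => ψ (trc g (2 * s) x))
  have hd : ((stab A).card : ℝ) * ‖∑ P ∈ ptsG A s, ψ (trc g (2 * s) P.1)‖
      ≤ (stab A).card * (C * (p : ℝ) ^ s) := by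
    calc ((stab A).card : ℝ) * ‖∑ P ∈ ptsG A s, ψ (trc g (2 * s) P.1)‖
        = ‖((stab A).card : ℂ) * ∑ P ∈ ptsG A s, ψ (trc g (2 * s) P.1)‖ := by
          rw [norm_mul, Complex.norm_natCast]
      _ ≤ _ := by
        rw [← h]
        refine (norm_sum_le _ _).trans ((Finset.sum_le_sum fun σ _ => hC s hs σ).trans ?_)
        rw [Finset.sum_const, card_Efix, nsmul_eq_mul]
  have h1 := le_of_mul_le_mul_left hd (stab_pos A)
  have hsub : ptsG A s ⊆ pts A (2 * s) := Finset.filter_subset _ _
  show ‖∑ P ∈ pts A (2 * s), ψ (trc g (2 * s) P.1)‖ ≤ _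
  rw [← Finset.sum_sdiff hsub]
  refine (norm_add_le _ _).trans ?_
  have h2 : ‖∑ P ∈ pts A (2 * s) \ ptsG A s, ψ (trc g (2 * s) P.1)‖
      ≤ ((pts A (2 * s) \ ptsG A s).card : ℝ) := by
    refine (norm_sum_le _ _).trans (le_of_eq ?_)
    simp [AddChar.norm_apply]
  have h3 : ((pts A (2 * s) \ ptsG A s).card : ℝ) ≤ ((badX A).card * A.h.natDegree : ℕ) := by
    exact_mod_cast (card_bad A s).2.2
  have h0 : (0 : ℝ) ≤ ((badX A).card * A.h.natDegree : ℕ) := Nat.cast_nonneg _
  nlinarith

end

end Vale.Agent.P042.Curve
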